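import Vale.Agent.P225.Geom.Warped

/-!
P225, module B: derivatives of matrix paths, the derivative of a determinant, and the warped
matrix `s² h(log s)`.
-/

noncomputable section

namespace Vale.Agent.P225.PathMetric

open Matrix
open scoped ContDiff Topology

variable {h : ℝ → Matrix (Fin 6) (Fin 6) ℝ}

theorem hasDerivAt_mderiv (hh : ∀ i j, ContDiff ℝ ∞ fun s => h s i j) (t : ℝ) (i j : Fin 6) :
    HasDerivAt (fun s => h s i j) (mderiv h t i j) t :=
  (((hh i j).differentiable (by simp)) t).hasDerivAt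

theorem smooth_mderiv (hh : ∀ i j, ContDiff ℝ ∞ fun s => h s i j) (i j : Fin 6) :
    ContDiff ℝ ∞ fun s => mderiv h s i j :=
  contDiff_iff_contDiffAt.2 fun _ => contDiffAt_mderiv (fun a b => (hh a b).contDiffAt) i j

/-- Derivative of an entry of a product. -/
theorem hasDerivAt_mul_entry {A B : ℝ → Matrix (Fin 6) (Fin 6) ℝ}
    {A' B' : Matrix (Fin 6) (Fin 6) ℝ} {t : ℝ}
    (hA : ∀ i j, HasDerivAt (fun s => A s i j) (A' i j) t)
    (hB : ∀ i j, HasDerivAt (fun s => B s i j) (B' i j) t) (i j : Fin 6) :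
    HasDerivAt (fun s => (A s * B s) i j) ((A' * B t + A t * B') i j) t := by
  simp only [Matrix.mul_apply, Matrix.add_apply, ← Finset.sum_add_distrib]
  exact HasDerivAt.fun_sum fun k _ => (hA i k).mul (hB k j)

/-- The determinant at the identity has the trace as derivative. -/
theorem hasDerivAt_det_one {E : ℝ → Matrix (Fin 6) (Fin 6) ℝ} {E' : Matrix (Fin 6) (Fin 6) ℝ}
    {t : ℝ} (h0 : E t = 1) (hE : ∀ i j, HasDerivAt (fun s => E s i j) (E' i j) t) :
    HasDerivAt (fun s => (E s).det) E'.trace t := by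
  simp only [Matrix.det_apply']
  have h1 := HasDerivAt.fun_sum (u := (Finset.univ : Finset (Equiv.Perm (Fin 6))))
    (fun σ (_ : σ ∈ Finset.univ) => (HasDerivAt.fun_finsetProd (u := (Finset.univ : Finset (Fin 6)))
      fun i _ => hE (σ i) i).const_mul ((Equiv.Perm.sign σ : ℤ) : ℝ))
  convert! h1 using 1
  rw [Finset.sum_eq_single (1 : Equiv.Perm (Fin 6))]
  · simp [h0, Matrix.trace]
  · intro σ _ hσ
    refine mul_eq_zero_of_right _ (Finset.sum_eq_zero fun i _ => ?_)
    obtain ⟨j, hji, hj⟩ : ∃ j, j ≠ i ∧ σ j ≠ j := by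
      by_cases hi : σ i = i
      · obtain ⟨j, hj⟩ : ∃ j, σ j ≠ j := by
          by_contra hc
          push Not at hc
          exact hσ (Equiv.ext fun j => by simpa using hc j)
        exact ⟨j, fun e => hj (e ▸ hi), hj⟩
      · exact ⟨σ i, hi, fun e => hi (σ.injective e)⟩
    rw [Finset.prod_eq_zero (i := j) (by simp [hji]) (by rw [h0, Matrix.one_apply_ne hj])]
    simp
  · simp

/-- Derivative of a determinant. -/
theorem hasDerivAt_det {t : ℝ} {h' : Matrix (Fin 6) (Fin 6) ℝ} (hd : (h t).det ≠ 0)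
    (hh : ∀ i j, HasDerivAt (fun s => h s i j) (h' i j) t) :
    HasDerivAt (fun s => (h s).det) ((h t).det * ((h t)⁻¹ * h').trace) t := by
  have hu : IsUnit (h t).det := isUnit_iff_ne_zero.2 hd
  have h1 : HasDerivAt (fun s => ((h t)⁻¹ * h s).det) ((h t)⁻¹ * h').trace t := by
    refine hasDerivAt_det_one (Matrix.nonsing_inv_mul _ hu) fun i j => ?_
    have := hasDerivAt_mul_entry (A := fun _ => (h t)⁻¹) (A' := 0)
      (fun a b => hasDerivAt_const t _) hh i j
    simpa using this
  refine (h1.const_mul (h t).det).congr_of_eventuallyEq (Filter.Eventually.of_forall fun s => ?_)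
  simp [Matrix.det_mul, Matrix.det_nonsing_inv, hd]

/-- Derivative of the inverse. -/
theorem hasDerivAt_inv (hh : ∀ i j, ContDiff ℝ ∞ fun s => h s i j) {t : ℝ} (hd : (h t).det ≠ 0)
    (i j : Fin 6) :
    HasDerivAt (fun s => (h s)⁻¹ i j) (-((h t)⁻¹ * mderiv h t * (h t)⁻¹) i j) t := by
  set N' : Matrix (Fin 6) (Fin 6) ℝ := mderiv (fun s => (h s)⁻¹) t with hN'
  have hN : ∀ a b, HasDerivAt (fun s => (h s)⁻¹ a b) (N' a b) t := fun a b =>
    ((contDiffAt_inv_entries (fun p q => (hh p q).contDiffAt) hd a b).differentiableAt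
      (by simp)).hasDerivAt
  have hne : ∀ᶠ s in 𝓝 t, (h s).det ≠ 0 :=
    ((contDiffAt_det_entries fun p q => (hh p q).contDiffAt).continuousAt).eventually_ne hd
  have hz : N' * h t + (h t)⁻¹ * mderiv h t = 0 := by
    ext a b
    have h1 := hasDerivAt_mul_entry hN (hasDerivAt_mderiv hh t) a b
    have h2 : HasDerivAt (fun s => ((h s)⁻¹ * h s) a b) 0 t :=
      (hasDerivAt_const t ((1 : Matrix (Fin 6) (Fin 6) ℝ) a b)).congr_of_eventuallyEq
        (hne.mono fun s hs => by
          simp [Matrix.nonsing_inv_mul _ (isUnit_iff_ne_zero.2 hs)])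
    simpa using h1.unique h2
  have hu : IsUnit (h t).det := isUnit_iff_ne_zero.2 hd
  have : N' = -((h t)⁻¹ * mderiv h t * (h t)⁻¹) := by
    have h3 := congrArg (· * (h t)⁻¹) hz
    simp only [add_mul, zero_mul, Matrix.mul_nonsing_inv_cancel_right _ _ hu] at h3
    exact eq_neg_of_add_eq_zero_left h3
  simpa [this] using hN i j

/-- Derivative of `tr (h⁻¹ h')`. -/
theorem hasDerivAt_trace (hh : ∀ i j, ContDiff ℝ ∞ fun s => h s i j) {t : ℝ}
    (hd : (h t).det ≠ 0) :
    HasDerivAt (fun s => ((h s)⁻¹ * mderiv h s).trace)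
      (((h t)⁻¹ * mderiv (mderiv h) t).trace -
        (((h t)⁻¹ * mderiv h t) * ((h t)⁻¹ * mderiv h t)).trace) t := by
  have h1 := HasDerivAt.fun_sum (u := (Finset.univ : Finset (Fin 6))) fun i _ =>
    hasDerivAt_mul_entry (A' := -((h t)⁻¹ * mderiv h t * (h t)⁻¹))
      (fun a b => by simpa using hasDerivAt_inv hh hd a b)
      (hasDerivAt_mderiv (smooth_mderiv hh) t) i i
  simp only [Matrix.trace, Matrix.diag]
  convert! h1 using 1
  simp only [Matrix.add_apply, Finset.sum_add_distrib, neg_mul, Matrix.neg_apply,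
    Finset.sum_neg_distrib, Matrix.mul_assoc]
  ring

/-- The warped matrix `s² h(log s)`. -/
abbrev warp (h : ℝ → Matrix (Fin 6) (Fin 6) ℝ) : ℝ → Matrix (Fin 6) (Fin 6) ℝ :=
  fun s => s ^ 2 • h (Real.log s)

theorem mderiv_warp (hh : ∀ i j, ContDiff ℝ ∞ fun s => h s i j) {x : ℝ} (hx : 0 < x) :
    mderiv (warp h) x = x • ((2 : ℝ) • h (Real.log x) + mderiv h (Real.log x)) := by
  ext i j
  have h1 := (hasDerivAt_mderiv hh (Real.log x) i j).comp x (Real.hasDerivAt_log hx.ne')
  have h2 := (hasDerivAt_pow 2 x).mul h1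
  refine HasDerivAt.deriv ?_
  simp only [warp, Matrix.smul_apply, Matrix.add_apply, smul_eq_mul]
  convert! h2 using 1
  simp [Function.comp]
  field_simp

theorem mderiv_mderiv_warp (hh : ∀ i j, ContDiff ℝ ∞ fun s => h s i j) {x : ℝ} (hx : 0 < x) :
    mderiv (mderiv (warp h)) x =
      (2 : ℝ) • h (Real.log x) + (3 : ℝ) • mderiv h (Real.log x) +
        mderiv (mderiv h) (Real.log x) := by
  ext i j
  have hl := Real.hasDerivAt_log hx.ne'
  have h1 := (hasDerivAt_mderiv hh (Real.log x) i j).comp x hl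
  have h2 := (hasDerivAt_mderiv (smooth_mderiv hh) (Real.log x) i j).comp x hl
  have h3 := (hasDerivAt_id x).mul ((h1.const_mul 2).add h2)
  refine HasDerivAt.deriv ?_
  refine HasDerivAt.congr_of_eventuallyEq
    (f := fun y => y * (2 * h (Real.log y) i j + mderiv h (Real.log y) i j)) ?_
    (Filter.eventually_of_mem (Ioi_mem_nhds hx) fun y (hy : 0 < y) => ?_)
  · simp only [Matrix.smul_apply, Matrix.add_apply, smul_eq_mul]
    convert! h3 using 1
    simp [Function.comp]
    field_simp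
    ring
  · show mderiv (warp h) y i j = _
    rw [mderiv_warp hh hy]
    simp

/-- The connection of a link does not see the scale. -/
theorem linkGamma_smul {c : ℝ} (hc : c ≠ 0) {A : Matrix (Fin 6) (Fin 6) ℝ} (hA : A.det ≠ 0)
    (C : Fin 6 → Fin 6 → Fin 6 → ℝ) (i j l : Fin 6) :
    linkGamma (c • A) C i j l = linkGamma A C i j l := by
  have h1 : (c • A)⁻¹ = c⁻¹ • A⁻¹ := Matrix.inv_eq_right_inv (by
    rw [Matrix.smul_mul, Matrix.mul_smul, smul_smul, mul_inv_cancel₀ hc, one_smul,
      Matrix.mul_nonsing_inv _ (isUnit_iff_ne_zero.2 hA)])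
  simp only [linkGamma, h1, Matrix.smul_apply, smul_eq_mul, Finset.mul_sum]
  refine Finset.sum_congr rfl fun e _ => Finset.sum_congr rfl fun k _ => ?_
  field_simp

theorem linkRicci_smul {c : ℝ} (hc : c ≠ 0) {A : Matrix (Fin 6) (Fin 6) ℝ} (hA : A.det ≠ 0)
    (C : Fin 6 → Fin 6 → Fin 6 → ℝ) (i j : Fin 6) :
    linkRicci (c • A) C i j = linkRicci A C i j := by
  simp only [linkRicci, linkGamma_smul hc hA]

/-- The three parts of the Ricci tensor of `dr² + r² h(log r)`. -/
theorem warp_ricci {V : Set Pt} {g : MetricField} {E : Fin 7 → Pt → Pt} {r : Pt → ℝ}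
    {c : Fin 6 → Fin 6 → Fin 6 → ℝ} {c7 : Fin 7 → Fin 7 → Fin 7 → ℝ}
    (hh : ∀ i j, ContDiff ℝ ∞ fun s => h s i j) (W : IsWarped V g E r (warp h) c c7)
    {v : Pt} (hv : v ∈ V) (hr : 0 < r v) :
    let t := Real.log (r v)
    let N := (h t)⁻¹
    let A := N * mderiv h t
    frameRicci g E c7 0 0 v = (r v ^ 2)⁻¹ *
        (-(1 / 2) * A.trace - (1 / 2) * (N * mderiv (mderiv h) t).trace +
          (1 / 4) * (A * A).trace) ∧
      (∀ i, frameRicci g E c7 0 (lk i) v =
        (r v)⁻¹ * (-(1 / 2) * ∑ k, ∑ l, linkGamma (h t) c k i l * A k l)) ∧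
      ∀ i j, frameRicci g E c7 (lk i) (lk j) v =
        linkRicci (h t) c i j - 5 * h t i j + (-(5 / 2) * mderiv h t i j -
          (1 / 2) * mderiv (mderiv h) t i j + (1 / 2) * (mderiv h t * N * mderiv h t) i j -
          (1 / 2) * A.trace * h t i j - (1 / 4) * A.trace * mderiv h t i j) := by
  intro t N A
  have hdM := W.det_ne hv
  have hd : (h t).det ≠ 0 := fun e => hdM (by simp [warp, t, e] at *)
  have hr2 : (r v) ^ 2 ≠ 0 := pow_ne_zero _ hr.ne'
  have hu : IsUnit (h t).det := isUnit_iff_ne_zero.2 hd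
  have hM : (warp h (r v))⁻¹ = (r v ^ 2)⁻¹ • N := Matrix.inv_eq_right_inv (by
    simp only [warp, N, t, Matrix.smul_mul, Matrix.mul_smul, smul_smul, mul_inv_cancel₀ hr2,
      one_smul, Matrix.mul_nonsing_inv _ hu]
    rw [inv_mul_cancel₀ hr2, one_smul])
  have hMM : (warp h (r v))⁻¹ * mderiv (warp h) (r v) = (r v)⁻¹ • ((2 : ℝ) • 1 + A) := by
    rw [hM, mderiv_warp hh hr, Matrix.smul_mul, Matrix.mul_smul, smul_smul, mul_add,
      Matrix.mul_smul, Matrix.nonsing_inv_mul _ hu]
    congr 1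
    field_simp
  refine ⟨?_, fun i => ?_, fun i j => ?_⟩
  · rw [frameRicci_radial W hv, hMM, hM, mderiv_mderiv_warp hh hr]
    simp only [Matrix.smul_mul, Matrix.mul_smul, mul_add, add_mul, Matrix.mul_one, Matrix.one_mul,
      Matrix.nonsing_inv_mul _ hu, Matrix.trace_smul, Matrix.trace_add, Matrix.trace_one,
      Fintype.card_fin, smul_eq_mul, smul_smul, smul_add, N, A, t]
    field_simp
    push_cast
    ring
  · rw [frameRicci_mixed W hv, hMM]
    simp only [warp, linkGamma_smul hr2 hd, Matrix.smul_apply, Matrix.add_apply, smul_eq_mul, t]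
    have h0 := linkGamma_trace (c := c) (Matrix.IsSymm.ext fun a b => by
      have := (W.symmM (r v)).apply a b
      simpa [warp, hr.ne'] using this) hd W.anti W.unimodular i
    have hk : ∀ k l, linkGamma (h (Real.log (r v))) c k i l *
        ((r v)⁻¹ * (2 * (1 : Matrix (Fin 6) (Fin 6) ℝ) k l + A k l)) =
        (r v)⁻¹ * (linkGamma (h (Real.log (r v))) c k i l * A k l) +
          2 * (r v)⁻¹ * if k = l then linkGamma (h (Real.log (r v))) c k i l else 0 := by
      intro k l
      rw [Matrix.one_apply]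
      split_ifs <;> ring
    simp only [hk, Finset.sum_add_distrib, ← Finset.mul_sum, Finset.sum_ite_eq, Finset.mem_univ,
      if_true]
    rw [show ∑ k, linkGamma (h (Real.log (r v))) c k i k = 0 from h0]
    ring
  · rw [frameRicci_link W hv, hMM, mderiv_mderiv_warp hh hr, mderiv_warp hh hr]
    simp only [warp]
    rw [linkRicci_smul hr2 hd]
    have hprod : (r v • ((2 : ℝ) • h t + mderiv h t)) * (r v ^ 2 • h t)⁻¹ *
        (r v • ((2 : ℝ) • h t + mderiv h t)) =
        (4 : ℝ) • h t + (4 : ℝ) • mderiv h t + mderiv h t * N * mderiv h t := by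
      have hM' : (r v ^ 2 • h t)⁻¹ = (r v ^ 2)⁻¹ • N := hM
      rw [hM']
      simp only [Matrix.smul_mul, Matrix.mul_smul, smul_smul]
      rw [show r v * ((r v ^ 2)⁻¹ * r v) = 1 by field_simp, one_smul]
      simp only [add_mul, mul_add, Matrix.smul_mul, Matrix.mul_smul, smul_smul, N,
        Matrix.mul_nonsing_inv _ hu, Matrix.nonsing_inv_mul_cancel_right _ _ hu, Matrix.one_mul]
      module
    rw [hprod]
    simp only [Matrix.trace_smul, Matrix.trace_add, Matrix.trace_one, Matrix.smul_apply,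
      Matrix.add_apply, smul_eq_mul, Fintype.card_fin, t]
    field_simp
    push_cast
    ring

end Vale.Agent.P225.PathMetric
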