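import Vale.Agent.P225.Path.Metric.Assembly

/-!
P225, module B: the order of the choices — cap, curvature margin, switching time, travel time,
first cluster.
-/

noncomputable section

namespace Vale.Agent.P225.PathMetric

open Matrix Real Filter
open scoped ContDiff Topology

/-- The slopes of the cap leave room on the whole product segment. -/
theorem cone_room {α β : ℝ} (hα : 0 < α) (hβ : 0 < β) (hα2 : α ^ 2 < 2 / 5) (hβ2 : β ^ 2 < 2 / 5) :
    ∀ σ ∈ Set.uIcc (log (β / α)) 0,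
      10 < sqrt 3 * coneScale α β * exp σ ∧ 10 < sqrt 3 * coneScale α β * exp (-σ) := by
  have hs : sqrt 3 * coneScale α β = 4 / (α * β) := by
    rw [coneScale]
    have : sqrt 3 ≠ 0 := (Real.sqrt_pos.2 (by norm_num)).ne'
    field_simp
  have hab : 10 < 4 / (α * β) := by
    rw [lt_div_iff₀ (by positivity)]
    nlinarith [two_mul_le_add_sq α β]
  have hA : 10 < 4 / (α * β) * exp (log (β / α)) := by
    rw [exp_log (div_pos hβ hα), show 4 / (α * β) * (β / α) = 4 / α ^ 2 by field_simp,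
      lt_div_iff₀ (by positivity)]
    linarith
  have hB : 10 < 4 / (α * β) * exp (-log (β / α)) := by
    rw [exp_neg, exp_log (div_pos hβ hα), show 4 / (α * β) * (β / α)⁻¹ = 4 / β ^ 2 by field_simp,
      lt_div_iff₀ (by positivity)]
    linarith
  intro σ hσ
  rw [hs]
  have hpos : 0 ≤ 4 / (α * β) := by positivity
  have up : ∀ x, exp (min x 0) ≤ exp σ → 10 < 4 / (α * β) * exp x →
      10 < 4 / (α * β) * exp σ := by
    intro x hx h10
    refine lt_of_lt_of_le ?_ (mul_le_mul_of_nonneg_left hx hpos)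
    rcases le_total x 0 with h | h
    · rwa [min_eq_left h]
    · rwa [min_eq_right h, exp_zero, mul_one]
  refine ⟨up _ (exp_le_exp.2 hσ.1) hA, ?_⟩
  have hx : min (-log (β / α)) 0 ≤ -σ := by
    rcases le_total (log (β / α)) 0 with h | h
    · rw [min_eq_right (by linarith)]
      rw [Set.uIcc_of_le h] at hσ
      linarith [hσ.2]
    · rw [min_eq_left (by linarith)]
      rw [Set.uIcc_of_ge h] at hσ
      linarith [hσ.2]
  refine lt_of_lt_of_le ?_ (mul_le_mul_of_nonneg_left (exp_le_exp.2 hx) hpos)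
  rcases le_total (-log (β / α)) 0 with h | h
  · rwa [min_eq_left h]
  · rwa [min_eq_right h, exp_zero, mul_one]

/-- All choices. -/
theorem exists_setup (period : ℕ) (plan : ℕ → List StagePlan) (hp0 : 0 < period)
    (hper : ∀ j, plan (j + period) = plan j) (box : ℝ) (hbox : 0 ≤ box) :
    ∃ j₁ : ℕ, ∀ j₀ ≥ j₁, ∃ (α β b₀ r₁ κ κ₀ T L φ₀ : ℝ) (P φ ea eb : ℝ → ℝ),
      Setup ⟨period, plan, j₀, box, P, preFun (log (β / α)) L P ea eb⟩
        α β b₀ r₁ κ κ₀ T L φ₀ P φ ea eb ∧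
      ContDiff ℝ ∞ (prePar (log (β / α)) L P) ∧ φ₀ ≤ (j₀ : ℝ) := by
  obtain ⟨a, b, b₀, r₁, R, α, β, ra, rb, η, hc⟩ := exists_cap
  have hα2 : α ^ 2 < 2 / 5 := by linarith [hc.α_small, hc.η_pos]
  have hβ2 : β ^ 2 < 2 / 5 := by linarith [hc.β_small, hc.η_pos]
  have hP0 : 0 < coneScale α β := by
    have := hc.α_pos; have := hc.β_pos; rw [coneScale]; positivity
  obtain ⟨κ, hκ, hslow⟩ := exists_slow_const hP0 (cone_room hc.α_pos hc.β_pos hα2 hβ2)
  -- constants of the plan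
  set D := ∑ j ∈ Finset.range period, planDur (plan j)
  set N := ∑ j ∈ Finset.range period, ((plan j).map StagePlan.len).sum
  have hmod : ∀ j, plan j = plan (j % period) := fun j =>
    (Function.Periodic.map_mod_nat (f := plan) hper j).symm
  have hD : ∀ j, planDur (plan j) ≤ D := fun j => by
    rw [hmod j]
    exact Finset.single_le_sum (f := fun j => planDur (plan j)) (fun k _ => Sched.planDur_nonneg _)
      (Finset.mem_range.2 (Nat.mod_lt j hp0))
  have hD0 : 0 ≤ D := (Sched.planDur_nonneg _).trans (hD 0)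
  have hN : ∀ j, ∀ σ ∈ plan j, σ.len ≤ N := fun j σ hσ => by
    rw [hmod j] at hσ
    exact (List.le_sum_of_mem (List.mem_map_of_mem hσ)).trans
      (Finset.single_le_sum (f := fun j => ((plan j).map StagePlan.len).sum)
        (fun k _ => Nat.zero_le _) (Finset.mem_range.2 (Nat.mod_lt j hp0)))
  obtain ⟨B, hB, hstage⟩ := exists_stage_bound N hbox
  obtain ⟨Bp, hBp, hpre⟩ := exists_pre_bound (log (β / α))
  -- profile and travel time
  set κ₀ := min (κ / 20) (1 / 10)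
  have hκ₀ : 0 < κ₀ := lt_min (by linarith) (by norm_num)
  obtain ⟨T, φ₀, P, φ, ea, eb, hprof⟩ := exists_profile hc hκ₀
  have hφ₀ := hprof.φ₀_pos
  have hz : ∀ (C : ℝ) (m : ℕ), 1 ≤ m → ∀ᶠ x : ℝ in atTop, C / x ^ m < κ := fun C m hm =>
    ((tendsto_const_nhds (x := C)).div_atTop (tendsto_pow_atTop (by omega))).eventually_lt_const hκ
  obtain ⟨L, hL1, hL2, hL3, hL4, hL5⟩ := ((eventually_ge_atTop (T + 1)).and
    ((eventually_ge_atTop (1 : ℝ)).and
    (((hprof.lim.comp (tendsto_id.const_mul_atTop (show (0 : ℝ) < 3 by norm_num))).eventually_const_lt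
      (show (67 / 10 : ℝ) < 27 / 4 by norm_num)).and
    ((hz Bp 1 le_rfl).and
    (eventually_rate (m := 1) (n := 1) (by norm_num) Bp (show (0 : ℝ) ≤ 5 by norm_num)
      (mul_pos hκ hφ₀)))))).exists
  simp only [pow_one] at hL4 hL5
  obtain ⟨X, hX⟩ := eventually_atTop.1 ((eventually_rate (m := 4) (n := 6) (by norm_num) B
    (show (0 : ℝ) ≤ 2 * D + 3 by linarith) (mul_pos hκ hφ₀)).and
    ((hz B 4 (by norm_num)).and (((tendsto_pow_atTop (show (6 : ℕ) ≠ 0 by norm_num)).eventually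
      (eventually_ge_atTop (5 * L + 1))).and (eventually_ge_atTop (max φ₀ 1)))))
  refine ⟨max 1 ⌈X⌉₊, fun j₀ hj₀ => ⟨α, β, b₀, r₁, κ, κ₀, T, L, φ₀, P, φ, ea, eb, ?_,
    (hpre L P hL2 hprof.smoothP).1, ?_⟩⟩
  swap
  · have hx : X ≤ (j₀ : ℝ) := (Nat.le_ceil X).trans (by exact_mod_cast (le_max_right _ _).trans hj₀)
    exact (le_max_left _ _).trans (hX _ hx).2.2.2
  set d : PathData := ⟨period, plan, j₀, box, P, preFun (log (β / α)) L P ea eb⟩
  have hj : 1 ≤ d.j₀ := (le_max_left _ _).trans hj₀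
  have hxX : ∀ i : ℕ, X ≤ ((d.j₀ + i : ℕ) : ℝ) := fun i => (Nat.le_ceil X).trans (by
    exact_mod_cast ((le_max_right _ _).trans hj₀).trans (Nat.le_add_right _ _))
  have hlate : 5 * L + 1 ≤ (d.j₀ : ℝ) ^ 6 := (hX _ (by simpa using hxX 0)).2.2.1
  have hexact : ∀ t, T ≤ t → κ * φ₀ * (1 + t) ^ (-(6 / 5) : ℝ) = κ * φ t := fun t ht => by
    rw [hprof.exact t ht, mul_assoc]
  -- the scale alone
  have hk := min_le_left (κ / 20) (1 / 10)
  have hk' := min_le_right (κ / 20) (1 / 10)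
  have hPmove : ∀ t, T < t → |deriv P t| ^ 2 ≤ κ * φ t ∧ |deriv (deriv P) t| ≤ κ := fun t ht =>
    scale_move_le hprof hk hk' ht
  refine ⟨hj, rfl, rfl, hc.α_pos, hc.β_pos, hc.b₀_pos, hc.r₁_pos, hprof, ⟨hk, hk'⟩, hL1,
    le_of_lt hL3, hlate, hslow, fun t ht => ?_, fun p hp i l hl => ?_⟩
  · obtain ⟨-, hb⟩ := hpre L P hL2 hprof.smoothP
    obtain ⟨hv, ha, hlate'⟩ := hb t
    obtain ⟨hP1, hP2⟩ := hPmove t ht
    refine ⟨?_, ha.trans (max_le hP2 hL4.le)⟩
    by_cases h5 : 5 * L < t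
    · exact (pow_le_pow_left₀ (norm_nonneg _) (hlate' h5) 2).trans hP1
    · refine (pow_le_pow_left₀ (norm_nonneg _) hv 2).trans ?_
      rw [not_lt] at h5
      have h2 : (Bp / L) ^ 2 ≤ κ * φ t := by
        rw [← hexact t ht.le]
        exact hL5 t (by linarith [hprof.T_pos]) h5
      rcases max_choice |deriv P t| (Bp / L) with h | h <;> rw [h] <;> assumption
  · have hε0 : 0 < speed (d.j₀ + i) := Sched.speed_pos (by omega)
    obtain ⟨hu, hb⟩ := hstage ((d.plan (d.j₀ + i))[l]) (p i l)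
      (hN _ _ (List.getElem_mem hl)) (fun k => hp i l k) (speed (d.j₀ + i)) P (stageStart d i l)
      hε0.le (Sched.speed_le_one _) hprof.smoothP
    obtain ⟨hr, hz', -, -⟩ := hX _ (hxX i)
    have hBε : B * speed (d.j₀ + i) = B / ((d.j₀ + i : ℕ) : ℝ) ^ 4 := by
      rw [speed, div_eq_mul_inv]
    refine ⟨hu, fun t => (hb t).1.trans (hBε ▸ hz'.le), fun t h1 h2 => ?_⟩
    obtain ⟨-, hv, ha⟩ := hb t
    have hT0 : (d.j₀ : ℝ) ^ 6 ≤ t := ((Sched.j_pow_le_clusterStart hj i).trans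
      (Sched.clusterStart_le_stage hj i l)).trans h1
    have hTt : T < t := by linarith [hlate, hL1, hL2]
    obtain ⟨hP1, hP2⟩ := hPmove t hTt
    refine ⟨?_, ha.trans (max_le hP2 (hBε ▸ hz'.le))⟩
    refine (pow_le_pow_left₀ (norm_nonneg _) hv 2).trans ?_
    have hend : t ≤ (2 * D + 3) * ((d.j₀ + i : ℕ) : ℝ) ^ 6 :=
      (h2.trans (Sched.stageStart_mono hj i hl)).trans (clusterEnd_le hD hj i)
    have h4 : (B * speed (d.j₀ + i)) ^ 2 ≤ κ * φ t := by
      rw [← hexact t hTt.le, hBε]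
      exact hr t (by linarith [hprof.T_pos]) hend
    rcases max_choice |deriv P t| (B * speed (d.j₀ + i)) with h | h <;> rw [h] <;> assumption

end Vale.Agent.P225.PathMetric
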