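import Mathlib

/-!
P225, module B: derivative of a determinant and smoothness of the inverse of a matrix path.
-/

noncomputable section

namespace Vale.Agent.P225.Sched

open Matrix
open scoped ContDiff

variable {ι : Type*} [Fintype ι] [DecidableEq ι]

lemma contDiffAt_det {M : ℝ → Matrix ι ι ℝ} {t : ℝ} {m : WithTop ℕ∞}
    (h : ∀ i j, ContDiffAt ℝ m (fun u => M u i j) t) : ContDiffAt ℝ m (fun u => (M u).det) t := by
  simp only [Matrix.det_apply']
  exact ContDiffAt.sum fun σ _ => contDiffAt_const.mul (contDiffAt_prod fun i _ => h (σ i) i)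

lemma contDiffAt_inv {M : ℝ → Matrix ι ι ℝ} {t : ℝ} {m : WithTop ℕ∞}
    (h : ∀ i j, ContDiffAt ℝ m (fun u => M u i j) t) (h0 : (M t).det ≠ 0) (i j : ι) :
    ContDiffAt ℝ m (fun u => (M u)⁻¹ i j) t := by
  simp only [Matrix.inv_def, Matrix.smul_apply, smul_eq_mul, Matrix.adjugate_apply,
    Ring.inverse_eq_inv']
  refine ((contDiffAt_det h).inv h0).mul (contDiffAt_det fun a b => ?_)
  rcases eq_or_ne a j with rfl | ha
  · simp only [Matrix.updateRow_self]; exact contDiffAt_const
  · simp only [Matrix.updateRow_ne ha]; exact h a b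

/-- Jacobi's formula. -/
lemma hasDerivAt_det {M : ℝ → Matrix ι ι ℝ} {M' : Matrix ι ι ℝ} {t : ℝ}
    (h : ∀ i j, HasDerivAt (fun u => M u i j) (M' i j) t) :
    HasDerivAt (fun u => (M u).det) ((M t).adjugate * M').trace t := by
  have h1 : HasDerivAt (fun u => (M u).det)
      (∑ σ : Equiv.Perm ι, ((Equiv.Perm.sign σ : ℤ) : ℝ) *
        ∑ i, (∏ j ∈ Finset.univ.erase i, M t (σ j) j) * M' (σ i) i) t := by
    simp only [Matrix.det_apply']
    refine HasDerivAt.fun_sum fun σ _ => HasDerivAt.const_mul _ ?_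
    simpa using HasDerivAt.fun_finsetProd (u := Finset.univ) fun i _ => h (σ i) i
  convert h1 using 1
  simp only [Finset.mul_sum]
  rw [Finset.sum_comm, Matrix.trace]
  refine Finset.sum_congr rfl fun i _ => ?_
  have e : ((M t).adjugate * M') i i = ((M t).updateCol i fun a => M' a i).det := by
    rw [← Matrix.cramer_apply, Matrix.cramer_eq_adjugate_mulVec]
    rfl
  rw [Matrix.diag_apply, e, Matrix.det_apply']
  refine Finset.sum_congr rfl fun σ _ => ?_
  congr 1
  rw [← Finset.prod_erase_mul _ _ (Finset.mem_univ i)]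
  congr 1
  · exact Finset.prod_congr rfl fun j hj => Matrix.updateCol_ne (Finset.ne_of_mem_erase hj)
  · exact Matrix.updateCol_self

lemma trace_inv_mul_eq {M : ℝ → Matrix ι ι ℝ} {t : ℝ}
    (h : ∀ i j, DifferentiableAt ℝ (fun u => M u i j) t) (h0 : (M t).det ≠ 0) :
    ((M t)⁻¹ * Matrix.of fun i j => deriv (fun u => M u i j) t).trace =
      deriv (fun u => (M u).det) t / (M t).det := by
  have hd := hasDerivAt_det (M' := Matrix.of fun i j => deriv (fun u => M u i j) t)
    fun i j => (h i j).hasDerivAt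
  rw [hd.deriv, Matrix.inv_def, Matrix.smul_mul, Matrix.trace_smul, Ring.inverse_eq_inv',
    smul_eq_mul, inv_mul_eq_div]

end Vale.Agent.P225.Sched
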