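import Vale.Agent.P225.Path.Metric.Gauge
import Vale.Agent.P225.Path.Metric.Calculus

/-!
P225, module B: near every time the metric is a gauge metric in one gauge with a smooth link.
-/

noncomputable section

namespace Vale.Agent.P225.Sched

open Matrix Real SU2
open scoped ContDiff Topology

variable {d : PathData} {p : Param} {r₂ β : ℝ}

/-- One gauge and one smooth inverse Gram path near a time. -/
structure LocalGauge (d : PathData) (p : Param) (r₂ β : ℝ) (t : ℝ) where
  G : Fin 3
  Q : ℝ → LinkMat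
  U : Set ℝ
  U_nhds : U ∈ 𝓝 t
  isOpen : IsOpen U
  symm : ∀ s, (Q s).IsSymm
  smooth : ∀ s ∈ U, ∀ a b, ContDiffAt ℝ ∞ (fun u => Q u a b) s
  pos : ∀ s ∈ U, (Q s).PosDef
  det_eq : ∀ s ∈ U, (toLink (Q s)).det = (toLink (pathQ d p s)).det
  row_eq : ∀ s ∈ U, ∀ (c : Pnt → ℂ) (x : Pnt),
    rowSum (pathGauge d s) (pathOp d p s) c x = rowSum G (SU2.linkOp (Q s)) c x
  metric_eq : ∀ v ∈ chartV, 0 < rad v → Real.log (rad v) ∈ U →
    pathMetric d p r₂ β v =
      gaugeMetric G (fun r => r ^ 2 • (toLink (Q (Real.log r)))⁻¹) v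

lemma contDiff_bump : ContDiff ℝ ∞ bump := by
  have h : ContDiff ℝ ∞ fun x : ℝ => smoothTransition (2 * x - 1 / 2) :=
    smoothTransition.contDiff.comp ((contDiff_const.mul contDiff_id).sub contDiff_const)
  exact h.deriv'

lemma contDiff_stageTheta (σ : StagePlan) : ContDiff ℝ ∞ (stageTheta σ) := by
  unfold stageTheta
  exact (contDiff_const.sub (smoothTransition.contDiff.comp
    ((contDiff_const.mul contDiff_id).sub contDiff_const))).add (smoothTransition.contDiff.comp
    ((contDiff_const.mul (contDiff_id.sub contDiff_const)).sub contDiff_const))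

lemma stageTheta_nonneg (σ : StagePlan) (s : ℝ) : 0 ≤ stageTheta σ s := by
  unfold stageTheta
  linarith [smoothTransition.le_one (2 * s - 1 / 2),
    smoothTransition.nonneg (2 * (s - (σ.len + σ.wait + 1)) - 1 / 2)]

lemma stage_base_posDef (σ : StagePlan) {P : ℝ} (hP : 0 < P) (s : ℝ) :
    (SU2.adQ σ.gauge (linePar P (stageTheta σ s) σ.gauge)).PosDef := by
  have hθ := stageTheta_nonneg σ s
  have hpos : 0 < Real.sqrt 3 * P / Real.sqrt (1 + 2 * stageTheta σ s) := by
    have : 0 < Real.sqrt (1 + 2 * stageTheta σ s) := Real.sqrt_pos.2 (by linarith)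
    positivity
  refine adQ_posDef ?_ ?_ ?_
  · simp only [linePar, if_pos]; exact mul_nonneg hpos.le hθ
  · simpa [linePar] using hpos
  · simpa [linePar] using hpos

lemma contDiffAt_stageQ (σ : StagePlan) {ε : ℝ} {P : ℝ → ℝ} {q : ℕ → ℝ} {start s : ℝ}
    (hP : ContDiff ℝ ∞ P) (hP0 : 0 < P s)
    (hQ : (stageQ σ ε (P s) q (ε * (s - start))).PosDef) (a b : Bool × Fin 3) :
    ContDiffAt ℝ ∞ (fun u => stageQ σ ε (P u) q (ε * (u - start)) a b) s := by
  have hlin : ContDiffAt ℝ ∞ (fun u : ℝ => ε * (u - start)) s :=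
    contDiffAt_const.mul (contDiffAt_id.sub contDiffAt_const)
  have hθ := (contDiff_stageTheta σ).contDiffAt.comp s hlin
  have hD : 0 < 1 + 2 * stageTheta σ (ε * (s - start)) := by
    linarith [stageTheta_nonneg σ (ε * (s - start))]
  have hpre : ContDiffAt ℝ ∞
      (fun u => Real.sqrt 3 * P u / Real.sqrt (1 + 2 * stageTheta σ (ε * (u - start)))) s :=
    (contDiffAt_const.mul hP.contDiffAt).div
      ((contDiffAt_const.add (contDiffAt_const.mul hθ)).sqrt hD.ne') (Real.sqrt_pos.2 hD).ne'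
  have hline : ∀ k, ContDiffAt ℝ ∞
      (fun u => linePar (P u) (stageTheta σ (ε * (u - start))) σ.gauge k) s := fun k => by
    unfold linePar
    split_ifs
    · exact hpre.mul hθ
    · exact hpre.mul contDiffAt_const
  have hbase : ∀ a b, ContDiffAt ℝ ∞ (fun u =>
      SU2.adQ σ.gauge (linePar (P u) (stageTheta σ (ε * (u - start))) σ.gauge) a b) s := fun a b => by
    unfold SU2.adQ
    by_cases h1 : a.2 = b.2
    · simp only [if_pos h1]
      by_cases h2 : a.1 = b.1
      · simp only [if_pos h2]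
        by_cases h3 : (a.1 : Prop)
        · simp only [if_pos h3]; exact (hline _).add (hline _)
        · simp only [if_neg h3]; exact (hline _).add (hline _)
      · simp only [if_neg h2]; exact (hline _).add contDiffAt_const
    · simp only [if_neg h1]; exact contDiffAt_const
  have hctrl : ∀ a b, ContDiffAt ℝ ∞ (fun u => stageCtrl σ q (ε * (u - start)) a b) s := fun a b => by
    simp only [stageCtrl, Matrix.sum_apply, Matrix.smul_apply, smul_eq_mul]
    exact ContDiffAt.sum fun k _ => ((contDiffAt_const.mul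
      (contDiff_bump.contDiffAt.comp s (hlin.sub contDiffAt_const))).mul contDiffAt_const)
  have hsum : ∀ a b, ContDiffAt ℝ ∞ (fun u =>
      (SU2.adQ σ.gauge (linePar (P u) (stageTheta σ (ε * (u - start))) σ.gauge) +
        (Real.sqrt 3 * P u * ε) • stageCtrl σ q (ε * (u - start))) a b) s := fun a b => by
    simp only [Matrix.add_apply, Matrix.smul_apply, smul_eq_mul]
    exact (hbase a b).add (((contDiffAt_const.mul hP.contDiffAt).mul contDiffAt_const).mul
      (hctrl a b))
  set B := SU2.adQ σ.gauge (linePar (P s) (stageTheta σ (ε * (s - start))) σ.gauge)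
  set C := B + (Real.sqrt 3 * P s * ε) • stageCtrl σ q (ε * (s - start))
  have hB : B.det ≠ 0 := (stage_base_posDef σ hP0 _).det_pos.ne'
  have hCne : C.det ≠ 0 := fun h0 => by
    have h := hQ.det_pos
    simp only [stageQ] at h
    rw [Matrix.det_smul, h0, mul_zero] at h
    exact lt_irrefl _ h
  simp only [stageQ, Matrix.smul_apply, smul_eq_mul]
  exact ((((contDiffAt_det hbase).div (contDiffAt_det hsum) hCne)).rpow_const_of_ne
    (div_ne_zero hB hCne)).mul (hsum a b)

/-- The interior of a stage. -/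
def localGauge_stage {t : ℝ} {U : Set ℝ} (hU : U ∈ 𝓝 t) (hopen : IsOpen U) (σ : StagePlan)
    (ε start : ℝ) (q : ℕ → ℝ) (hP : ContDiff ℝ ∞ d.scale) (hP0 : ∀ s, 0 < d.scale s)
    (hg : ∀ s ∈ U, pathGauge d s = σ.gauge)
    (hQ : ∀ s ∈ U, pathQ d p s = stageQ σ ε (d.scale s) q (ε * (s - start)))
    (hpos : ∀ s ∈ U, (pathQ d p s).PosDef)
    (hlate : ∀ v, Real.log (rad v) ∈ U → ¬ rad v < r₂) :
    LocalGauge d p r₂ β t where
  G := σ.gauge
  Q s := stageQ σ ε (d.scale s) q (ε * (s - start))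
  U := U
  U_nhds := hU
  isOpen := hopen
  symm s := stageQ_isSymm _ _ _ _ _
  smooth s hs := contDiffAt_stageQ σ hP (hP0 s) (by rw [← hQ s hs]; exact hpos s hs)
  pos s hs := by rw [← hQ s hs]; exact hpos s hs
  det_eq s hs := by rw [hQ s hs]
  row_eq s hs c x := by rw [pathOp, hQ s hs, hg s hs]
  metric_eq v hv hr hs := by
    unfold pathMetric
    rw [if_neg (hlate v hs), hg _ hs]
    exact gaugeMetric_congr _ (by simp only [pathM, hQ _ hs])

/-- An Ad-invariant stretch. -/
def localGauge_adQ {t : ℝ} {U : Set ℝ} (hU : U ∈ 𝓝 t) (hopen : IsOpen U) (P : ℝ → Fin 3 → ℝ)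
    (hP : ∀ k, ContDiff ℝ ∞ fun u => P u k) (h0 : ∀ s ∈ U, ∀ k, 0 ≤ P s k)
    (h12 : ∀ s ∈ U, 0 < P s 1 ∧ 0 < P s 2)
    (hQ : ∀ s ∈ U, pathQ d p s = SU2.adQ (pathGauge d s) (P s))
    (hmet : ∀ v ∈ chartV, 0 < rad v → Real.log (rad v) ∈ U → rad v < r₂ →
      coreMetric β v = gaugeMetric 0
        (fun r => r ^ 2 • (toLink (SU2.adQ 0 (P (Real.log r))))⁻¹) v) :
    LocalGauge d p r₂ β t where
  G := 0
  Q s := SU2.adQ 0 (P s)
  U := U
  U_nhds := hU
  isOpen := hopen
  symm s := adQ_isSymm 0 _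
  smooth s _ a b := by
    unfold SU2.adQ
    refine ContDiff.contDiffAt ?_
    by_cases h1 : a.2 = b.2
    · simp only [if_pos h1]
      by_cases h2 : a.1 = b.1
      · simp only [if_pos h2]
        by_cases h3 : (a.1 : Prop)
        · simp only [if_pos h3]; exact (hP _).add (hP _)
        · simp only [if_neg h3]; exact (hP _).add (hP _)
      · simp only [if_neg h2]; exact (hP _).add contDiff_const
    · simp only [if_neg h1]; exact contDiff_const
  pos s hs := adQ_posDef (h0 s hs _) (h12 s hs).1 (h12 s hs).2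
  det_eq s hs := by rw [hQ s hs, det_adQ_gauge (pathGauge d s)]
  row_eq s hs c x := by rw [pathOp, hQ s hs, rowSum_adQ, rowSum_adQ]
  metric_eq v hv hr hs := by
    unfold pathMetric
    split_ifs with h
    · exact hmet v hv hr hs h
    · exact gaugeMetric_switch _ (h0 _ hs) (mul_pos (h12 _ hs).1 (h12 _ hs).2) hv hr
        (by rw [pathM, hQ _ hs]) rfl

end Vale.Agent.P225.Sched
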