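import Vale.Agent.P225.Path.Metric.Pre

/-!
P225, module B: the local models of the whole path.
-/

noncomputable section

namespace Vale.Agent.P225.PathMetric

open Matrix Real Filter
open scoped ContDiff Topology

/-- Parameters at the normal point. -/
def normPar (P : ℝ → ℝ) (t : ℝ) : LinkPar := (P t, 0, 1, 0)

/-- The rate decays slower than `e^{-t}`. -/
theorem phi_deriv_le {b₀ r₁ α β κ₀ T φ₀ : ℝ} {P φ ea eb : ℝ → ℝ}
    (h : IsProfile b₀ r₁ α β κ₀ T φ₀ P φ ea eb) {t : ℝ} (ht : T < t) :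
    |deriv φ t| ≤ φ t := by
  have hT := h.T_pos
  have e : φ =ᶠ[𝓝 t] fun s => φ₀ * (1 + s) ^ (-(6 / 5) : ℝ) :=
    (eventually_ge_nhds ht).mono h.exact
  have hd : HasDerivAt (fun s => φ₀ * (1 + s) ^ (-(6 / 5) : ℝ))
      (φ₀ * (1 * (-(6 / 5) : ℝ) * (1 + t) ^ ((-(6 / 5) : ℝ) - 1))) t :=
    (((hasDerivAt_id t).const_add 1).rpow_const (Or.inl (by simp; linarith))).const_mul φ₀
  rw [e.deriv_eq, hd.deriv, h.exact t ht.le, Real.rpow_sub_one (by linarith)]
  have hw : 0 < (1 + t) ^ (-(6 / 5) : ℝ) := Real.rpow_pos_of_pos (by linarith) _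
  have hφ₀ := h.φ₀_pos
  have h1 : 6 / 5 / (1 + t) ≤ 1 := by rw [div_le_iff₀ (by linarith)]; linarith
  rw [show φ₀ * (1 * -(6 / 5) * ((1 + t) ^ (-(6 / 5) : ℝ) / (1 + t))) =
    -(6 / 5 / (1 + t) * (φ₀ * (1 + t) ^ (-(6 / 5) : ℝ))) by ring, abs_neg,
    abs_of_nonneg (by have : (0 : ℝ) < 1 + t := by linarith
                      positivity)]
  exact mul_le_of_le_one_left (by positivity) h1

/-- The scale alone moves slowly. -/
theorem scale_move_le {b₀ r₁ α β κ κ₀ T φ₀ : ℝ} {P φ ea eb : ℝ → ℝ}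
    (h : IsProfile b₀ r₁ α β κ₀ T φ₀ P φ ea eb) (hk : κ₀ ≤ κ / 20) (hk' : κ₀ ≤ 1 / 10) {t : ℝ}
    (ht : T < t) : |deriv P t| ^ 2 ≤ κ * φ t ∧ |deriv (deriv P) t| ≤ κ := by
  have hP0 := h.pos₀
  obtain ⟨hφ0, hφκ⟩ := h.small t ht.le
  have hP : 0 < P t := lt_of_lt_of_le hP0 (h.mem t).1
  have hP7 := (h.mem t).2
  have hd : deriv P = fun s => P s * φ s / 3 := funext fun s => (h.scale s).deriv
  have h1 : |deriv P t| ≤ 9 / 4 * φ t := by
    rw [hd, abs_of_nonneg (by positivity)]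
    calc P t * φ t / 3 ≤ 27 / 4 * φ t / 3 := by gcongr
      _ = _ := by ring
  refine ⟨?_, ?_⟩
  · calc |deriv P t| ^ 2 ≤ (9 / 4 * φ t) ^ 2 := by gcongr
      _ = 81 / 16 * φ t * φ t := by ring
      _ ≤ κ * φ t := mul_le_mul_of_nonneg_right (by linarith) hφ0.le
  · have h2 : HasDerivAt (fun s => P s * φ s / 3)
        ((deriv P t * φ t + P t * deriv φ t) / 3) t :=
      ((h.smoothP.differentiable (by simp) t).hasDerivAt.mul
        (h.smoothφ.differentiable (by simp) t).hasDerivAt).div_const 3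
    rw [hd, h2.deriv]
    have hφ' : |deriv φ t| ≤ φ t := phi_deriv_le h ht
    have b1 : |deriv P t * φ t| ≤ 9 / 4 * φ t * (1 / 10) := by
      rw [abs_mul, abs_of_pos hφ0]
      exact mul_le_mul h1 (hφκ.trans hk') hφ0.le (by positivity)
    have b2 : |P t * deriv φ t| ≤ 27 / 4 * φ t := by
      rw [abs_mul, abs_of_pos hP]
      exact mul_le_mul hP7 hφ' (abs_nonneg _) (by norm_num)
    rw [abs_div, abs_of_pos (show (0 : ℝ) < 3 by norm_num), div_le_iff₀ (by norm_num)]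
    linarith [abs_add_le (deriv P t * φ t) (P t * deriv φ t)]

/-- All that the local models use. -/
structure Setup (d : PathData) (α β b₀ r₁ κ κ₀ T L φ₀ : ℝ) (P φ ea eb : ℝ → ℝ) : Prop where
  j₀_pos : 1 ≤ d.j₀
  scale_eq : d.scale = P
  pre_eq : d.pre = preFun (log (β / α)) L P ea eb
  α_pos : 0 < α
  β_pos : 0 < β
  b₀_pos : 0 < b₀
  r₁_pos : 0 < r₁
  prof : IsProfile b₀ r₁ α β κ₀ T φ₀ P φ ea eb
  κ₀_le : κ₀ ≤ κ / 20 ∧ κ₀ ≤ 1 / 10
  L_ge : T + 1 ≤ L
  rise_ge : 67 / 10 ≤ P (3 * L)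
  late : 5 * L + 1 ≤ (d.j₀ : ℝ) ^ 6
  slow : ∀ u : ℝ → LinkPar, ContDiff ℝ ∞ u →
    Admissible κ (coneScale α β) (log (β / α)) u →
    ((∀ t, u t ∈ linkDom) ∧ (∀ t, (normQ (u t)).PosDef) ∧ ∀ t, (linkH (u t)).PosDef) ∧
      ∀ ψ : ℝ → ℝ, ContDiff ℝ ∞ ψ →
        ∀ (V : Set Pt) (g : MetricField) (E : Fin 7 → Pt → Pt) (r : Pt → ℝ)
          (c7 : Fin 7 → Fin 7 → Fin 7 → ℝ),
          IsWarped V g E r (warp fun t => linkH (u t)) linkC c7 →
          ∀ v ∈ V, 0 < r v → Slow κ (coneScale α β) (log (β / α)) u ψ (Real.log (r v)) →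
            ∀ w : Fin 7 → ℝ, 0 ≤ ∑ a, ∑ b, frameRicci g E c7 a b v * w a * w b
  pre_move : ∀ t, T < t → ‖deriv (prePar (log (β / α)) L P) t‖ ^ 2 ≤ κ * φ t ∧
    ‖deriv (deriv (prePar (log (β / α)) L P)) t‖ ≤ κ
  stage : ∀ p, InBox d p → ∀ i l, ∀ hl : l < (d.plan (d.j₀ + i)).length,
    let u := stagePar ((d.plan (d.j₀ + i))[l]) (speed (d.j₀ + i)) P (p i l) (stageStart d i l)
    ContDiff ℝ ∞ u ∧ (∀ t, ‖(u t).2.2.2‖ ≤ κ) ∧
      ∀ t, stageStart d i l ≤ t → t ≤ stageStart d i (l + 1) →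
        ‖deriv u t‖ ^ 2 ≤ κ * φ t ∧ ‖deriv (deriv u) t‖ ≤ κ

namespace Setup

variable {d : PathData} {α β b₀ r₁ κ κ₀ T L φ₀ : ℝ} {P φ ea eb : ℝ → ℝ}

theorem P_pos (h : Setup d α β b₀ r₁ κ κ₀ T L φ₀ P φ ea eb) (t : ℝ) : 0 < P t :=
  lt_of_lt_of_le h.prof.pos₀ (h.prof.mem t).1

theorem L_pos (h : Setup d α β b₀ r₁ κ κ₀ T L φ₀ P φ ea eb) : 1 < L := by
  linarith [h.L_ge, h.prof.T_pos]

theorem late_T (h : Setup d α β b₀ r₁ κ κ₀ T L φ₀ P φ ea eb) :
    T + 1 < (d.j₀ : ℝ) ^ 6 - 1 := by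
  linarith [h.late, h.L_ge, h.L_pos]

theorem κ_pos (h : Setup d α β b₀ r₁ κ κ₀ T L φ₀ P φ ea eb) : 0 < κ := by
  have := h.prof.small T le_rfl
  linarith [h.κ₀_le.1]

theorem phi_deriv (h : Setup d α β b₀ r₁ κ κ₀ T L φ₀ P φ ea eb) {t : ℝ} (ht : T < t) :
    |deriv φ t| ≤ φ t := phi_deriv_le h.prof ht

theorem scale_move (h : Setup d α β b₀ r₁ κ κ₀ T L φ₀ P φ ea eb) {t : ℝ} (ht : T < t) :
    |deriv P t| ^ 2 ≤ κ * φ t ∧ |deriv (deriv P) t| ≤ κ :=
  scale_move_le h.prof h.κ₀_le.1 h.κ₀_le.2 ht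

theorem slow_mk (h : Setup d α β b₀ r₁ κ κ₀ T L φ₀ P φ ea eb) {u : ℝ → LinkPar}
    (hu : ∀ s, (u s).1 = P s) {t : ℝ} (ht : T < t)
    (hline : (u t).2.2.1 = 0 ∨ ((u t).2.1 = 0 ∧ 67 / 10 ≤ P t))
    (hv : ‖deriv u t‖ ^ 2 ≤ κ * φ t) (ha : ‖deriv (deriv u) t‖ ≤ κ) :
    Slow κ (coneScale α β) (log (β / α)) u φ t where
  scale := Eventually.of_forall fun s => by
    rw [hu, funext hu]; exact h.prof.scale s
  line := by rw [hu t]; exact hline
  pos := (h.prof.small t ht.le).1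
  small := (h.prof.small t ht.le).2.trans (by linarith [h.κ₀_le.1, h.κ_pos])
  drop := h.prof.drop t
  vel := hv
  acc := ha

theorem mem_box (h : Setup d α β b₀ r₁ κ κ₀ T L φ₀ P φ ea eb) {σ θ : ℝ} (t : ℝ)
    (hσ : σ ∈ Set.uIcc (log (β / α)) 0) (hθ : θ ∈ Set.Icc (0 : ℝ) 1) :
    (P t, σ, θ) ∈ parBox (coneScale α β) (27 / 4) (log (β / α)) :=
  ⟨h.prof.mem t, hσ, hθ⟩

theorem adm_stage (h : Setup d α β b₀ r₁ κ κ₀ T L φ₀ P φ ea eb) {p : Param} (hp : InBox d p)
    (i l : ℕ) (hl : l < (d.plan (d.j₀ + i)).length) :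
    Admissible κ (coneScale α β) (log (β / α))
      (stagePar ((d.plan (d.j₀ + i))[l]) (speed (d.j₀ + i)) P (p i l) (stageStart d i l)) := by
  intro t
  refine ⟨h.mem_box t Set.right_mem_uIcc ⟨Sched.stageTheta_nonneg _ _, stageTheta_le_one _ _⟩,
    (h.stage p hp i l hl).2.1 t, fun a b => ?_⟩
  simp only [stagePar, Pi.smul_apply, linkFun, (Sched.stageCtrl_isSymm _ _ _).apply]

theorem pathQ_pos (h : Setup d α β b₀ r₁ κ κ₀ T L φ₀ P φ ea eb) {p : Param} (hp : InBox d p)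
    (t : ℝ) : (pathQ d p t).PosDef := by
  by_cases hst : ∃ il, InStage d t il
  · obtain ⟨⟨i, l⟩, hil⟩ := hst
    rw [Sched.pathQ_of_inStage h.j₀_pos hil p]
    refine posDef_of_toLink ?_
    rw [h.scale_eq, toLink_stageQ]
    exact (h.slow _ (h.stage p hp i l hil.1).1 (h.adm_stage hp i l hil.1)).1.2.1 t
  · rw [show pathQ d p t = _ from dif_neg hst]
    split_ifs
    · rw [h.scale_eq]; exact Sched.adQ_posDef (h.P_pos t).le (h.P_pos t) (h.P_pos t)
    · rw [h.pre_eq]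
      obtain ⟨h1, h2⟩ := preFun_pos (σ₀ := log (β / α)) (L := L) (ea := ea) (eb := eb) (h.P_pos t)
      exact Sched.adQ_posDef (preFun_nonneg (h.P_pos t) 0) h1 h2

theorem no_stage (h : Setup d α β b₀ r₁ κ κ₀ T L φ₀ P φ ea eb) {s : ℝ}
    (hs : s < (d.j₀ : ℝ) ^ 6) (p : Param) :
    pathGauge d s = 0 ∧ pathQ d p s = SU2.adQ 0 (preFun (log (β / α)) L P ea eb s) := by
  have hn : ¬ ∃ il, InStage d s il := fun ⟨il, hil⟩ => by
    linarith [Sched.inStage_ge h.j₀_pos hil]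
  refine ⟨dif_neg hn, ?_⟩
  rw [show pathQ d p s = _ from dif_neg hn, if_neg (not_le.2 hs), h.pre_eq]

theorem metric_late (h : Setup d α β b₀ r₁ κ κ₀ T L φ₀ P φ ea eb) (p : Param) {v : Pt}
    (hr : 0 < rad v) (ht : log r₁ ≤ log (rad v)) :
    pathMetric d p (r₁ * exp (-1)) (b₀ ^ 2) v =
      gaugeMetric (pathGauge d (log (rad v))) (pathM d p) v := by
  unfold pathMetric
  rw [if_neg]
  intro hlt
  have := Real.log_lt_log hr hlt
  rw [log_mul h.r₁_pos.ne' (exp_pos _).ne', log_exp] at this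
  linarith

theorem model_product (h : Setup d α β b₀ r₁ κ κ₀ T L φ₀ P φ ea eb) (p : Param) {v : Pt}
    (hv : v ∈ chartV) (ht : log (rad v) < T + 1) :
    LocalModel (pathMetric d p (r₁ * exp (-1)) (b₀ ^ 2)) v := by
  set u := prodLog α (coneScale α β) P ea
  set w := prodLog β (coneScale α β) P eb
  have hL0 : 0 < L := by linarith [h.L_pos]
  have hsm : ∀ {γ : ℝ} {e : ℝ → ℝ}, ContDiff ℝ ∞ e → ContDiff ℝ ∞ (prodLog γ (coneScale α β) P e) :=
    fun {γ e} he => (contDiff_const.add he).sub (((h.prof.smoothP.div_const _).log fun t =>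
      (div_pos (h.P_pos t) h.prof.pos₀).ne').div_const 2)
  refine localModel_mk (G := 0) (h := prodPath u w) hv isOpen_Iio (Set.mem_Iio.2 ht)
    (prodPath_smooth (hsm h.prof.smoothA) (hsm h.prof.smoothB))
    (fun t => prodDiag_posDef (by positivity) (by positivity)) ?_ ?_
  · intro x hx hr hs
    simp only [Set.mem_Iio] at hs
    have hsT : log (rad x) < (d.j₀ : ℝ) ^ 6 := by linarith [h.late_T]
    obtain ⟨hg, hq⟩ := h.no_stage hsT p
    have hprod := toLink_preFun_product (ea := ea) (eb := eb) h.α_pos h.β_pos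
      (h.P_pos (log (rad x))) hL0 (show log (rad x) ≤ L by linarith [h.L_ge])
    unfold pathMetric
    split_ifs with hc
    · have hlog : log (rad x) ≤ log r₁ := Real.log_le_log hr (hc.le.trans
        (mul_le_of_le_one_right h.r₁_pos.le (exp_le_one_iff.2 (by norm_num))))
      obtain ⟨c1, c2, c3⟩ := h.prof.core _ hlog
      refine (Sched.gaugeMetric_eq_core (pow_pos h.b₀_pos 2) hx hr ?_).symm
      rw [show 4 * rad x ^ 2 / b₀ ^ 2 = 4 * exp (2 * log (rad x)) / b₀ ^ 2 by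
        rw [two_mul, exp_add, exp_log hr]; ring, ← preFun_core (P := P) (ea := ea) (eb := eb)
        h.α_pos h.β_pos h.b₀_pos hL0 (show log (rad x) ≤ L by linarith [h.L_ge]) c1 c2 c3, hprod]
    · rw [hg]
      exact Sched.gaugeMetric_congr 0 (by simp only [pathM, hq, hprod, warp, u, w])
  · intro W hW hvW
    exact product_ricci (hsm h.prof.smoothA) (hsm h.prof.smoothB) hW hvW (Chart.qlen_pos hv.2)
      (h.prof.radial _) (h.prof.dirX _) (h.prof.dirTheta _)

theorem model_travel (h : Setup d α β b₀ r₁ κ κ₀ T L φ₀ P φ ea eb) (p : Param) {v : Pt}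
    (hv : v ∈ chartV) (ht : T < log (rad v)) (ht' : log (rad v) < (d.j₀ : ℝ) ^ 6)
    (hu : ContDiff ℝ ∞ (prePar (log (β / α)) L P)) :
    LocalModel (pathMetric d p (r₁ * exp (-1)) (b₀ ^ 2)) v := by
  have hL0 : 0 < L := by linarith [h.L_pos]
  obtain ⟨⟨hdom, -, hpos⟩, hric⟩ := h.slow _ hu fun t =>
    ⟨h.mem_box t (ratioFn_mem _ L t) ⟨travelFn_nonneg L t, smoothTransition.le_one _⟩,
      by simp [prePar, h.κ_pos.le], by simp [prePar]⟩
  refine localModel_mk (G := 0) (h := fun s => linkH (prePar (log (β / α)) L P s)) hv (isOpen_Ioo (a := T) (b := (d.j₀ : ℝ) ^ 6)) ⟨ht, ht'⟩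
    (fun i j => (linkH_entries i j).comp_contDiff hu hdom) hpos ?_ ?_
  · intro x _ hr hs
    obtain ⟨hg, hq⟩ := h.no_stage hs.2 p
    obtain ⟨za, zb⟩ := h.prof.settled _ hs.1.le
    rw [h.metric_late p hr (by linarith [hs.1, h.prof.core_lt]), hg]
    exact Sched.gaugeMetric_congr 0 (by
      simp only [pathM, hq, warp, toLink_preFun (h.P_pos _) za zb])
  · intro W hW hvW
    obtain ⟨hvel, hacc⟩ := h.pre_move _ ht
    refine hric φ h.prof.smoothφ W _ _ _ _ hW v hvW (Chart.qlen_pos hv.2)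
      (h.slow_mk (fun _ => rfl) ht ?_ hvel hacc)
    by_cases h3 : log (rad v) ≤ 3 * L
    · exact Or.inl (travelFn_early hL0 h3)
    · rw [not_le] at h3
      exact Or.inr ⟨ratioFn_late hL0 (by linarith), h.rise_ge.trans (h.prof.mono h3.le)⟩

theorem linkH_normal {Q : ℝ} (hQ : 0 < Q) :
    linkH (Q, 0, 1, 0) = (toLink (SU2.adQ 0 fun _ => Q))⁻¹ := by
  rw [linkH_zero hQ (baseDen_pos zero_le_one), Sched.toLink_adQ]
  congr 2
  have h3 : sqrt 3 ≠ 0 := (Real.sqrt_pos.2 (by norm_num)).ne'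
  ext i j
  fin_cases i <;> fin_cases j <;> simp [baseQ, baseDen, triQ] <;> norm_num <;> field_simp <;> norm_num

theorem model_stage (h : Setup d α β b₀ r₁ κ κ₀ T L φ₀ P φ ea eb) {p : Param} (hp : InBox d p)
    {v : Pt} (hv : v ∈ chartV) {i l : ℕ} (hl : l < (d.plan (d.j₀ + i)).length)
    (h1 : stageStart d i l < log (rad v)) (h2 : log (rad v) < stageStart d i (l + 1)) :
    LocalModel (pathMetric d p (r₁ * exp (-1)) (b₀ ^ 2)) v := by
  obtain ⟨hu, hS, hmove⟩ := h.stage p hp i l hl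
  set σ := (d.plan (d.j₀ + i))[l]
  set u := stagePar σ (speed (d.j₀ + i)) P (p i l) (stageStart d i l)
  obtain ⟨⟨hdom, -, hpos⟩, hric⟩ := h.slow u hu (h.adm_stage hp i l hl)
  have hge : ∀ s, stageStart d i l ≤ s → (d.j₀ : ℝ) ^ 6 ≤ s := fun s hs =>
    ((Sched.j_pow_le_clusterStart h.j₀_pos i).trans
      (Sched.clusterStart_le_stage h.j₀_pos i l)).trans hs
  refine localModel_mk (G := σ.gauge) (h := fun s => linkH (u s)) hv
    (isOpen_Ioo (a := stageStart d i l) (b := stageStart d i (l + 1))) ⟨h1, h2⟩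
    (fun a b => (linkH_entries a b).comp_contDiff hu hdom) hpos ?_ ?_
  · intro x _ hr hs
    have hin : InStage d (log (rad x)) (i, l) := ⟨hl, hs.1.le, hs.2⟩
    rw [h.metric_late p hr
      (by linarith [h.prof.core_lt, h.late_T, hge _ hs.1.le]),
      Sched.pathGauge_of_inStage h.j₀_pos hin]
    refine Sched.gaugeMetric_congr _ ?_
    simp only [pathM, Sched.pathQ_of_inStage h.j₀_pos hin p, warp, h.scale_eq, toLink_stageQ,
      linkH, u, σ]
  · intro W hW hvW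
    have hT := hge _ h1.le
    obtain ⟨hvel, hacc⟩ := hmove _ h1.le h2.le
    exact hric φ h.prof.smoothφ W _ _ _ _ hW v hvW (Chart.qlen_pos hv.2)
      (h.slow_mk (fun _ => rfl) (by linarith [h.late_T]) (Or.inr ⟨rfl,
        h.rise_ge.trans (h.prof.mono (by linarith [h.late, h.L_pos]))⟩) hvel hacc)

theorem model_normal (h : Setup d α β b₀ r₁ κ κ₀ T L φ₀ P φ ea eb) {p : Param}
    {v : Pt} (hv : v ∈ chartV) (hT : (d.j₀ : ℝ) ^ 6 ≤ log (rad v))
    (hint : ¬ ∃ i l, ∃ _ : l < (d.plan (d.j₀ + i)).length,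
      stageStart d i l < log (rad v) ∧ log (rad v) < stageStart d i (l + 1)) :
    LocalModel (pathMetric d p (r₁ * exp (-1)) (b₀ ^ 2)) v := by
  set t := log (rad v) with htdef
  have hu : ContDiff ℝ ∞ (normPar P) := h.prof.smoothP.prodMk contDiff_const
  obtain ⟨⟨hdom, -, hpos⟩, hric⟩ := h.slow (normPar P) hu fun s =>
    ⟨h.mem_box s Set.right_mem_uIcc ⟨zero_le_one, le_rfl⟩, by simp [normPar, h.κ_pos.le],
      by simp [normPar]⟩
  refine localModel_mk (G := 0) (h := fun s => linkH (normPar P s)) hv (isOpen_Ioo (a := t - 1 / 4) (b := t + 1 / 4))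
    ⟨by linarith, by linarith⟩ (fun a b => (linkH_entries a b).comp_contDiff hu hdom) hpos ?_ ?_
  · intro x hx hr hs
    obtain ⟨hs1, hs2⟩ := hs
    set s := log (rad x)
    have hj := h.j₀_pos
    have hP := h.P_pos s
    have key : pathQ d p s = SU2.adQ (pathGauge d s) fun _ => P s := by
      by_cases hst : ∃ il, InStage d s il
      · obtain ⟨⟨i, l⟩, hil⟩ := hst
        rw [Sched.pathGauge_of_inStage hj hil, Sched.pathQ_of_inStage hj hil p, h.scale_eq]
        refine Sched.stageQ_normal _ _ hP _ ?_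
        have hε : speed (d.j₀ + i) ≤ 1 := Sched.speed_le_one _
        have hε0 : 0 < speed (d.j₀ + i) := Sched.speed_pos (by omega)
        obtain ⟨hl, ha, hb⟩ := hil
        simp only at hl ha hb
        by_cases hA : stageStart d i l < t
        · have hB : stageStart d i (l + 1) ≤ t := by
            by_contra hB
            exact hint ⟨i, l, hl, hA, not_le.1 hB⟩
          rw [Sched.stageStart_succ i hl] at hB hb
          refine Or.inr ?_
          have h1 : ((d.plan (d.j₀ + i))[l]).dur / speed (d.j₀ + i) - (s - stageStart d i l) <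
              1 / 4 := by linarith
          have h2 := mul_lt_mul_of_pos_left h1 hε0
          rw [mul_sub, mul_div_cancel₀ _ hε0.ne'] at h2
          linarith
        · refine Or.inl ?_
          have h1 : s - stageStart d i l < 1 / 4 := by linarith
          have h2 := mul_lt_mul_of_pos_left h1 hε0
          linarith
      · rw [show pathGauge d s = 0 from dif_neg hst, show pathQ d p s = _ from dif_neg hst,
          h.scale_eq, h.pre_eq]
        split_ifs
        · rfl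
        · obtain ⟨za, zb⟩ := h.prof.settled s (by linarith [h.late_T])
          rw [funext (preFun_end (by linarith [h.L_pos]) (by linarith [h.late, h.L_pos]) za zb)]
    rw [h.metric_late p hr (show log r₁ ≤ s by linarith [h.prof.core_lt, h.late_T])]
    exact Sched.gaugeMetric_switch (P := fun _ => P s) _ (fun _ => hP.le) (mul_pos hP hP) hx hr
      (by rw [pathM, key]) (by simp only [warp, normPar, linkH_normal hP, s])
  · intro W hW hvW
    obtain ⟨hvel, hacc⟩ := h.scale_move (show T < t by linarith [h.late_T])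
    have hd1 : deriv (normPar P) = fun s => ((deriv P s, 0, 0, 0) : LinkPar) := funext fun s =>
      ((h.prof.smoothP.differentiable (by simp) s).hasDerivAt.prodMk
        (hasDerivAt_const s ((0, 1, 0) : ℝ × ℝ × (Fin 6 → Fin 6 → ℝ)))).deriv
    have hd2 : deriv (deriv (normPar P)) t = ((deriv (deriv P) t, 0, 0, 0) : LinkPar) := by
      rw [hd1]
      exact (((contDiff_infty_iff_deriv.1 h.prof.smoothP).2.differentiable (by simp)
        t).hasDerivAt.prodMk (hasDerivAt_const t (0 : ℝ × ℝ × (Fin 6 → Fin 6 → ℝ)))).deriv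
    refine hric φ h.prof.smoothφ W _ _ _ _ hW v hvW (Chart.qlen_pos hv.2)
      (h.slow_mk (fun _ => rfl) (by linarith [h.late_T]) (Or.inr ⟨rfl,
        h.rise_ge.trans (h.prof.mono (by linarith [h.late, h.L_pos]))⟩) ?_ ?_)
    · simpa [hd1, Prod.norm_def] using hvel
    · rw [show deriv (deriv (normPar P)) (log (rad v)) = _ from hd2]
      simpa [Prod.norm_def, h.κ_pos.le] using hacc

/-- The metric is complete with nonnegative Ricci curvature and `dr² ≤ g`. -/
theorem global (h : Setup d α β b₀ r₁ κ κ₀ T L φ₀ P φ ea eb)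
    (hu : ContDiff ℝ ∞ (prePar (log (β / α)) L P)) {p : Param} (hp : InBox d p) :
    IsRicNonnegComplete chartU (pathMetric d p (r₁ * exp (-1)) (b₀ ^ 2)) ∧
      ∀ o ∈ chartU, ∀ v ∈ chartU,
        rad v - rad o ≤ rdist chartU (pathMetric d p (r₁ * exp (-1)) (b₀ ^ 2)) o v := by
  refine global_of_local (pow_pos h.b₀_pos 2) (mul_pos h.r₁_pos (exp_pos (-1)))
    (fun v _ hlt => if_pos hlt) fun v hv => ?_
  by_cases h1 : log (rad v) < T + 1
  · exact h.model_product p hv h1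
  rw [not_lt] at h1
  by_cases h2 : log (rad v) < (d.j₀ : ℝ) ^ 6
  · exact h.model_travel p hv (by linarith) h2 hu
  by_cases h3 : ∃ i l, ∃ _ : l < (d.plan (d.j₀ + i)).length,
      stageStart d i l < log (rad v) ∧ log (rad v) < stageStart d i (l + 1)
  · obtain ⟨i, l, hl, a1, a2⟩ := h3
    exact h.model_stage hp hv hl a1 a2
  · exact h.model_normal hv (not_lt.1 h2) h3

end Setup

end Vale.Agent.P225.PathMetric
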