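import Mathlib

/-!
P225, module B: the rate of the volume drop, switched on smoothly, and its primitive.
-/

noncomputable section

namespace Vale.Agent.P225.PathMetric

open Real Filter
open scoped ContDiff Topology

theorem smoothTransition_smooth : ContDiff ℝ ∞ smoothTransition := smoothTransition.contDiff

theorem smoothTransition_hasDerivAt (x : ℝ) :
    HasDerivAt smoothTransition (deriv smoothTransition x) x :=
  (smoothTransition_smooth.differentiable (by simp) x).hasDerivAt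

theorem smoothTransition_deriv_hasDerivAt (x : ℝ) :
    HasDerivAt (deriv smoothTransition) (deriv (deriv smoothTransition) x) x :=
  (((contDiff_infty_iff_deriv.1 smoothTransition_smooth).2).differentiable (by simp) x).hasDerivAt

theorem smoothTransition_deriv_nonneg (x : ℝ) : 0 ≤ deriv smoothTransition x :=
  smoothTransition.monotone.deriv_nonneg

/-- Functions vanishing left of a point vanish there with their derivative. -/
theorem deriv_zero_of_le {f : ℝ → ℝ} (hf : ContDiff ℝ ∞ f) {c : ℝ} (h : ∀ x ≤ c, f x = 0) :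
    ∀ x ≤ c, deriv f x = 0 := by
  intro x hx
  have hd : HasDerivWithinAt f (deriv f x) (Set.Iic x) x :=
    ((hf.differentiable (by simp)) x).hasDerivAt.hasDerivWithinAt
  have h0 : HasDerivWithinAt f 0 (Set.Iic x) x :=
    (hasDerivWithinAt_const x _ (0 : ℝ)).congr (fun y hy => h y (le_trans hy hx)) (h x hx)
  exact (uniqueDiffOn_Iic x x Set.self_mem_Iic).eq_deriv _ hd h0

theorem smoothTransition_deriv_zero {x : ℝ} (hx : x ≤ 0) : deriv smoothTransition x = 0 :=
  deriv_zero_of_le smoothTransition_smooth (fun _ h => smoothTransition.zero_of_nonpos h) x hx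

theorem smoothTransition_deriv2_zero {x : ℝ} (hx : x ≤ 0) :
    deriv (deriv smoothTransition) x = 0 :=
  deriv_zero_of_le (contDiff_infty_iff_deriv.1 smoothTransition_smooth).2
    (fun _ h => smoothTransition_deriv_zero h) x hx

theorem smoothTransition_deriv_one {x : ℝ} (hx : 1 < x) :
    deriv smoothTransition x = 0 ∧ deriv (deriv smoothTransition) x = 0 := by
  have h : ∀ᶠ y in 𝓝 x, deriv smoothTransition y = 0 := by
    filter_upwards [eventually_gt_nhds hx] with y hy
    have : smoothTransition =ᶠ[𝓝 y] fun _ => (1 : ℝ) := by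
      filter_upwards [eventually_gt_nhds hy] with z hz
      exact smoothTransition.one_of_one_le hz.le
    rw [this.deriv_eq, deriv_const]
  exact ⟨h.self_of_nhds, (Filter.EventuallyEq.deriv_eq (f := fun _ => (0 : ℝ)) h).trans
    (deriv_const x 0)⟩

/-- A bound for both derivatives of the transition. -/
theorem exists_transition_bound :
    ∃ B ≥ (1 : ℝ), ∀ x, |deriv smoothTransition x| ≤ B ∧ |deriv (deriv smoothTransition) x| ≤ B := by
  have c1 := (contDiff_infty_iff_deriv.1 smoothTransition_smooth).2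
  have c2 := (contDiff_infty_iff_deriv.1 c1).2
  obtain ⟨B₁, h₁⟩ := (isCompact_Icc (a := (-1 : ℝ)) (b := 2)).bddAbove_image
    (c1.continuous.abs.continuousOn)
  obtain ⟨B₂, h₂⟩ := (isCompact_Icc (a := (-1 : ℝ)) (b := 2)).bddAbove_image
    (c2.continuous.abs.continuousOn)
  refine ⟨|B₁| + |B₂| + 1, by linarith [abs_nonneg B₁, abs_nonneg B₂], fun x => ?_⟩
  by_cases hx : x ∈ Set.Icc (-1 : ℝ) 2
  · constructor
    · linarith [h₁ ⟨x, hx, rfl⟩, le_abs_self B₁, abs_nonneg B₂]
    · linarith [h₂ ⟨x, hx, rfl⟩, le_abs_self B₂, abs_nonneg B₁]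
  · rw [Set.mem_Icc, not_and_or, not_le, not_le] at hx
    have : deriv smoothTransition x = 0 ∧ deriv (deriv smoothTransition) x = 0 := by
      rcases hx with h | h
      · exact ⟨smoothTransition_deriv_zero (by linarith), smoothTransition_deriv2_zero (by linarith)⟩
      · exact smoothTransition_deriv_one (by linarith)
    rw [this.1, this.2]
    constructor <;> simp <;> positivity

/-- The weight `(1 + t)^(-6/5)`, continued smoothly to negative times. -/
def wgt (t : ℝ) : ℝ := (1 + t * smoothTransition t) ^ (-(6 / 5) : ℝ)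

theorem wgt_base_pos (t : ℝ) : 0 < 1 + t * smoothTransition t := by
  rcases le_total t 0 with h | h
  · simp [smoothTransition.zero_of_nonpos h]
  · linarith [mul_nonneg h (smoothTransition.nonneg t)]

theorem wgt_smooth : ContDiff ℝ ∞ wgt :=
  (contDiff_const.add (contDiff_id.mul smoothTransition_smooth)).rpow_const_of_ne
    fun t => (wgt_base_pos t).ne'

theorem wgt_pos (t : ℝ) : 0 < wgt t := Real.rpow_pos_of_pos (wgt_base_pos t) _

theorem wgt_le_one (t : ℝ) : wgt t ≤ 1 := by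
  refine Real.rpow_le_one_of_one_le_of_nonpos ?_ (by norm_num)
  rcases le_total t 0 with h | h
  · simp [smoothTransition.zero_of_nonpos h]
  · linarith [mul_nonneg h (smoothTransition.nonneg t)]

theorem wgt_eq {t : ℝ} (ht : 1 ≤ t) : wgt t = (1 + t) ^ (-(6 / 5) : ℝ) := by
  simp [wgt, smoothTransition.one_of_one_le ht]

theorem wgt_hasDerivAt {t : ℝ} (ht : 1 < t) :
    HasDerivAt wgt (-(6 / 5) / (1 + t) * wgt t) t := by
  have h : HasDerivAt (fun s => (1 + s) ^ (-(6 / 5) : ℝ))
      (1 * (-(6 / 5) : ℝ) * (1 + t) ^ ((-(6 / 5) : ℝ) - 1)) t :=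
    ((hasDerivAt_id t).const_add 1).rpow_const (Or.inl (by simp; linarith))
  refine (h.congr_of_eventuallyEq ((eventually_ge_nhds ht).mono fun s hs => wgt_eq hs)).congr_deriv
    ?_
  rw [wgt_eq ht.le, Real.rpow_sub_one (by linarith)]
  field_simp

/-- The rate, switched on at `t₁`. -/
def rise (t₁ t : ℝ) : ℝ := smoothTransition (t - t₁) * wgt t

/-- Its primitive. -/
def riseInt (t₁ t : ℝ) : ℝ := ∫ s in t₁..t, rise t₁ s

variable {t₁ : ℝ}

theorem rise_smooth (t₁ : ℝ) : ContDiff ℝ ∞ (rise t₁) :=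
  (smoothTransition_smooth.comp (contDiff_id.sub contDiff_const)).mul wgt_smooth

theorem rise_nonneg (t : ℝ) : 0 ≤ rise t₁ t :=
  mul_nonneg (smoothTransition.nonneg _) (wgt_pos t).le

theorem rise_le_wgt (t : ℝ) : rise t₁ t ≤ wgt t :=
  mul_le_of_le_one_left (wgt_pos t).le (smoothTransition.le_one _)

theorem rise_before {t : ℝ} (ht : t ≤ t₁) : rise t₁ t = 0 := by
  simp [rise, smoothTransition.zero_of_nonpos (show t - t₁ ≤ 0 by linarith)]

theorem rise_after {t : ℝ} (ht : t₁ + 1 ≤ t) : rise t₁ t = wgt t := by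
  simp [rise, smoothTransition.one_of_one_le (show 1 ≤ t - t₁ by linarith)]

theorem rise_deriv_before {t : ℝ} (ht : t ≤ t₁) : deriv (rise t₁) t = 0 :=
  deriv_zero_of_le (rise_smooth t₁) (fun _ h => rise_before h) t ht

theorem rise_hasDerivAt {t : ℝ} (ht : 1 < t) :
    HasDerivAt (rise t₁)
      (deriv smoothTransition (t - t₁) * wgt t + -(6 / 5) / (1 + t) * rise t₁ t) t := by
  refine (((smoothTransition_hasDerivAt (t - t₁)).comp t ((hasDerivAt_id t).sub_const t₁)).mul
    (wgt_hasDerivAt ht)).congr_deriv ?_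
  simp [rise, Function.comp]
  ring

/-- The rate never drops faster than `e^{-t/2}`. -/
theorem rise_drop (h2 : 2 ≤ t₁) (t : ℝ) : -rise t₁ t / 2 ≤ deriv (rise t₁) t := by
  rcases le_total t t₁ with h | h
  · rw [rise_before h, rise_deriv_before h]; simp
  · rw [(rise_hasDerivAt (by linarith)).deriv]
    have h1 : 6 / 5 / (1 + t) ≤ 1 / 2 := by
      rw [div_le_iff₀ (by linarith)]; linarith
    have h3 := mul_le_mul_of_nonneg_right h1 (rise_nonneg (t₁ := t₁) t)
    have h4 := mul_nonneg (smoothTransition_deriv_nonneg (t - t₁)) (wgt_pos t).le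
    have h5 : -(6 / 5 : ℝ) / (1 + t) * rise t₁ t = -(6 / 5 / (1 + t) * rise t₁ t) := by ring
    linarith [h5]

theorem riseInt_hasDerivAt (t : ℝ) : HasDerivAt (riseInt t₁) (rise t₁ t) t :=
  intervalIntegral.integral_hasDerivAt_right ((rise_smooth t₁).continuous.intervalIntegrable _ _)
    ((rise_smooth t₁).continuous.stronglyMeasurableAtFilter _ _)
    (rise_smooth t₁).continuous.continuousAt

theorem riseInt_smooth (t₁ : ℝ) : ContDiff ℝ ∞ (riseInt t₁) :=
  contDiff_infty_iff_deriv.2 ⟨fun t => (riseInt_hasDerivAt t).differentiableAt, by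
    rw [funext fun t => (riseInt_hasDerivAt (t₁ := t₁) t).deriv]
    exact rise_smooth t₁⟩

theorem riseInt_mono (t₁ : ℝ) : Monotone (riseInt t₁) :=
  monotone_of_deriv_nonneg (fun t => (riseInt_hasDerivAt t).differentiableAt)
    fun t => by rw [(riseInt_hasDerivAt t).deriv]; exact rise_nonneg t

theorem riseInt_before {t : ℝ} (ht : t ≤ t₁) : riseInt t₁ t = 0 := by
  rw [riseInt, intervalIntegral.integral_congr (g := fun _ => (0 : ℝ))
    fun s hs => rise_before (by rw [Set.uIcc_of_ge ht] at hs; exact hs.2)]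
  simp

theorem riseInt_nonneg (t : ℝ) : 0 ≤ riseInt t₁ t := by
  rcases le_total t t₁ with h | h
  · rw [riseInt_before h]
  · exact (riseInt_before (le_refl t₁)).symm.le.trans (riseInt_mono t₁ h)

/-- The total of the rate. -/
def riseTot (t₁ : ℝ) : ℝ := riseInt t₁ (t₁ + 1) + 5 * (2 + t₁) ^ (-(1 / 5) : ℝ)

theorem riseInt_after (h2 : 2 ≤ t₁) {t : ℝ} (ht : t₁ + 1 ≤ t) :
    riseInt t₁ t = riseTot t₁ - 5 * (1 + t) ^ (-(1 / 5) : ℝ) := by
  have hd : ∀ s ∈ Set.uIcc (t₁ + 1) t,
      HasDerivAt (fun x => -(5 * (1 + x) ^ (-(1 / 5) : ℝ))) (rise t₁ s) s := by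
    intro s hs
    rw [Set.uIcc_of_le ht] at hs
    have h : HasDerivAt (fun x => -(5 * (1 + x) ^ (-(1 / 5) : ℝ)))
        (-(5 * (1 * (-(1 / 5) : ℝ) * (1 + s) ^ ((-(1 / 5) : ℝ) - 1)))) s :=
      ((((hasDerivAt_id s).const_add 1).rpow_const (Or.inl (by simp; linarith [hs.1]))).const_mul
        5).neg
    refine h.congr_deriv ?_
    rw [rise_after hs.1, wgt_eq (by linarith [hs.1])]
    norm_num
    ring
  have hc := (rise_smooth t₁).continuous
  have e := intervalIntegral.integral_eq_sub_of_hasDerivAt hd (hc.intervalIntegrable _ _)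
  have e2 := intervalIntegral.integral_add_adjacent_intervals (μ := MeasureTheory.volume)
    (hc.intervalIntegrable t₁ (t₁ + 1)) (hc.intervalIntegrable (t₁ + 1) t)
  rw [e] at e2
  simp only [riseTot, riseInt, ← e2]
  rw [show 1 + (t₁ + 1) = 2 + t₁ by ring]
  ring

theorem riseTot_bounds (h2 : 2 ≤ t₁) :
    5 * (2 + t₁) ^ (-(1 / 5) : ℝ) ≤ riseTot t₁ ∧ riseTot t₁ ≤ 6 := by
  have h0 := riseInt_nonneg (t₁ := t₁) (t₁ + 1)
  have h1 : riseInt t₁ (t₁ + 1) ≤ 1 := by
    calc riseInt t₁ (t₁ + 1) ≤ ∫ _ in t₁..t₁ + 1, (1 : ℝ) :=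
          intervalIntegral.integral_mono_on (by linarith)
            ((rise_smooth t₁).continuous.intervalIntegrable _ _) intervalIntegrable_const
            fun s _ => (rise_le_wgt s).trans (wgt_le_one s)
      _ = 1 := by simp
  have h3 : (2 + t₁) ^ (-(1 / 5) : ℝ) ≤ 1 :=
    Real.rpow_le_one_of_one_le_of_nonpos (by linarith) (by norm_num)
  unfold riseTot
  constructor <;> linarith

theorem riseInt_le_tot (h2 : 2 ≤ t₁) (t : ℝ) : riseInt t₁ t ≤ riseTot t₁ := by
  rcases le_total (t₁ + 1) t with h | h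
  · rw [riseInt_after h2 h]
    have : (0 : ℝ) ≤ (1 + t) ^ (-(1 / 5) : ℝ) := Real.rpow_nonneg (by linarith) _
    linarith
  · refine (riseInt_mono t₁ h).trans ?_
    have : (0 : ℝ) ≤ (2 + t₁) ^ (-(1 / 5) : ℝ) := Real.rpow_nonneg (by linarith) _
    unfold riseTot
    linarith

theorem riseInt_tendsto (h2 : 2 ≤ t₁) : Tendsto (riseInt t₁) atTop (𝓝 (riseTot t₁)) := by
  have h0 : Tendsto (fun t : ℝ => riseTot t₁ - 5 * (1 + t) ^ (-(1 / 5) : ℝ)) atTop
      (𝓝 (riseTot t₁ - 5 * 0)) :=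
    (((tendsto_rpow_neg_atTop (by norm_num : (0 : ℝ) < 1 / 5)).comp
      (tendsto_atTop_add_const_left _ 1 tendsto_id)).const_mul 5).const_sub _
  rw [mul_zero, sub_zero] at h0
  exact h0.congr' ((eventually_ge_atTop (t₁ + 1)).mono fun t ht => (riseInt_after h2 ht).symm)

/-- `wgt / riseTot` is small for late switches. -/
theorem wgt_div_tot (h2 : 2 ≤ t₁) {t : ℝ} (ht : t₁ ≤ t) :
    wgt t / riseTot t₁ ≤ 1 / (1 + t₁) := by
  obtain ⟨hlo, -⟩ := riseTot_bounds h2
  have hx : 0 < 1 + t₁ := by linarith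
  have h5 : 0 < 5 * (2 + t₁) ^ (-(1 / 5) : ℝ) := by positivity
  rw [wgt_eq (by linarith)]
  refine (div_le_div₀ (Real.rpow_nonneg hx.le _)
    (Real.rpow_le_rpow_of_nonpos hx (by linarith) (by norm_num)) h5 hlo).trans ?_
  rw [div_le_div_iff₀ h5 hx, one_mul]
  have h1 : (1 + t₁) ^ (-(6 / 5) : ℝ) * (1 + t₁) = (1 + t₁) ^ (-(1 / 5) : ℝ) := by
    rw [← Real.rpow_add_one hx.ne']; norm_num
  rw [h1]
  have h2' : (2 * (1 + t₁)) ^ (-(1 / 5) : ℝ) ≤ (2 + t₁) ^ (-(1 / 5) : ℝ) :=
    Real.rpow_le_rpow_of_nonpos (by linarith) (by linarith) (by norm_num)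
  rw [Real.mul_rpow (by norm_num) hx.le] at h2'
  have h3 : (1 / 2 : ℝ) ≤ (2 : ℝ) ^ (-(1 / 5) : ℝ) := by
    rw [one_div, ← Real.rpow_neg_one]
    exact Real.rpow_le_rpow_of_exponent_le (by norm_num) (by norm_num)
  nlinarith [Real.rpow_pos_of_pos hx (-(1 / 5) : ℝ), mul_le_mul_of_nonneg_right h3
    (Real.rpow_nonneg hx.le (-(1 / 5) : ℝ))]

end Vale.Agent.P225.PathMetric
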