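import Vale.Agent.P225.Metric.CapProfile
import Vale.Agent.P225.Path.Metric.Rise

/-!
P225, module B: the logarithmic profile of the cap and its fade to the exact cone.
-/

noncomputable section

namespace Vale.Agent.P225.PathMetric

open Real
open scoped ContDiff Topology

variable {a : ℝ → ℝ} {R α ra : ℝ}

/-- `log (a / (α r))` in `t = log r`. -/
def logProf (a : ℝ → ℝ) (α t : ℝ) : ℝ := log (a (exp t)) - t - log α

/-- Its derivative. -/
def logProf₁ (a : ℝ → ℝ) (t : ℝ) : ℝ := exp t * deriv a (exp t) / a (exp t) - 1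

/-- Its second derivative. -/
def logProf₂ (a : ℝ → ℝ) (t : ℝ) : ℝ :=
  exp t * deriv a (exp t) / a (exp t) + exp t ^ 2 * deriv (deriv a) (exp t) / a (exp t) -
    exp t ^ 2 * deriv a (exp t) ^ 2 / a (exp t) ^ 2

theorem logProf_smooth (ha : ContDiff ℝ ∞ a) (hp : ∀ r, 0 < r → 0 < a r) (α : ℝ) :
    ContDiff ℝ ∞ (logProf a α) :=
  (((ha.comp contDiff_exp).log fun t => (hp _ (exp_pos t)).ne').sub contDiff_id).sub contDiff_const

theorem logProf_hasDerivAt (ha : ContDiff ℝ ∞ a) (hp : ∀ r, 0 < r → 0 < a r) (α t : ℝ) :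
    HasDerivAt (logProf a α) (logProf₁ a t) t := by
  have h1 := ((((ha.differentiable (by simp)) (exp t)).hasDerivAt.comp t (hasDerivAt_exp t)).log
    (hp _ (exp_pos t)).ne').sub (hasDerivAt_id t)
  refine (h1.sub_const (log α)).congr_deriv ?_
  simp [logProf₁, Function.comp, mul_comm]

theorem logProf₁_hasDerivAt (ha : ContDiff ℝ ∞ a) (hp : ∀ r, 0 < r → 0 < a r) (t : ℝ) :
    HasDerivAt (logProf₁ a) (logProf₂ a t) t := by
  have h1 := ((ha.differentiable (by simp)) (exp t)).hasDerivAt.comp t (hasDerivAt_exp t)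
  have h2 := (((contDiff_infty_iff_deriv.1 ha).2.differentiable (by simp))
    (exp t)).hasDerivAt.comp t (hasDerivAt_exp t)
  refine ((((hasDerivAt_exp t).mul h2).div h1 (hp _ (exp_pos t)).ne').sub_const 1).congr_deriv ?_
  have := (hp _ (exp_pos t)).ne'
  simp only [logProf₂, Function.comp, Pi.mul_apply]
  field_simp

theorem logProf_conc (hp : ∀ r, 0 < r → 0 < a r) (t : ℝ) :
    logProf₂ a t + logProf₁ a t + logProf₁ a t ^ 2 =
      exp t ^ 2 * (deriv (deriv a) (exp t) / a (exp t)) := by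
  have := (hp _ (exp_pos t)).ne'
  simp only [logProf₁, logProf₂]
  field_simp
  ring

/-- The far part is an exact cone with vertex at `ra`. -/
theorem logProf_far (hα : 0 < α) (hR : 0 < R) (hfar : ∀ r, R ≤ r → a r = α * (r - ra)) {t : ℝ}
    (h1 : R < exp t) (h2 : 2 * |ra| ≤ exp t) :
    |logProf a α t| ≤ 2 * |ra| * exp (-t) ∧ |logProf₁ a t| ≤ 2 * |ra| * exp (-t) ∧
      |logProf₂ a t| ≤ 4 * |ra| * exp (-t) ∧
      logProf₂ a t + logProf₁ a t + logProf₁ a t ^ 2 = 0 := by
  set r := exp t with hr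
  have hr0 : 0 < r := hR.trans h1
  have hlin : ∀ s, R < s → deriv a s = α := fun s hs => by
    have h : a =ᶠ[𝓝 s] fun x => α * (x - ra) := (eventually_ge_nhds hs).mono hfar
    rw [h.deriv_eq]
    simp
  have hd1 : deriv a r = α := hlin r h1
  have hd2 : deriv (deriv a) r = 0 := by
    have h : deriv a =ᶠ[𝓝 r] fun _ => α := (eventually_gt_nhds h1).mono hlin
    rw [h.deriv_eq, deriv_const]
  have hval : a r = α * (r - ra) := hfar r h1.le
  have hd : r / 2 ≤ r - ra := by linarith [le_abs_self ra]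
  have hd0 : 0 < r - ra := by linarith
  have e1 : logProf₁ a t = ra / (r - ra) := by
    simp only [logProf₁, ← hr, hd1, hval]
    field_simp
    ring
  have e2 : logProf₂ a t = -(ra * r) / (r - ra) ^ 2 := by
    simp only [logProf₂, ← hr, hd1, hd2, hval]
    field_simp
    ring
  have e0 : logProf a α t = log ((r - ra) / r) := by
    simp only [logProf, ← hr, hval, log_mul hα.ne' hd0.ne', log_div hd0.ne' hr0.ne']
    rw [hr, log_exp]
    ring
  have hexp : exp (-t) = r⁻¹ := exp_neg t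
  have hq : |ra| / (r - ra) ≤ 2 * |ra| * r⁻¹ := by
    rw [← div_eq_mul_inv, div_le_div_iff₀ hd0 hr0]
    nlinarith [abs_nonneg ra]
  refine ⟨?_, ?_, ?_, ?_⟩
  · rw [e0, hexp, abs_le]
    have hx : 0 < (r - ra) / r := div_pos hd0 hr0
    have u1 := log_le_sub_one_of_pos hx
    have u2 := one_sub_inv_le_log_of_pos hx
    rw [inv_div] at u2
    have v1 : (r - ra) / r - 1 = -ra * r⁻¹ := by field_simp; ring
    have v2 : 1 - r / (r - ra) = -(ra / (r - ra)) := by field_simp; ring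
    have v3 : |ra / (r - ra)| ≤ 2 * |ra| * r⁻¹ := by rwa [abs_div, abs_of_pos hd0]
    have v4 : |(-ra * r⁻¹)| ≤ 2 * |ra| * r⁻¹ := by
      rw [abs_mul, abs_neg, abs_of_pos (inv_pos.2 hr0)]
      nlinarith [abs_nonneg ra, inv_pos.2 hr0]
    constructor <;> linarith [abs_le.1 v3, abs_le.1 v4]
  · rw [e1, hexp, abs_div, abs_of_pos hd0]; exact hq
  · rw [e2, hexp, neg_div, abs_neg, abs_div, abs_mul, abs_of_pos hr0,
      abs_of_pos (pow_pos hd0 2)]
    calc |ra| * r / (r - ra) ^ 2 ≤ |ra| * r / (r / 2) ^ 2 := by gcongr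
      _ = _ := by field_simp; ring
  · rw [e1, e2]
    field_simp
    ring

/-- The profile faded out on `[c, c + 1]`. -/
def fade (f : ℝ → ℝ) (c t : ℝ) : ℝ := (1 - smoothTransition (t - c)) * f t

/-- Its derivative. -/
def fade₁ (f f₁ : ℝ → ℝ) (c t : ℝ) : ℝ :=
  -deriv smoothTransition (t - c) * f t + (1 - smoothTransition (t - c)) * f₁ t

/-- Its second derivative. -/
def fade₂ (f f₁ f₂ : ℝ → ℝ) (c t : ℝ) : ℝ :=
  -deriv (deriv smoothTransition) (t - c) * f t - 2 * deriv smoothTransition (t - c) * f₁ t +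
    (1 - smoothTransition (t - c)) * f₂ t

theorem fade_hasDerivAt {f f₁ : ℝ → ℝ} (hf : ∀ t, HasDerivAt f (f₁ t) t) (c t : ℝ) :
    HasDerivAt (fade f c) (fade₁ f f₁ c t) t := by
  refine ((((smoothTransition_hasDerivAt (t - c)).comp t ((hasDerivAt_id t).sub_const c)).const_sub
    1).mul (hf t)).congr_deriv ?_
  simp [fade₁, Function.comp]

theorem fade₁_hasDerivAt {f f₁ f₂ : ℝ → ℝ} (hf : ∀ t, HasDerivAt f (f₁ t) t)
    (hf₁ : ∀ t, HasDerivAt f₁ (f₂ t) t) (c t : ℝ) :
    HasDerivAt (fade₁ f f₁ c) (fade₂ f f₁ f₂ c t) t := by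
  have hs := (smoothTransition_hasDerivAt (t - c)).comp t ((hasDerivAt_id t).sub_const c)
  have hs' := (smoothTransition_deriv_hasDerivAt (t - c)).comp t ((hasDerivAt_id t).sub_const c)
  refine ((hs'.neg.mul (hf t)).add ((hs.const_sub 1).mul (hf₁ t))).congr_deriv ?_
  simp [fade₂, Function.comp]
  ring

theorem fade_smooth {f : ℝ → ℝ} (hf : ContDiff ℝ ∞ f) (c : ℝ) : ContDiff ℝ ∞ (fade f c) :=
  (contDiff_const.sub (smoothTransition_smooth.comp (contDiff_id.sub contDiff_const))).mul hf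

theorem fade_before (f f₁ f₂ : ℝ → ℝ) {c t : ℝ} (ht : t ≤ c) :
    fade f c t = f t ∧ fade₁ f f₁ c t = f₁ t ∧ fade₂ f f₁ f₂ c t = f₂ t := by
  have h : t - c ≤ 0 := by linarith
  simp [fade, fade₁, fade₂, smoothTransition.zero_of_nonpos h, smoothTransition_deriv_zero h,
    smoothTransition_deriv2_zero h]

theorem fade_bound {f f₁ f₂ : ℝ → ℝ} {B e c t : ℝ} (hB : 1 ≤ B)
    (hb : |deriv smoothTransition (t - c)| ≤ B ∧ |deriv (deriv smoothTransition) (t - c)| ≤ B)
    (h0 : |f t| ≤ e) (h1 : |f₁ t| ≤ e) (h2 : |f₂ t| ≤ 2 * e) :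
    |fade f c t| ≤ 4 * B * e ∧ |fade₁ f f₁ c t| ≤ 4 * B * e ∧
      |fade₂ f f₁ f₂ c t| ≤ 5 * B * e := by
  have he : 0 ≤ e := (abs_nonneg _).trans h0
  have hs : |1 - smoothTransition (t - c)| ≤ 1 := by
    rw [abs_le]
    constructor <;>
      linarith [smoothTransition.nonneg (t - c), smoothTransition.le_one (t - c)]
  have a0 : |(1 - smoothTransition (t - c)) * f t| ≤ e := by
    rw [abs_mul]; exact (mul_le_mul hs h0 (abs_nonneg _) zero_le_one).trans_eq (one_mul e)
  have a1 : |(1 - smoothTransition (t - c)) * f₁ t| ≤ e := by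
    rw [abs_mul]; exact (mul_le_mul hs h1 (abs_nonneg _) zero_le_one).trans_eq (one_mul e)
  have a2 : |(1 - smoothTransition (t - c)) * f₂ t| ≤ 2 * e := by
    rw [abs_mul]; exact (mul_le_mul hs h2 (abs_nonneg _) zero_le_one).trans_eq (one_mul _)
  have b0 : |deriv smoothTransition (t - c) * f t| ≤ B * e := by
    rw [abs_mul]; exact mul_le_mul hb.1 h0 (abs_nonneg _) (by linarith)
  have b1 : |deriv smoothTransition (t - c) * f₁ t| ≤ B * e := by
    rw [abs_mul]; exact mul_le_mul hb.1 h1 (abs_nonneg _) (by linarith)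
  have b2 : |deriv (deriv smoothTransition) (t - c) * f t| ≤ B * e := by
    rw [abs_mul]; exact mul_le_mul hb.2 h0 (abs_nonneg _) (by linarith)
  have hBe : e ≤ B * e := le_mul_of_one_le_left he hB
  simp only [fade, fade₁, fade₂]
  refine ⟨?_, ?_, ?_⟩
  · rw [abs_le]; constructor <;> linarith [abs_le.1 a0]
  · rw [abs_le]; constructor <;> linarith [abs_le.1 b0, abs_le.1 a1]
  · rw [abs_le]
    constructor <;> linarith [abs_le.1 b2, abs_le.1 b1, abs_le.1 a2]

end Vale.Agent.P225.PathMetric
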