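import Vale.Agent.P225.Path.Metric.Link
import Vale.Agent.P225.Path.EndRicci

/-!
P225, module B: nonnegative Ricci curvature along a slow path of links with increasing scale.
-/

noncomputable section

namespace Vale.Agent.P225.PathMetric

open Matrix Real
open scoped ContDiff Topology Matrix.Norms.Elementwise

/-- The parameters of the uncontrolled links used. -/
def lineSet (P₀ σ₀ : ℝ) : Set (ℝ × ℝ × ℝ) :=
  (Set.Icc P₀ (27 / 4) ×ˢ Set.uIcc σ₀ 0 ×ˢ {0}) ∪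
    (Set.Icc (max P₀ (67 / 10)) (27 / 4) ×ˢ {0} ×ˢ Set.Icc 0 1)

theorem lineSet_subset {P₀ σ₀ : ℝ} : lineSet P₀ σ₀ ⊆ parBox P₀ (27 / 4) σ₀ := by
  rintro ⟨P, σ, θ⟩ (⟨hP, hσ, hθ⟩ | ⟨hP, hσ, hθ⟩) <;> simp only [Set.mem_singleton_iff] at hσ hθ
  · exact ⟨hP, hσ, by simp [hθ]⟩
  · exact ⟨⟨(le_max_left _ _).trans hP.1, hP.2⟩, by simp [hσ], hθ⟩

/-- Curvature of the uncontrolled links. -/
theorem lineSet_ricci {P₀ σ₀ : ℝ} (hP₀ : 0 < P₀)
    (hσ₀ : ∀ σ ∈ Set.uIcc σ₀ 0, 10 < sqrt 3 * P₀ * exp σ ∧ 10 < sqrt 3 * P₀ * exp (-σ)) :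
    ∃ δ > (0 : ℝ), ∀ p ∈ lineSet P₀ σ₀, ∀ w : Fin 6 → ℝ,
      (5 + δ) * ∑ i, ∑ j, linkH (p.1, p.2.1, p.2.2, 0) i j * w i * w j ≤
        ∑ i, ∑ j, linkRicci (linkH (p.1, p.2.1, p.2.2, 0)) linkC i j * w i * w j := by
  obtain ⟨δ₂, hδ₂, hline⟩ := linkRicci_line
  obtain ⟨a, ha, hmin⟩ := isCompact_uIcc.exists_forall_le'
    (f := fun σ => min (sqrt 3 * P₀ * exp σ) (sqrt 3 * P₀ * exp (-σ))) (a := (10 : ℝ))
    (by fun_prop) fun σ hσ => lt_min (hσ₀ σ hσ).1 (hσ₀ σ hσ).2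
  refine ⟨min δ₂ ((a - 10) / 2), lt_min hδ₂ (by linarith), ?_⟩
  rintro ⟨P, σ, θ⟩ hp w
  set δ := min δ₂ ((a - 10) / 2)
  rcases hp with ⟨hP, hσ, hθ⟩ | ⟨hP, hσ, hθ⟩
  · simp only [Set.mem_singleton_iff] at hθ
    subst hθ
    have hP' : 0 < P := lt_of_lt_of_le hP₀ hP.1
    simp only [linkH_product hP']
    rw [Finset.mul_sum]
    simp only [prodDiag_eq, linkRicci_product (show 0 < (sqrt 3 * P * exp σ)⁻¹ by positivity)
      (show 0 < (sqrt 3 * P * exp (-σ))⁻¹ by positivity)]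
    simp only [← prodDiag_eq, prodDiag, Matrix.diagonal_apply, ite_mul, zero_mul,
      Finset.sum_ite_eq, Finset.mem_univ, if_true]
    refine Finset.sum_le_sum fun i _ => ?_
    have key : ∀ x : ℝ, a ≤ x → (5 + δ) * (x⁻¹ * w i * w i) ≤ 1 / 2 * w i * w i := by
      intro x hx
      have hx0 : 0 < x := by linarith
      have : (5 + δ) * x⁻¹ ≤ 1 / 2 := by
        rw [mul_inv_le_iff₀ hx0]
        have := min_le_right δ₂ ((a - 10) / 2)
        linarith
      calc (5 + δ) * (x⁻¹ * w i * w i) = (5 + δ) * x⁻¹ * (w i * w i) := by ring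
        _ ≤ 1 / 2 * (w i * w i) := by gcongr; exact mul_self_nonneg _
        _ = _ := by ring
    have h := hmin σ hσ
    split_ifs
    · refine key _ ((h.trans (min_le_left _ _)).trans ?_)
      gcongr
      exact hP.1
    · refine key _ ((h.trans (min_le_right _ _)).trans ?_)
      gcongr
      exact hP.1
  · simp only [Set.mem_singleton_iff] at hσ
    subst hσ
    have hP' : 0 < P := lt_of_lt_of_le hP₀ ((le_max_left _ _).trans hP.1)
    simp only [linkH_line hP' hθ.1]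
    refine le_trans ?_ (hline P ⟨(le_max_right _ _).trans hP.1, by linarith [hP.2]⟩ θ hθ w)
    refine mul_le_mul_of_nonneg_right (by linarith [min_le_left δ₂ ((a - 10) / 2)]) ?_
    have h0 := (lineM_posDef hP' hθ.1).posSemidef.dotProduct_mulVec_nonneg w
    simp only [dotProduct, Matrix.mulVec, star_trivial, Finset.mul_sum] at h0
    exact h0.trans_eq (Finset.sum_congr rfl fun i _ => Finset.sum_congr rfl fun j _ => by ring)

/-- Smallness for a slow path. -/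
structure Slow (κ P₀ σ₀ : ℝ) (u : ℝ → LinkPar) (φ : ℝ → ℝ) (t : ℝ) : Prop where
  scale : ∀ᶠ s in 𝓝 t, HasDerivAt (fun x => (u x).1) ((u s).1 * φ s / 3) s
  line : (u t).2.2.1 = 0 ∨ ((u t).2.1 = 0 ∧ 67 / 10 ≤ (u t).1)
  pos : 0 < φ t
  small : φ t ≤ κ
  drop : -φ t / 2 ≤ deriv φ t
  vel : ‖deriv u t‖ ^ 2 ≤ κ * φ t
  acc : ‖deriv (deriv u) t‖ ≤ κ

/-- Parameters in the box, with a small symmetric control. -/
def Admissible (κ P₀ σ₀ : ℝ) (u : ℝ → LinkPar) : Prop :=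
  ∀ t, ((u t).1, (u t).2.1, (u t).2.2.1) ∈ parBox P₀ (27 / 4) σ₀ ∧ ‖(u t).2.2.2‖ ≤ κ ∧
    ∀ i j, (u t).2.2.2 i j = (u t).2.2.2 j i

/-- One constant makes slow paths curve nonnegatively. -/
theorem exists_slow_const {P₀ σ₀ : ℝ} (hP₀ : 0 < P₀)
    (hσ₀ : ∀ σ ∈ Set.uIcc σ₀ 0, 10 < sqrt 3 * P₀ * exp σ ∧ 10 < sqrt 3 * P₀ * exp (-σ)) :
    ∃ κ > (0 : ℝ), ∀ u : ℝ → LinkPar, ContDiff ℝ ∞ u → Admissible κ P₀ σ₀ u →
      ((∀ t, u t ∈ linkDom) ∧ (∀ t, (normQ (u t)).PosDef) ∧ ∀ t, (linkH (u t)).PosDef) ∧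
      ∀ φ : ℝ → ℝ, ContDiff ℝ ∞ φ →
        ∀ (V : Set Pt) (g : MetricField) (E : Fin 7 → Pt → Pt) (r : Pt → ℝ)
          (c7 : Fin 7 → Fin 7 → Fin 7 → ℝ),
          IsWarped V g E r (warp fun t => linkH (u t)) linkC c7 →
          ∀ v ∈ V, 0 < r v → Slow κ P₀ σ₀ u φ (Real.log (r v)) →
            ∀ w : Fin 7 → ℝ, 0 ≤ ∑ a, ∑ b, frameRicci g E c7 a b v * w a * w b := by
  obtain ⟨η, hη, hsmall⟩ := exists_small hP₀ (27 / 4) σ₀
  obtain ⟨δ, hδ, hric⟩ := lineSet_ricci hP₀ hσ₀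
  -- the compact family
  set e : ℝ × ℝ × ℝ → LinkPar := fun p => (p.1, p.2.1, p.2.2, 0) with he
  have hlc : IsCompact (lineSet P₀ σ₀) :=
    (isCompact_Icc.prod (isCompact_uIcc.prod isCompact_singleton)).union
      (isCompact_Icc.prod (isCompact_singleton.prod isCompact_Icc))
  have hsub : ∀ p ∈ lineSet P₀ σ₀, e p ∈ linkDom ∧ (linkH (e p)).PosDef := fun p hp =>
    have := hsmall (e p) (lineSet_subset hp) (by simp [he, hη.le]) (by simp [he])
    ⟨this.1, this.2.2⟩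
  have hHc : ContinuousOn linkH linkDom :=
    continuousOn_pi.2 fun i => continuousOn_pi.2 fun j => (linkH_entries i j).continuousOn
  have hKc : IsCompact (linkH ∘ e '' lineSet P₀ σ₀) :=
    hlc.image_of_continuousOn (hHc.comp (by fun_prop) fun p hp => (hsub p hp).1)
  obtain ⟨κe, hκe, hend⟩ := end_ricci hKc (by rintro h ⟨p, hp, rfl⟩; exact (hsub p hp).2) hδ
    (by rintro h ⟨p, hp, rfl⟩ w; exact hric p hp w)
  -- the compact neighbourhood
  set C : Set LinkPar := {u | (u.1, u.2.1, u.2.2.1) ∈ parBox P₀ (27 / 4) σ₀ ∧ ‖u.2.2.2‖ ≤ η ∧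
    ∀ i j, u.2.2.2 i j = u.2.2.2 j i} with hC
  have hCO : C ⊆ linkDom := fun u hu => (hsmall u hu.1 hu.2.1 hu.2.2).1
  have hCc : IsCompact C := by
    have h1 : IsClosed {S : Fin 6 → Fin 6 → ℝ | ‖S‖ ≤ η ∧ ∀ i j, S i j = S j i} := by
      simp only [Set.ofPred_and, Set.ofPred_forall]
      exact (isClosed_le continuous_norm continuous_const).inter
        (isClosed_iInter fun i => isClosed_iInter fun j =>
          isClosed_eq (by fun_prop) (by fun_prop))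
    have h2 : IsCompact {S : Fin 6 → Fin 6 → ℝ | ‖S‖ ≤ η ∧ ∀ i j, S i j = S j i} :=
      (isCompact_closedBall (0 : Fin 6 → Fin 6 → ℝ) η).of_isClosed_subset h1
        fun S hS => by simpa using hS.1
    convert! ((isCompact_Icc (a := P₀) (b := (27 / 4 : ℝ))).prod
      ((isCompact_uIcc (a := σ₀) (b := 0)).prod
        ((isCompact_Icc (a := (0 : ℝ)) (b := 1)).prod h2))) using 1
    ext u
    simp [hC, parBox, Set.mem_prod, and_assoc]
  choose M hM0 hM using fun i j => comp_bound linkDom_isOpen (linkH_entries i j) hCc hCO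
  set Mt := ∑ i, ∑ j, M i j with hMt
  have hMij : ∀ i j, M i j ≤ Mt := fun i j =>
    (Finset.single_le_sum (fun b _ => hM0 i b) (Finset.mem_univ j)).trans
      (Finset.single_le_sum (f := fun a => ∑ b, M a b)
        (fun a _ => Finset.sum_nonneg fun b _ => hM0 a b) (Finset.mem_univ i))
  have hMt0 : 0 ≤ Mt := (hM0 0 0).trans (hMij 0 0)
  obtain ⟨d, hd, hunif⟩ := Metric.uniformContinuousOn_iff.1
    (hCc.uniformContinuousOn_of_continuous (hHc.mono hCO)) κe hκe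
  refine ⟨min (min η (d / 2)) (min (min κe 1) (κe / (2 * (Mt ^ 2 + Mt + 1)))), by positivity, ?_⟩
  set κ := min (min η (d / 2)) (min (min κe 1) (κe / (2 * (Mt ^ 2 + Mt + 1)))) with hκ
  have hκ0 : 0 < κ := by positivity
  have k0 : κ ≤ η := (min_le_left _ _).trans (min_le_left _ _)
  have k1 : κ ≤ d / 2 := (min_le_left _ _).trans (min_le_right _ _)
  have k2 : κ ≤ κe := (min_le_right _ _).trans ((min_le_left _ _).trans (min_le_left _ _))
  have k3 : κ ≤ 1 := (min_le_right _ _).trans ((min_le_left _ _).trans (min_le_right _ _))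
  have k4 : κ * (2 * (Mt ^ 2 + Mt + 1)) ≤ κe :=
    (le_div_iff₀ (by positivity)).1 ((min_le_right _ _).trans (min_le_right _ _))
  intro u hu hadm
  have hmemC : ∀ t, u t ∈ C := fun t => ⟨(hadm t).1, (hadm t).2.1.trans k0, (hadm t).2.2⟩
  have hpd := fun t => hsmall (u t) (hmemC t).1 (hmemC t).2.1 (hmemC t).2.2
  refine ⟨⟨fun t => (hpd t).1, fun t => (hpd t).2.1, fun t => (hpd t).2.2⟩, ?_⟩
  intro φ hφ V g E r c7 W v hv hr hs w
  set t := Real.log (r v) with ht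
  have hsm : ∀ s i j, ContDiffAt ℝ ∞ (fun x => linkH (u x) i j) s := fun s i j =>
    ((linkH_entries i j).contDiffAt (linkDom_isOpen.mem_nhds (hpd s).1)).comp s hu.contDiffAt
  refine hend V g E r (fun x => linkH (u x)) c7 φ hφ hsm W v hv hr ?_ hs.pos (hs.small.trans k2)
    hs.drop ?_ ?_ ?_ w
  · refine hs.scale.mono fun s hP => ?_
    have hd0 : (linkH (u s)).det ≠ 0 := (hpd s).2.2.det_pos.ne'
    have hPs : 0 < (u s).1 := (hpd s).1.1
    have e1 := hasDerivAt_det hd0 (h' := mderiv (fun x => linkH (u x)) s)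
      fun i j => ((hsm s i j).differentiableAt (by simp)).hasDerivAt
    have e2 : HasDerivAt (fun x => (linkH (u x)).det)
        ((linkH (u s)).det * (-2 * φ s)) s := by
      rw [funext fun x => linkH_det (hpd x).1, linkH_det (hpd s).1]
      convert! ((((hP.fun_pow 2).const_mul 3).fun_pow 3).fun_inv (by positivity)) using 1
      push_cast
      field_simp
    exact mul_left_cancel₀ hd0 (e1.unique e2)
  · have h1 : ‖mderiv (fun x => linkH (u x)) t‖ ≤ Mt * ‖deriv u t‖ :=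
      (Matrix.norm_le_iff (mul_nonneg hMt0 (norm_nonneg _))).2 fun i j => by
        rw [Real.norm_eq_abs]
        exact ((hM i j u hu t (hmemC t)).1).trans
          (mul_le_mul_of_nonneg_right (hMij i j) (norm_nonneg _))
    calc ‖mderiv (fun x => linkH (u x)) t‖ ^ 2 ≤ (Mt * ‖deriv u t‖) ^ 2 := by gcongr
      _ = Mt ^ 2 * ‖deriv u t‖ ^ 2 := by ring
      _ ≤ Mt ^ 2 * (κ * φ t) := by gcongr; exact hs.vel
      _ = (Mt ^ 2 * κ) * φ t := by ring
      _ ≤ κe * φ t := by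
        refine mul_le_mul_of_nonneg_right ?_ hs.pos.le
        nlinarith [mul_nonneg hκ0.le hMt0, mul_nonneg hκ0.le (sq_nonneg Mt)]
  · refine (Matrix.norm_le_iff hκe.le).2 fun i j => ?_
    rw [Real.norm_eq_abs]
    refine ((hM i j u hu t (hmemC t)).2).trans ?_
    have h2 : ‖deriv u t‖ ^ 2 + ‖deriv (deriv u) t‖ ≤ 2 * κ := by
      have : κ * φ t ≤ κ * 1 := mul_le_mul_of_nonneg_left (hs.small.trans k3) hκ0.le
      linarith [hs.vel, hs.acc]
    calc M i j * _ ≤ Mt * (2 * κ) := mul_le_mul (hMij i j) h2 (by positivity) hMt0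
      _ ≤ κe := by nlinarith [mul_nonneg hκ0.le (sq_nonneg Mt)]
  · set p : ℝ × ℝ × ℝ := ((u t).1, (u t).2.1, (u t).2.2.1) with hp
    have hb := (hadm t).1
    have hpl : p ∈ lineSet P₀ σ₀ := by
      rcases hs.line with h | ⟨h, h'⟩
      · exact Or.inl ⟨hb.1, hb.2.1, h⟩
      · exact Or.inr ⟨⟨max_le hb.1.1 h', hb.1.2⟩, h, hb.2.2⟩
    refine ⟨linkH (e p), ⟨p, hpl, rfl⟩, ?_⟩
    have hdist : dist (u t) (e p) < d := by
      have : dist (u t) (e p) ≤ κ := by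
        simp only [he, hp, Prod.dist_eq, dist_self, dist_zero_right]
        simp [(hadm t).2.1]
      linarith
    have := (hunif (u t) (hmemC t) (e p) ⟨lineSet_subset hpl, by simp [he, hη.le],
      by simp [he]⟩ hdist).le
    rwa [dist_eq_norm] at this

end Vale.Agent.P225.PathMetric
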