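import Vale.Agent.P225.Path.Metric.Normal

/-!
P225, module B: passing between gauges at Ad-invariant points, and the scaling in the radius.
-/

noncomputable section

namespace Vale.Agent.P225.Sched

open Matrix Real SU2
open scoped ContDiff

/-- Link indices as labels of the block operators. -/
def lkDirE : Fin 6 ≃ Bool × Fin 3 := LinkLine.lkE.trans ((finTwoEquiv).prodCongr (Equiv.refl _))

lemma lkDir_eq (i : Fin 6) : lkDir i = lkDirE i := by
  simp only [lkDir, lkDirE, LinkLine.lkE_eq, Equiv.trans_apply, Equiv.prodCongr_apply,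
    Prod.map, Equiv.refl_apply]
  generalize (LinkLine.lkE i) = x
  obtain ⟨I, k⟩ := x
  fin_cases I <;> rfl

lemma toLink_eq (Q : LinkMat) : toLink Q = Q.submatrix lkDirE lkDirE := by
  ext i j
  simp [toLink, lkDir_eq]

lemma toLink_adQ (G : Fin 3) (P : Fin 3 → ℝ) : toLink (SU2.adQ G P) = adInv (triQ P G) := by
  have key : ∀ x y : Fin 2 × Fin 3, SU2.adQ G P (x.1 == 1, x.2) (y.1 == 1, y.2) =
      if x.2 = y.2 then triQ P G x.1 y.1 else 0 := by
    rintro ⟨I, a⟩ ⟨J, b⟩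
    fin_cases I <;> fin_cases J <;> by_cases h : a = b <;> simp [SU2.adQ, triQ, h] <;> ring
  ext i j
  rw [LinkLine.adInv_apply]
  exact key (LinkLine.lkE i) (LinkLine.lkE j)

lemma det_adQ_gauge (G : Fin 3) (P : Fin 3 → ℝ) :
    (toLink (SU2.adQ G P)).det = (toLink (SU2.adQ 0 P)).det := by
  rw [toLink_adQ, toLink_adQ, LinkLine.det_adInv, LinkLine.det_adInv]
  congr 1
  fin_cases G <;> simp [triQ, Matrix.det_fin_two_of] <;> ring

lemma toLink_posDef {Q : LinkMat} (h : Q.PosDef) : (toLink Q).PosDef := by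
  rw [toLink_eq]; exact h.submatrix lkDirE.injective

lemma toLink_smul (c : ℝ) (Q : LinkMat) : toLink (c • Q) = c • toLink Q := rfl

lemma inv_smul_mat {A : Matrix (Fin 6) (Fin 6) ℝ} (h : A.det ≠ 0) {c : ℝ} (hc : c ≠ 0) :
    (c • A)⁻¹ = c⁻¹ • A⁻¹ := by
  refine Matrix.inv_eq_right_inv ?_
  rw [Matrix.smul_mul, Matrix.mul_smul, smul_smul, mul_inv_cancel₀ hc, one_smul,
    Matrix.mul_nonsing_inv _ (isUnit_iff_ne_zero.2 h)]

lemma linkQ_smul_inv {Q : LinkMat} (hQ : Q.PosDef) {c : ℝ} (hc : c ≠ 0) :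
    linkQ (c • (toLink Q)⁻¹) = c⁻¹ • Q := by
  have hdet := (toLink_posDef hQ).det_pos.ne'
  have e : (c • (toLink Q)⁻¹)⁻¹ = c⁻¹ • toLink Q := by
    rw [inv_smul_mat (by rw [Matrix.det_nonsing_inv, Ring.inverse_eq_inv']; exact inv_ne_zero hdet) hc,
      Matrix.nonsing_inv_nonsing_inv _ (isUnit_iff_ne_zero.2 hdet)]
  ext a b
  simp only [linkQ, e]
  rw [Finset.sum_eq_single (lkDirE.symm a) ?_ (by simp), Finset.sum_eq_single (lkDirE.symm b) ?_
    (by simp)]
  · simp [lkDir_eq, toLink_eq]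
  · intro j _ hj
    rw [if_neg]
    rintro ⟨-, h⟩
    exact hj (by rw [← h, lkDir_eq, Equiv.symm_apply_apply])
  · intro i _ hi
    refine Finset.sum_eq_zero fun j _ => if_neg ?_
    rintro ⟨h, -⟩
    exact hi (by rw [← h, lkDir_eq, Equiv.symm_apply_apply])

lemma gaugeMetric_congr (G : Fin 3) {M M' : ℝ → Matrix (Fin 6) (Fin 6) ℝ} {v : Pt}
    (h : M (rad v) = M' (rad v)) : gaugeMetric G M v = gaugeMetric G M' v := by
  ext i j
  simp only [gaugeMetric, h]

/-- An Ad-invariant link gives the same metric in every gauge. -/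
lemma gaugeMetric_switch (G : Fin 3) {P : Fin 3 → ℝ} (h0 : ∀ k, 0 ≤ P k) (h12 : 0 < P 1 * P 2)
    {v : Pt} (hv : v ∈ chartV) (hr : 0 < rad v) {M M₀ : ℝ → Matrix (Fin 6) (Fin 6) ℝ}
    (hM : M (rad v) = rad v ^ 2 • (toLink (SU2.adQ G P))⁻¹)
    (hM₀ : M₀ (rad v) = rad v ^ 2 • (toLink (SU2.adQ 0 P))⁻¹) :
    gaugeMetric G M v = gaugeMetric 0 M₀ v := by
  obtain ⟨c, hc⟩ : ∃ c, c = (rad v ^ 2)⁻¹ := ⟨_, rfl⟩
  have hc0 : 0 < c := by rw [hc]; positivity
  have hpair : 0 < c * P 0 * (c * P 1) + c * P 1 * (c * P 2) + c * P 2 * (c * P 0) := by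
    have := mul_pos (mul_pos hc0 hc0) h12
    have := mul_nonneg (mul_nonneg hc0.le hc0.le) (mul_nonneg (h0 0) (h0 1))
    have := mul_nonneg (mul_nonneg hc0.le hc0.le) (mul_nonneg (h0 2) (h0 0))
    linarith
  have hK : ∀ K : Fin 3, (adInv (triQ (fun k => c * P k) K))⁻¹ =
      rad v ^ 2 • (toLink (SU2.adQ K P))⁻¹ := by
    intro K
    have e : adInv (triQ (fun k => c * P k) K) = c • toLink (SU2.adQ K P) := by
      rw [toLink_adQ]
      ext i j
      simp only [LinkLine.adInv_apply, Matrix.smul_apply, smul_eq_mul]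
      generalize LinkLine.lkE i = x, LinkLine.lkE j = y
      obtain ⟨I, a⟩ := x
      obtain ⟨J, b⟩ := y
      split_ifs <;> fin_cases I <;> fin_cases J <;> simp [triQ] <;> ring
    have hdet : (toLink (SU2.adQ K P)).det ≠ 0 := by
      rw [det_adQ_gauge, toLink_adQ, LinkLine.det_adInv]
      refine pow_ne_zero _ (ne_of_gt ?_)
      have := mul_nonneg (h0 0) (h0 1)
      have := mul_nonneg (h0 2) (h0 0)
      simp [triQ, Matrix.det_fin_two_of]
      linarith
    rw [e, inv_smul_mat hdet hc0.ne', hc, inv_inv]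
  have h := gaugeMetric_triQ (fun _ k => c * P k) G hv (fun k => mul_nonneg hc0.le (h0 k)) hpair
  rw [gaugeMetric_congr G (M' := fun _ => (adInv (triQ (fun k => c * P k) G))⁻¹)
      (by rw [hM, hK]), h]
  exact gaugeMetric_congr 0 (by rw [hM₀, hK])

/-- The flat core in the form of a gauge metric. -/
lemma gaugeMetric_eq_core {β : ℝ} (hβ : 0 < β) {v : Pt} (hv : v ∈ chartV) (hr : 0 < rad v)
    {M : ℝ → Matrix (Fin 6) (Fin 6) ℝ}
    (hM : M (rad v) = rad v ^ 2 • (toLink (SU2.adQ 0 ![0, 4, 4 * rad v ^ 2 / β]))⁻¹) :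
    gaugeMetric 0 M v = coreMetric β v := by
  refine gaugeMetric_core hv ?_
  have hB : triQ ![0, 4, 4 * rad v ^ 2 / β] 0 * !![1 / 4, 0; 0, β / (4 * rad v ^ 2)] = 1 := by
    ext i j
    fin_cases i <;> fin_cases j <;> simp [triQ, Matrix.mul_apply, Fin.sum_univ_two]
    field_simp
  rw [hM, toLink_adQ, Matrix.inv_eq_right_inv (LinkLine.adInv_mul_eq_one hB)]
  ext i j
  simp only [LinkLine.adInv_apply, Matrix.smul_apply, smul_eq_mul]
  generalize LinkLine.lkE i = x, LinkLine.lkE j = y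
  obtain ⟨I, a⟩ := x
  obtain ⟨J, b⟩ := y
  split_ifs <;> fin_cases I <;> fin_cases J <;> simp <;> field_simp

lemma out_injective {K : ℕ} : Function.Injective (PntK.out : PntK K → Pnt) := by
  rintro ⟨⟨t, ht⟩, m⟩ ⟨⟨t', ht'⟩, m'⟩ e
  have h1 : t = t' := funext fun k => Fin.ext (congrFun (congrArg (fun x : Pnt => x.1.1) e) k)
  subst h1
  simp only [PntK.out, Sigma.mk.injEq, heq_eq_eq, true_and] at e
  rw [e]

lemma rowSum_adQ (G : Fin 3) (P : Fin 3 → ℝ) (c : Pnt → ℂ) (x : Pnt) :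
    rowSum G (SU2.linkOp (SU2.adQ G P)) c x = ((∑ k, P k * cas (lab x k) : ℝ) : ℂ) * c x := by
  have hK : ∀ k, lab x k ≤ lab x (G + 1) + lab x (G + 2) := fun k => by
    obtain ⟨-, h1, h2, h3⟩ := x.1.2
    fin_cases G <;> fin_cases k <;> simp [lab] at h1 h2 h3 ⊢ <;> omega
  obtain ⟨z₀, hz⟩ : ∃ z₀ : PntK (lab x (G + 1) + lab x (G + 2)), z₀.out = x :=
    ⟨⟨⟨fun k => ⟨lab x k, Nat.lt_succ_of_le (hK k)⟩, x.1.2⟩, x.2⟩, rfl⟩
  rw [rowSum, Finset.sum_eq_single z₀]
  · rw [gaugeEntry_adQ, hz, if_pos rfl]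
  · intro z _ hne
    rw [gaugeEntry_adQ, if_neg fun e => hne (out_injective (e.symm.trans hz.symm)), zero_mul]
  · simp

lemma rowSum_smul (G : Fin 3) (Q : LinkMat) (r : ℝ) (c : Pnt → ℂ) (x : Pnt) :
    rowSum G (SU2.linkOp (r • Q)) c x = (r : ℂ) * rowSum G (SU2.linkOp Q) c x := by
  have hop : ∀ p, SU2.linkOp (r • Q) p = (r : ℂ) • SU2.linkOp Q p := fun p => by
    simp only [SU2.linkOp, Matrix.smul_apply, smul_eq_mul, Complex.ofReal_mul, mul_smul,
      Finset.smul_sum, smul_neg]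
  simp only [rowSum, Finset.mul_sum, gaugeEntry, hop, Matrix.smul_apply, smul_eq_mul]
  refine Finset.sum_congr rfl fun z _ => ?_
  split_ifs
  · simp only [Finset.mul_sum, Finset.sum_mul]
    exact Finset.sum_congr rfl fun a _ => Finset.sum_congr rfl fun b _ => by ring
  · ring

end Vale.Agent.P225.Sched
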