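import Vale.Agent.P225.Geom.Chart
import Vale.Agent.P225.Geometry.Complete

/-!
P225, module B: from local gauge models to a complete metric of nonnegative Ricci curvature on the
chart, with `dr² ≤ g`.
-/

noncomputable section

namespace Vale.Agent.P225.PathMetric

open Matrix Real Filter Set
open scoped ContDiff Topology

/-- Near every point off the core sphere a gauge metric curved nonnegatively. -/
def LocalModel (g : MetricField) (v : Pt) : Prop :=
  ∃ (W : Set Pt) (G : Fin 3) (M : ℝ → Matrix (Fin 6) (Fin 6) ℝ), v ∈ W ∧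
    IsWarped W g (gaugeFrame G) rad M linkC chartC ∧ (∀ x ∈ W, g x = gaugeMetric G M x) ∧
    ∀ w : Fin 7 → ℝ, 0 ≤ ∑ a, ∑ b, frameRicci g (gaugeFrame G) chartC a b v * w a * w b

theorem continuousOn_rad : ContinuousOn rad chartU := by
  have h : ContinuousOn (fun v => qnsq (xC v)) chartU :=
    continuousOn_finsetSum _ fun i _ =>
      ((continuous_apply i).comp_continuousOn chart_contDiffOn.1.continuousOn).mul
        ((continuous_apply i).comp_continuousOn chart_contDiffOn.1.continuousOn)
  exact h.sqrt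

theorem coreMetric_smooth (β : ℝ) (i j : Fin 7) :
    ContDiffOn ℝ ∞ (fun v => coreMetric β v i j) chartU := by
  have hd : ∀ {f : Pt → Q4}, ContDiffOn ℝ ∞ f chartU → ∀ (m : Fin 7) (k : Fin 4),
      ContDiffOn ℝ ∞ (fun v => fderiv ℝ f v (Pi.single m 1) k) chartU := fun hf m k =>
    contDiffOn_pi.1 ((hf.fderiv_of_isOpen chartU_isOpen le_rfl).clm_apply contDiffOn_const) k
  obtain ⟨hx, hθ, -⟩ := chart_contDiffOn
  simp only [coreMetric]
  exact (ContDiffOn.sum fun k _ => (hd hx i k).mul (hd hx j k)).add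
    (contDiffOn_const.mul (ContDiffOn.sum fun k _ => (hd hθ i k).mul (hd hθ j k)))

theorem sum_prod_forms (f : Pt →L[ℝ] ℝ) (a : Pt) :
    ∑ i, ∑ j, f (Pi.single i 1) * f (Pi.single j 1) * a i * a j = f a * f a := by
  rw [Chart.clm_eq_sum f a, Finset.sum_mul_sum]
  exact Finset.sum_congr rfl fun i _ => Finset.sum_congr rfl fun j _ => by ring

theorem coreMetric_eval (β : ℝ) (v a : Pt) :
    ∑ i, ∑ j, coreMetric β v i j * a i * a j =
      (∑ k, fderiv ℝ xC v a k * fderiv ℝ xC v a k) +
        β * ∑ k, fderiv ℝ thC v a k * fderiv ℝ thC v a k := by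
  have key : ∀ L : Pt →L[ℝ] Q4, ∑ i, ∑ j, (∑ k, L (Pi.single i 1) k * L (Pi.single j 1) k) *
      a i * a j = ∑ k, L a k * L a k := by
    intro L
    have hk : ∀ k, ∑ i, ∑ j, L (Pi.single i 1) k * L (Pi.single j 1) k * a i * a j =
        L a k * L a k := fun k =>
      sum_prod_forms ((ContinuousLinearMap.proj (R := ℝ) (φ := fun _ : Fin 4 => ℝ) k).comp L) a
    simp only [Finset.sum_mul, ← hk]
    rw [Finset.sum_comm (s := (Finset.univ : Finset (Fin 4)))]
    exact Finset.sum_congr rfl fun i _ => Finset.sum_comm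
  rw [← key, ← key, Finset.mul_sum, ← Finset.sum_add_distrib]
  refine Finset.sum_congr rfl fun i _ => ?_
  rw [Finset.mul_sum, ← Finset.sum_add_distrib]
  refine Finset.sum_congr rfl fun j _ => ?_
  simp only [coreMetric]
  ring

theorem quad_eq (A : Matrix (Fin 7) (Fin 7) ℝ) (a : Pt) :
    star a ⬝ᵥ A *ᵥ a = ∑ i, ∑ j, A i j * a i * a j := by
  simp only [dotProduct, Matrix.mulVec, star_trivial, Finset.mul_sum]
  exact Finset.sum_congr rfl fun i _ => Finset.sum_congr rfl fun j _ => by ring

theorem coreMetric_posDef {β : ℝ} (hβ : 0 < β) {v : Pt} (hv : v ∈ chartU) :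
    (coreMetric β v).PosDef := by
  refine Matrix.PosDef.of_dotProduct_mulVec_pos ?_ fun a ha => ?_
  · refine Matrix.IsHermitian.ext fun i j => ?_
    simp only [star_trivial, coreMetric]
    congr 1
    · exact Finset.sum_congr rfl fun k _ => mul_comm _ _
    · congr 1; exact Finset.sum_congr rfl fun k _ => mul_comm _ _
  · rw [quad_eq, coreMetric_eval]
    have n1 : 0 ≤ ∑ k, fderiv ℝ xC v a k * fderiv ℝ xC v a k :=
      Finset.sum_nonneg fun k _ => mul_self_nonneg _
    have n2 : 0 ≤ ∑ k, fderiv ℝ thC v a k * fderiv ℝ thC v a k :=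
      Finset.sum_nonneg fun k _ => mul_self_nonneg _
    by_contra hc
    rw [not_lt] at hc
    have n3 := mul_nonneg hβ.le n2
    have z1 : ∑ k, fderiv ℝ xC v a k * fderiv ℝ xC v a k = 0 := by linarith
    have z2 : β * ∑ k, fderiv ℝ thC v a k * fderiv ℝ thC v a k = 0 := by linarith
    rw [mul_eq_zero, or_iff_right hβ.ne'] at z2
    have hz : ∀ {q : Q4}, ∑ k, q k * q k = 0 → q = 0 := fun {q} h => funext fun k => by
      simpa using (Finset.sum_eq_zero_iff_of_nonneg fun l _ => mul_self_nonneg (q l)).1 h k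
        (Finset.mem_univ k)
    refine ha ?_
    rw [← Chart.liftVec_fderiv hv a, hz z1, hz z2]
    ext i
    fin_cases i <;> simp [liftVec]

/-- The smoothed radius. -/
def softRad (η : ℝ) (v : Pt) : ℝ := sqrt (η ^ 2 + qnsq (xC v))

theorem softRad_smooth {η : ℝ} (hη : 0 < η) : ContDiffOn ℝ 1 (softRad η) chartU := by
  refine ContDiffOn.sqrt (contDiffOn_const.add (ContDiffOn.sum fun i _ => ?_)) fun v _ =>
    (add_pos_of_pos_of_nonneg (pow_pos hη 2) (Chart.qnsq_nonneg _)).ne'
  have h : ContDiffOn ℝ 1 (fun x => xC x i) chartU :=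
    contDiffOn_pi.1 (chart_contDiffOn.1.of_le (by exact_mod_cast le_top)) i
  exact h.mul h

theorem fderiv_softRad {η : ℝ} (hη : 0 < η) {v : Pt} (hv : v ∈ chartU) (a : Pt) :
    fderiv ℝ (softRad η) v a = (softRad η v)⁻¹ * ∑ i, xC v i * fderiv ℝ xC v a i := by
  have hpos : 0 < η ^ 2 + qnsq (xC v) :=
    add_pos_of_pos_of_nonneg (pow_pos hη 2) (Chart.qnsq_nonneg _)
  have hx := (Chart.hasFDerivAt_xC hv).differentiableAt.hasFDerivAt
  have hi : ∀ i, HasFDerivAt (fun w => xC w i)
      ((ContinuousLinearMap.proj (R := ℝ) (φ := fun _ : Fin 4 => ℝ) i).comp (fderiv ℝ xC v)) v :=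
    fun i => ((ContinuousLinearMap.proj (R := ℝ) (φ := fun _ : Fin 4 => ℝ) i).hasFDerivAt).comp v hx
  have h := ((HasFDerivAt.fun_sum fun i (_ : i ∈ Finset.univ) => (hi i).mul (hi i)).const_add
    (η ^ 2)).sqrt hpos.ne'
  have e : fderiv ℝ (softRad η) v = _ := h.fderiv
  rw [e]
  simp [softRad, qnsq, Finset.sum_add_distrib]
  ring

theorem rad_le_softRad (η : ℝ) (v : Pt) : rad v ≤ softRad η v :=
  Real.sqrt_le_sqrt (le_add_of_nonneg_left (sq_nonneg η))

theorem softRad_le {η : ℝ} (hη : 0 ≤ η) (v : Pt) : softRad η v ≤ rad v + η := by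
  refine Real.sqrt_le_iff.2 ⟨add_nonneg (Real.sqrt_nonneg _) hη, ?_⟩
  have := Real.sq_sqrt (Chart.qnsq_nonneg (xC v))
  rw [rad, add_sq, this]
  nlinarith [Real.sqrt_nonneg (qnsq (xC v))]

/-- A point of the chart far in no coordinate. -/
theorem softRad_sublevel (R : ℝ) :
    ∃ K, IsCompact K ∧ K ⊆ chartU ∧ ∀ v ∈ chartU, softRad 1 v ≤ R → v ∈ K := by
  have hc : Continuous fun v : Pt => qnsq (yPart v) := by unfold qnsq yPart; fun_prop
  refine ⟨Metric.closedBall 0 (exp |R| + |R|) ∩ {v | exp (-|R|) ≤ sqrt (qnsq (yPart v))},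
    (isCompact_closedBall _ _).inter_right (isClosed_le continuous_const hc.sqrt),
    fun v hv => ?_, fun v hv hR => ?_⟩
  · intro h0
    have h2 : exp (-|R|) ≤ sqrt (qnsq (yPart v)) := hv.2
    rw [h0] at h2
    simp [qnsq] at h2
    exact absurd h2 (not_le.2 (exp_pos _))
  · have hy : 0 < sqrt (qnsq (yPart v)) := Chart.qlen_pos hv
    have hx : ∀ k, |xC v k| ≤ |R| := fun k => by
      refine le_trans ?_ (((rad_le_softRad 1 v).trans hR).trans (le_abs_self R))
      rw [← Real.sqrt_sq_eq_abs, rad]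
      refine Real.sqrt_le_sqrt ?_
      rw [sq]
      exact Finset.single_le_sum (f := fun i => xC v i * xC v i) (fun i _ => mul_self_nonneg _)
        (Finset.mem_univ k)
    have h0 := abs_le.1 (hx 0)
    simp only [xC, Matrix.cons_val_zero] at h0
    refine ⟨?_, (le_log_iff_exp_le hy).1 h0.1⟩
    have hy' : sqrt (qnsq (yPart v)) ≤ exp |R| := (log_le_iff_le_exp hy).1 h0.2
    have hyk : ∀ k, |yPart v k| ≤ exp |R| := fun k => by
      refine le_trans ?_ hy'
      rw [← Real.sqrt_sq_eq_abs]
      refine Real.sqrt_le_sqrt ?_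
      rw [sq]
      exact Finset.single_le_sum (f := fun i => yPart v i * yPart v i)
        (fun i _ => mul_self_nonneg _) (Finset.mem_univ k)
    have hR0 : 0 ≤ |R| := abs_nonneg R
    have he : 0 < exp |R| := exp_pos _
    have h1 := hx 1
    have h2 := hx 2
    have h3 := hx 3
    simp [xC] at h1 h2 h3
    rw [mem_closedBall_zero_iff, pi_norm_le_iff_of_nonneg (by positivity)]
    intro i
    rw [Real.norm_eq_abs]
    have y0 := hyk 0
    have y1 := hyk 1
    have y2 := hyk 2
    have y3 := hyk 3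
    simp [yPart] at y0 y1 y2 y3
    fin_cases i <;> simp <;> linarith

/-- The global properties from local models. -/
theorem global_of_local {g : MetricField} {β r₀ : ℝ} (hβ : 0 < β) (hr₀ : 0 < r₀)
    (hcore : ∀ v ∈ chartU, rad v < r₀ → g v = coreMetric β v)
    (hloc : ∀ v ∈ chartV, LocalModel g v) :
    IsRicNonnegComplete chartU g ∧
      ∀ o ∈ chartU, ∀ v ∈ chartU, rad v - rad o ≤ rdist chartU g o v := by
  have hoffV : ∀ v ∈ chartU, v ∉ chartV → rad v < r₀ := fun v hv hn => by
    have : xC v = 0 := by_contra fun h => hn ⟨hv, h⟩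
    simpa [rad, this, qnsq] using hr₀
  have hsm : ∀ i j, ContDiffOn ℝ ∞ (fun x => g x i j) chartU := by
    intro i j v hv
    by_cases hV : v ∈ chartV
    · obtain ⟨W, G, M, hvW, hW, -, -⟩ := hloc v hV
      exact ((hW.smoothG i j).contDiffAt (hW.frame.isOpen.mem_nhds hvW)).contDiffWithinAt
    · have hn : {x | x ∈ chartU ∧ rad x < r₀} ∈ 𝓝 v :=
        (continuousOn_rad.isOpen_inter_preimage chartU_isOpen isOpen_Iio).mem_nhds
          ⟨hv, hoffV v hv hV⟩
      exact (((coreMetric_smooth β i j).contDiffAt (chartU_isOpen.mem_nhds hv)).congr_of_eventuallyEq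
        (eventually_of_mem hn fun x hx => by rw [hcore x hx.1 hx.2])).contDiffWithinAt
  have hpd : ∀ x ∈ chartU, (g x).PosDef := by
    intro v hv
    by_cases hV : v ∈ chartV
    · obtain ⟨W, G, M, hvW, hW, -, -⟩ := hloc v hV
      exact hW.posDef v hvW
    · rw [hcore v hv (hoffV v hv hV)]
      exact coreMetric_posDef hβ hv
  have hρ : ∀ η, 0 < η → ∀ x ∈ chartU, ∀ a, |fderiv ℝ (softRad η) x a| ≤ tlen g x a := by
    intro η hη x hx a
    rw [fderiv_softRad hη hx, tlen]
    refine Real.abs_le_sqrt ?_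
    have hs0 : 0 < softRad η x :=
      Real.sqrt_pos.2 (add_pos_of_pos_of_nonneg (pow_pos hη 2) (Chart.qnsq_nonneg _))
    by_cases hV : x ∈ chartV
    · obtain ⟨W, G, M, hvW, hW, heq, -⟩ := hloc x hV
      rw [heq x hvW, Chart.gaugeMetric_eval]
      have hr : 0 < rad x := Chart.qlen_pos hV.2
      have h2 : 0 ≤ ∑ k, ∑ l, M (rad x) k l * Chart.gcfL G x k a * Chart.gcfL G x l a := by
        have := (hW.posDef_link hvW).posSemidef.dotProduct_mulVec_nonneg
          fun k => Chart.gcfL G x k a
        simp only [dotProduct, Matrix.mulVec, star_trivial, Finset.mul_sum] at this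
        exact this.trans_eq (Finset.sum_congr rfl fun k _ => Finset.sum_congr rfl fun l _ => by ring)
      have h3 : ∑ i, xC x i * fderiv ℝ xC x a i = rad x * fderiv ℝ rad x a := by
        rw [Chart.fderiv_rad_apply hV]; field_simp
      rw [h3]
      have h4 : (softRad η x)⁻¹ * rad x ≤ 1 := by
        rw [inv_mul_le_one₀ hs0]; exact rad_le_softRad η x
      have h5 : 0 ≤ (softRad η x)⁻¹ * rad x := by positivity
      calc ((softRad η x)⁻¹ * (rad x * fderiv ℝ rad x a)) ^ 2
          = ((softRad η x)⁻¹ * rad x) ^ 2 * fderiv ℝ rad x a ^ 2 := by ring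
        _ ≤ 1 * fderiv ℝ rad x a ^ 2 :=
            mul_le_mul_of_nonneg_right (pow_le_one₀ h5 h4) (sq_nonneg _)
        _ ≤ _ := by rw [one_mul, sq]; linarith
    · rw [hcore x hx (hoffV x hx hV), coreMetric_eval]
      have : xC x = 0 := by_contra fun h => hV ⟨hx, h⟩
      simp only [this, Pi.zero_apply, zero_mul, Finset.sum_const_zero, mul_zero,
        zero_pow two_ne_zero]
      exact add_nonneg (Finset.sum_nonneg fun k _ => mul_self_nonneg _)
        (mul_nonneg hβ.le (Finset.sum_nonneg fun k _ => mul_self_nonneg _))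
  have hcont : ∀ i j, ContinuousOn (fun x => g x i j) chartU := fun i j => (hsm i j).continuousOn
  have hpre := chartU_connected.isPreconnected
  refine ⟨⟨chartU_isOpen, chartU_connected, hsm, hpd,
    isCompleteRiem_of_exhaustion chartU_isOpen hpre hcont hpd (softRad_smooth one_pos)
      (hρ 1 one_pos) softRad_sublevel, fun x hx a => ?_⟩, fun o ho v hv => ?_⟩
  · have hricV : ∀ y ∈ chartV, 0 ≤ ∑ i, ∑ j, ricci g i j y * a i * a j := by
      intro y hy
      obtain ⟨W, G, M, hyW, hW, -, hq⟩ := hloc y hy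
      exact ricci_nonneg_of_frame hW.frame hW.smoothG hW.posDef hyW hq a
    by_cases hV : x ∈ chartV
    · exact hricV x hV
    have hd : ∀ k i j, ContinuousOn (pd (christoffel g k i j) i) chartU ∧
        ∀ m, ContinuousOn (pd (christoffel g k i j) m) chartU := fun k i j =>
      ⟨(contDiffOn_pd chartU_isOpen (contDiffOn_christoffel chartU_isOpen hsm hpd k i j) i).continuousOn,
        fun m => (contDiffOn_pd chartU_isOpen
          (contDiffOn_christoffel chartU_isOpen hsm hpd k i j) m).continuousOn⟩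
    have hΓ : ∀ k i j, ContinuousOn (christoffel g k i j) chartU := fun k i j =>
      (contDiffOn_christoffel chartU_isOpen hsm hpd k i j).continuousOn
    have hf : ContinuousOn (fun y => ∑ i, ∑ j, ricci g i j y * a i * a j) chartU := by
      refine continuousOn_finsetSum _ fun i _ => continuousOn_finsetSum _ fun j _ =>
        (ContinuousOn.mul ?_ continuousOn_const).mul continuousOn_const
      unfold ricci
      exact ((continuousOn_finsetSum _ fun k _ => (hd k i j).2 k).sub
        (continuousOn_finsetSum _ fun k _ => (hd k i k).2 j)).add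
        (continuousOn_finsetSum _ fun k _ => continuousOn_finsetSum _ fun l _ =>
          ((hΓ k k l).mul (hΓ l i j)).sub ((hΓ k j l).mul (hΓ l i k)))
    have hx0 : xC x = 0 := by_contra fun h => hV ⟨hx, h⟩
    set γ : ℝ → Pt := fun s => x + s • Pi.single 4 1 with hγ
    have hlim : Tendsto γ (𝓝[≠] 0) (𝓝 x) := by
      have h : Tendsto γ (𝓝 0) (𝓝 (γ 0)) := (by fun_prop : Continuous γ).tendsto 0
      rw [show γ 0 = x by simp [hγ]] at h
      exact h.mono_left nhdsWithin_le_nhds
    refine ge_of_tendsto ((hf.continuousAt (chartU_isOpen.mem_nhds hx)).tendsto.comp hlim)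
      (eventually_nhdsWithin_of_forall fun s (hs : s ≠ 0) => hricV _ ⟨?_, ?_⟩)
    · have hy : yPart (γ s) = yPart x := by
        ext i
        fin_cases i <;> simp [yPart, hγ]
      show yPart (γ s) ≠ 0
      rw [hy]
      exact hx
    · intro h
      have h1 := congrFun h 1
      have h2 := congrFun hx0 1
      simp [xC] at h2
      simp [xC, hγ, h2] at h1
      exact hs h1
  · refine le_of_forall_pos_le_add fun η hη => ?_
    have h1 := abs_sub_le_rdist chartU_isOpen hpre hcont (softRad_smooth hη) (hρ η hη) ho hv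
    have h2 := rad_le_softRad η v
    have h3 := softRad_le hη.le o
    linarith [le_abs_self (softRad η v - softRad η o)]

end Vale.Agent.P225.PathMetric
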