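import Vale.Agent.P225.Path.Metric.Product

/-!
P225, module B: the link as a smooth function of scale, ratio, position and control.
-/

noncomputable section

namespace Vale.Agent.P225.PathMetric

open Matrix Real
open scoped ContDiff Topology

/-- Scale, logarithmic ratio, position on the line and control. -/
abbrev LinkPar := ℝ × ℝ × ℝ × (Fin 6 → Fin 6 → ℝ)

/-- The determinant of the unscaled base matrix. -/
def baseDen (σ θ : ℝ) : ℝ := θ * exp σ + θ * exp (-σ) + 1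

/-- The base inverse Gram matrix. -/
def baseQ (P σ θ : ℝ) : Matrix (Fin 2) (Fin 2) ℝ :=
  (sqrt 3 * P / sqrt (baseDen σ θ)) • !![θ + exp σ, θ; θ, θ + exp (-σ)]

/-- The base plus the control. -/
def rawQ (u : LinkPar) : Matrix (Fin 6) (Fin 6) ℝ :=
  adInv (baseQ u.1 u.2.1 u.2.2.1) + (sqrt 3 * u.1) • Matrix.of u.2.2.2

/-- The inverse Gram matrix, determinant normalised. -/
def normQ (u : LinkPar) : Matrix (Fin 6) (Fin 6) ℝ :=
  ((adInv (baseQ u.1 u.2.1 u.2.2.1)).det / (rawQ u).det) ^ (1 / 6 : ℝ) • rawQ u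

/-- The Gram matrix. -/
def linkH (u : LinkPar) : Matrix (Fin 6) (Fin 6) ℝ := (normQ u)⁻¹

/-- Where everything is smooth. -/
def linkDom : Set LinkPar :=
  {u | 0 < u.1 ∧ 0 < baseDen u.2.1 u.2.2.1 ∧ 0 < (rawQ u).det}

theorem contDiffOn_det_entries {E : Type*} [NormedAddCommGroup E] [NormedSpace ℝ E] {n : ℕ}
    {A : E → Matrix (Fin n) (Fin n) ℝ} {O : Set E}
    (hA : ∀ i j, ContDiffOn ℝ ∞ (fun y => A y i j) O) :
    ContDiffOn ℝ ∞ (fun y => (A y).det) O := by
  simp only [Matrix.det_apply']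
  exact ContDiffOn.sum fun σ _ => contDiffOn_const.mul (contDiffOn_prod fun i _ => hA _ _)

theorem contDiffOn_inv_entry {E : Type*} [NormedAddCommGroup E] [NormedSpace ℝ E] {n : ℕ}
    {A : E → Matrix (Fin n) (Fin n) ℝ} {O : Set E}
    (hA : ∀ i j, ContDiffOn ℝ ∞ (fun y => A y i j) O) (hd : ∀ y ∈ O, (A y).det ≠ 0)
    (i j : Fin n) : ContDiffOn ℝ ∞ (fun y => (A y)⁻¹ i j) O := by
  simp only [Matrix.inv_def, Matrix.smul_apply, Ring.inverse_eq_inv', smul_eq_mul,
    Matrix.adjugate_apply]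
  refine ((contDiffOn_det_entries hA).inv hd).mul (contDiffOn_det_entries fun a b => ?_)
  simp only [Matrix.updateRow_apply]
  split_ifs
  · exact contDiffOn_const
  · exact hA a b

theorem adInv_det (B : Matrix (Fin 2) (Fin 2) ℝ) : (adInv B).det = B.det ^ 3 :=
  LinkLine.det_adInv B

theorem baseQ_det {P σ θ : ℝ} (hD : 0 < baseDen σ θ) : (baseQ P σ θ).det = 3 * P ^ 2 := by
  rw [baseQ, Matrix.det_smul, Matrix.det_fin_two_of, Fintype.card_fin, div_pow, mul_pow,
    Real.sq_sqrt hD.le, Real.sq_sqrt (by norm_num : (0 : ℝ) ≤ 3)]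
  have h1 : exp σ * exp (-σ) = 1 := by rw [← exp_add]; simp
  have h2 : (θ + exp σ) * (θ + exp (-σ)) - θ * θ = baseDen σ θ := by
    simp only [baseDen]; linear_combination h1
  rw [h2]
  field_simp

theorem baseQ_entries : ∀ i j, ContDiffOn ℝ ∞ (fun u : LinkPar => baseQ u.1 u.2.1 u.2.2.1 i j)
    {u | 0 < baseDen u.2.1 u.2.2.1} := by
  intro i j
  have hP : ContDiff ℝ ∞ fun u : LinkPar => u.1 := contDiff_fst
  have hσ : ContDiff ℝ ∞ fun u : LinkPar => u.2.1 := contDiff_fst.comp contDiff_snd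
  have hθ : ContDiff ℝ ∞ fun u : LinkPar => u.2.2.1 :=
    contDiff_fst.comp (contDiff_snd.comp contDiff_snd)
  have hD : ContDiff ℝ ∞ fun u : LinkPar => baseDen u.2.1 u.2.2.1 :=
    ((hθ.mul hσ.exp).add (hθ.mul hσ.neg.exp)).add contDiff_const
  simp only [baseQ, Matrix.smul_apply, smul_eq_mul]
  refine ((contDiffOn_const.mul hP.contDiffOn).div (hD.contDiffOn.sqrt fun u hu => (ne_of_gt hu))
    fun u hu => (Real.sqrt_pos.2 hu).ne').mul ?_
  fin_cases i <;> fin_cases j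
  · simpa using (hθ.add hσ.exp).contDiffOn
  · simpa using hθ.contDiffOn
  · simpa using hθ.contDiffOn
  · simpa using (hθ.add hσ.neg.exp).contDiffOn

theorem base_entries (i j : Fin 6) :
    ContDiffOn ℝ ∞ (fun u : LinkPar => adInv (baseQ u.1 u.2.1 u.2.2.1) i j)
      {u | 0 < baseDen u.2.1 u.2.2.1} := by
  simp only [adInv]
  split_ifs
  · exact baseQ_entries _ _
  · exact contDiffOn_const

theorem rawQ_entries (i j : Fin 6) :
    ContDiffOn ℝ ∞ (fun u => rawQ u i j) {u | 0 < baseDen u.2.1 u.2.2.1} := by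
  simp only [rawQ, Matrix.add_apply, Matrix.smul_apply, Matrix.of_apply, smul_eq_mul]
  refine (base_entries i j).add ((contDiff_const.mul contDiff_fst).mul ?_).contDiffOn
  exact ((contDiff_apply_apply ℝ ℝ i j).comp
    (contDiff_snd.comp (contDiff_snd.comp contDiff_snd)))

theorem linkDom_isOpen : IsOpen linkDom := by
  have h1 : IsOpen {u : LinkPar | 0 < baseDen u.2.1 u.2.2.1} :=
    isOpen_lt continuous_const (by unfold baseDen; fun_prop)
  have h2 := (contDiffOn_det_entries rawQ_entries).continuousOn.isOpen_inter_preimage h1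
    (isOpen_Ioi (a := (0 : ℝ)))
  convert! (isOpen_lt (f := fun _ : LinkPar => (0 : ℝ)) continuous_const continuous_fst).inter h2
    using 1

theorem baseDet_pos {u : LinkPar} (hu : u ∈ linkDom) :
    0 < (adInv (baseQ u.1 u.2.1 u.2.2.1)).det := by
  rw [adInv_det, baseQ_det hu.2.1]
  have := hu.1
  positivity

theorem normQ_det {u : LinkPar} (hu : u ∈ linkDom) : (normQ u).det = (3 * u.1 ^ 2) ^ 3 := by
  rw [normQ, Matrix.det_smul, Fintype.card_fin, ← Real.rpow_natCast (((_ : ℝ)) ^ (1 / 6 : ℝ)) 6,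
    ← Real.rpow_mul (div_nonneg (baseDet_pos hu).le hu.2.2.le)]
  norm_num
  rw [div_mul_cancel₀ _ hu.2.2.ne', adInv_det, baseQ_det hu.2.1]

theorem linkH_det {u : LinkPar} (hu : u ∈ linkDom) : (linkH u).det = ((3 * u.1 ^ 2) ^ 3)⁻¹ := by
  rw [linkH, Matrix.det_nonsing_inv, normQ_det hu]
  simp

theorem linkH_entries (i j : Fin 6) : ContDiffOn ℝ ∞ (fun u => linkH u i j) linkDom := by
  have hsub : linkDom ⊆ {u | 0 < baseDen u.2.1 u.2.2.1} := fun u hu => hu.2.1
  refine contDiffOn_inv_entry (fun a b => ?_) (fun u hu => ?_) i j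
  · simp only [normQ, Matrix.smul_apply, smul_eq_mul]
    refine ContDiffOn.mul ?_ ((rawQ_entries a b).mono hsub)
    refine ContDiffOn.rpow_const_of_ne ?_ fun u hu => (div_pos (baseDet_pos hu) hu.2.2).ne'
    exact ((contDiffOn_det_entries base_entries).mono hsub).div
      ((contDiffOn_det_entries rawQ_entries).mono hsub) fun u hu => hu.2.2.ne'
  · rw [normQ_det hu]
    have := hu.1
    positivity

theorem adInv_isSymm {B : Matrix (Fin 2) (Fin 2) ℝ} (hB : B.IsSymm) : (adInv B).IsSymm := by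
  refine Matrix.IsSymm.ext fun i j => ?_
  simp only [adInv, eq_comm (a := (lkSplit j).2), hB.apply]

theorem normQ_isSymm {u : LinkPar} (hS : ∀ i j, u.2.2.2 i j = u.2.2.2 j i) :
    (normQ u).IsSymm := by
  refine Matrix.IsSymm.ext fun i j => ?_
  have hb : (baseQ u.1 u.2.1 u.2.2.1).IsSymm := Matrix.IsSymm.ext fun i j => by
    fin_cases i <;> fin_cases j <;> simp [baseQ]
  simp only [normQ, rawQ, Matrix.smul_apply, Matrix.add_apply, Matrix.of_apply, hS j i,
    (adInv_isSymm hb).apply]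

theorem linkH_isSymm {u : LinkPar} (hS : ∀ i j, u.2.2.2 i j = u.2.2.2 j i) :
    (linkH u).IsSymm := by
  unfold linkH Matrix.IsSymm
  rw [Matrix.transpose_nonsing_inv, normQ_isSymm hS]

/-- Without control the link is the base. -/
theorem linkH_zero {P σ θ : ℝ} (hP : 0 < P) (hD : 0 < baseDen σ θ) :
    linkH (P, σ, θ, 0) = (adInv (baseQ P σ θ))⁻¹ := by
  have h : (adInv (baseQ P σ θ)).det ≠ 0 := by
    rw [adInv_det, baseQ_det hD]; positivity
  have hr : rawQ (P, σ, θ, 0) = adInv (baseQ P σ θ) := by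
    simp [rawQ, show Matrix.of (0 : Fin 6 → Fin 6 → ℝ) = 0 from rfl]
  simp [linkH, normQ, hr, h]

/-- The product points. -/
theorem linkH_product {P σ : ℝ} (hP : 0 < P) :
    linkH (P, σ, 0, 0) = prodDiag (sqrt 3 * P * exp σ)⁻¹ (sqrt 3 * P * exp (-σ))⁻¹ := by
  rw [linkH_zero hP (by simp [baseDen]), ← prodDiag_inv (by positivity) (by positivity),
    prodDiag_eq]
  simp [baseQ, baseDen]

/-- The line to the normal point. -/
theorem linkH_line {P θ : ℝ} (hP : 0 < P) (hθ : 0 ≤ θ) : linkH (P, 0, θ, 0) = lineM P θ := by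
  have hD : 0 < baseDen 0 θ := by simp [baseDen]; linarith
  rw [linkH_zero hP hD, lineM, lineQ]
  simp [baseQ, baseDen, add_comm, two_mul]

/-- The three parameters that occur. -/
def parBox (P₀ P₁ σ₀ : ℝ) : Set (ℝ × ℝ × ℝ) :=
  Set.Icc P₀ P₁ ×ˢ Set.uIcc σ₀ 0 ×ˢ Set.Icc 0 1

theorem baseDen_pos {σ θ : ℝ} (hθ : 0 ≤ θ) : 0 < baseDen σ θ := by
  unfold baseDen; positivity

theorem adInv_quad_pos {B : Matrix (Fin 2) (Fin 2) ℝ} (hB : B 1 0 = B 0 1) (h0 : 0 < B 0 0)
    (h1 : 0 < B.det) {w : Fin 6 → ℝ} (hw : w ≠ 0) :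
    0 < ∑ i, ∑ j, adInv B i j * w i * w j := by
  rw [Matrix.det_fin_two, hB] at h1
  have key : ∀ x y : ℝ, (x ≠ 0 ∨ y ≠ 0) →
      0 < B 0 0 * x ^ 2 + 2 * B 0 1 * x * y + B 1 1 * y ^ 2 := by
    intro x y hxy
    have : 0 < B 0 0 * (B 0 0 * x ^ 2 + 2 * B 0 1 * x * y + B 1 1 * y ^ 2) := by
      rcases eq_or_ne y 0 with hy | hy
      · subst hy
        have hx : x ≠ 0 := hxy.resolve_right (by simp)
        nlinarith [mul_pos (mul_pos h0 h0) (sq_pos_of_ne_zero hx)]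
      · nlinarith [mul_pos h1 (sq_pos_of_ne_zero hy), sq_nonneg (B 0 0 * x + B 0 1 * y)]
    exact (mul_pos_iff.1 this).resolve_right (fun h => by linarith [h.1]) |>.2
  have e : ∑ i, ∑ j, adInv B i j * w i * w j =
      (B 0 0 * w 0 ^ 2 + 2 * B 0 1 * w 0 * w 3 + B 1 1 * w 3 ^ 2) +
      (B 0 0 * w 1 ^ 2 + 2 * B 0 1 * w 1 * w 4 + B 1 1 * w 4 ^ 2) +
      (B 0 0 * w 2 ^ 2 + 2 * B 0 1 * w 2 * w 5 + B 1 1 * w 5 ^ 2) := by
    simp [adInv, lkSplit, Fin.sum_univ_six, hB]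
    ring
  have nn : ∀ x y : ℝ, 0 ≤ B 0 0 * x ^ 2 + 2 * B 0 1 * x * y + B 1 1 * y ^ 2 := fun x y => by
    by_cases h : x ≠ 0 ∨ y ≠ 0
    · exact (key x y h).le
    · push Not at h; simp [h]
  rw [e]
  by_contra hc
  have z : ∀ x y : ℝ, B 0 0 * x ^ 2 + 2 * B 0 1 * x * y + B 1 1 * y ^ 2 ≤ 0 → x = 0 ∧ y = 0 :=
    fun x y h => by
      by_contra h2
      linarith [key x y (not_and_or.1 h2)]
  obtain ⟨a0, a3⟩ := z (w 0) (w 3) (by linarith [nn (w 1) (w 4), nn (w 2) (w 5)])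
  obtain ⟨a1, a4⟩ := z (w 1) (w 4) (by linarith [nn (w 0) (w 3), nn (w 2) (w 5)])
  obtain ⟨a2, a5⟩ := z (w 2) (w 5) (by linarith [nn (w 1) (w 4), nn (w 0) (w 3)])
  exact hw (funext fun i => by fin_cases i <;> assumption)

/-- Small symmetric controls keep the link positive. -/
theorem exists_small {P₀ : ℝ} (hP₀ : 0 < P₀) (P₁ σ₀ : ℝ) :
    ∃ η > (0 : ℝ), ∀ u : LinkPar, (u.1, u.2.1, u.2.2.1) ∈ parBox P₀ P₁ σ₀ →
      ‖u.2.2.2‖ ≤ η → (∀ i j, u.2.2.2 i j = u.2.2.2 j i) →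
        u ∈ linkDom ∧ (normQ u).PosDef ∧ (linkH u).PosDef := by
  have hBc : IsCompact (parBox P₀ P₁ σ₀) := isCompact_Icc.prod (isCompact_uIcc.prod isCompact_Icc)
  set S := Metric.sphere (0 : Fin 6 → ℝ) 1
  have hc : ContinuousOn (fun z : (ℝ × ℝ × ℝ) × (Fin 6 → ℝ) =>
      ∑ i, ∑ j, adInv (baseQ z.1.1 z.1.2.1 z.1.2.2) i j * z.2 i * z.2 j)
      (parBox P₀ P₁ σ₀ ×ˢ S) := by
    refine continuousOn_finsetSum _ fun i _ => continuousOn_finsetSum _ fun j _ => ?_
    have h := ((base_entries i j).continuousOn).comp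
      (f := fun z : (ℝ × ℝ × ℝ) × (Fin 6 → ℝ) => ((z.1.1, z.1.2.1, z.1.2.2, 0) : LinkPar))
      (s := parBox P₀ P₁ σ₀ ×ˢ S) (by fun_prop) fun z hz => baseDen_pos hz.1.2.2.1
    exact (h.mul ((continuous_apply i).comp continuous_snd).continuousOn).mul
      ((continuous_apply j).comp continuous_snd).continuousOn
  have hpos : ∀ z ∈ parBox P₀ P₁ σ₀ ×ˢ S,
      (0 : ℝ) < ∑ i, ∑ j, adInv (baseQ z.1.1 z.1.2.1 z.1.2.2) i j * z.2 i * z.2 j := by
    rintro ⟨⟨P, σ, θ⟩, w⟩ ⟨⟨hP, -, hθ⟩, hw⟩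
    have hD : 0 < baseDen σ θ := baseDen_pos hθ.1
    have hP' : 0 < P := lt_of_lt_of_le hP₀ hP.1
    refine adInv_quad_pos (by simp [baseQ]) ?_ (by rw [baseQ_det hD]; positivity) ?_
    · have := hθ.1
      simp [baseQ]
      positivity
    · rintro rfl
      simp [S] at hw
  obtain ⟨m, hm, hmin⟩ := (hBc.prod (isCompact_sphere _ _)).exists_forall_le' hc hpos
  refine ⟨m / (36 * (sqrt 3 * (|P₁| + 1)) * 2), by positivity, fun u hu hS hsym => ?_⟩
  have hP' : 0 < u.1 := lt_of_lt_of_le hP₀ hu.1.1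
  have hD : 0 < baseDen u.2.1 u.2.2.1 := baseDen_pos hu.2.2.1
  have hraw : (rawQ u).PosDef := by
    refine Matrix.PosDef.of_dotProduct_mulVec_pos ?_ fun w hw => ?_
    · refine Matrix.IsHermitian.ext fun i j => ?_
      have hb : (baseQ u.1 u.2.1 u.2.2.1).IsSymm := Matrix.IsSymm.ext fun a b => by
        fin_cases a <;> fin_cases b <;> simp [baseQ]
      simp [rawQ, hsym j i, (adInv_isSymm hb).apply]
    · have e : star w ⬝ᵥ rawQ u *ᵥ w =
          (∑ i, ∑ j, adInv (baseQ u.1 u.2.1 u.2.2.1) i j * w i * w j) +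
            ∑ i, ∑ j, sqrt 3 * u.1 * u.2.2.2 i j * w i * w j := by
        simp only [dotProduct, Matrix.mulVec, star_trivial, Finset.mul_sum, rawQ,
          Matrix.add_apply, Matrix.smul_apply, Matrix.of_apply, smul_eq_mul,
          ← Finset.sum_add_distrib]
        exact Finset.sum_congr rfl fun i _ => Finset.sum_congr rfl fun j _ => by ring
      have hn : 0 < ‖w‖ := norm_pos_iff.2 hw
      have h1 := hmin ((u.1, u.2.1, u.2.2.1), ‖w‖⁻¹ • w)
        ⟨hu, by simp [norm_smul, hn.ne']⟩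
      have h1' : m * ‖w‖ ^ 2 ≤ ∑ i, ∑ j, adInv (baseQ u.1 u.2.1 u.2.2.1) i j * w i * w j := by
        simp only [Pi.smul_apply, smul_eq_mul] at h1
        rw [← le_div_iff₀ (by positivity)]
        refine h1.trans (le_of_eq ?_)
        simp only [Finset.sum_div]
        exact Finset.sum_congr rfl fun i _ => Finset.sum_congr rfl fun j _ => by field_simp
      have h2 : |∑ i, ∑ j, sqrt 3 * u.1 * u.2.2.2 i j * w i * w j| ≤ m / 2 * ‖w‖ ^ 2 := by
        have hb : ∀ i j, |sqrt 3 * u.1 * u.2.2.2 i j * w i * w j| ≤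
            sqrt 3 * (|P₁| + 1) * ‖u.2.2.2‖ * ‖w‖ * ‖w‖ := by
          intro i j
          have hu1 : |u.1| ≤ |P₁| + 1 := by
            rw [abs_of_pos hP']; linarith [hu.1.2, le_abs_self P₁]
          have hSij : |u.2.2.2 i j| ≤ ‖u.2.2.2‖ := by
            rw [← Real.norm_eq_abs]
            exact (norm_le_pi_norm (u.2.2.2 i) j).trans (norm_le_pi_norm u.2.2.2 i)
          have hwi := norm_le_pi_norm w i
          have hwj := norm_le_pi_norm w j
          rw [Real.norm_eq_abs] at hwi hwj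
          simp only [abs_mul, abs_of_nonneg (sqrt_nonneg 3)]
          gcongr
        refine (Finset.abs_sum_le_sum_abs _ _).trans ((Finset.sum_le_sum fun i _ =>
          (Finset.abs_sum_le_sum_abs _ _).trans (Finset.sum_le_sum fun j _ => hb i j)).trans ?_)
        simp only [Finset.sum_const, Finset.card_univ, Fintype.card_fin, nsmul_eq_mul]
        push_cast
        rw [le_div_iff₀ (by positivity)] at hS
        nlinarith [pow_pos hn 2]
      rw [e]
      linarith [(abs_le.1 h2).1, mul_pos hm (pow_pos hn 2)]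
  have hdom : u ∈ linkDom := ⟨hP', hD, hraw.det_pos⟩
  have hn : (normQ u).PosDef :=
    hraw.smul (Real.rpow_pos_of_pos (div_pos (baseDet_pos hdom) hraw.det_pos) _)
  exact ⟨hdom, hn, hn.inv⟩

/-- First and second derivatives of a composition near a compact set. -/
theorem comp_bound {E : Type*} [NormedAddCommGroup E] [NormedSpace ℝ E] {f : E → ℝ} {O C : Set E}
    (hO : IsOpen O) (hf : ContDiffOn ℝ ∞ f O) (hC : IsCompact C) (hCO : C ⊆ O) :
    ∃ M, 0 ≤ M ∧ ∀ u : ℝ → E, ContDiff ℝ ∞ u → ∀ t, u t ∈ C →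
      |deriv (fun s => f (u s)) t| ≤ M * ‖deriv u t‖ ∧
        |deriv (deriv fun s => f (u s)) t| ≤ M * (‖deriv u t‖ ^ 2 + ‖deriv (deriv u) t‖) := by
  have h1 : ContDiffOn ℝ ∞ (fderiv ℝ f) O := hf.fderiv_of_isOpen hO le_rfl
  have c1 : ContinuousOn (fun x => ‖fderiv ℝ f x‖) C := (h1.continuousOn.mono hCO).norm
  have c2 : ContinuousOn (fun x => ‖fderiv ℝ (fderiv ℝ f) x‖) C :=
    ((h1.continuousOn_fderiv_of_isOpen hO (by simp)).mono hCO).norm
  obtain ⟨M₁, hM₁⟩ := hC.bddAbove_image c1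
  obtain ⟨M₂, hM₂⟩ := hC.bddAbove_image c2
  refine ⟨|M₁| + |M₂|, by positivity, fun u hu t ht => ?_⟩
  have hd : ∀ s, HasDerivAt u (deriv u s) s := fun s =>
    (hu.differentiable (by simp) s).hasDerivAt
  have hd2 : HasDerivAt (deriv u) (deriv (deriv u) t) t :=
    (((contDiff_infty_iff_deriv.1 hu).2).differentiable (by simp) t).hasDerivAt
  have hnear : ∀ᶠ s in 𝓝 t, u s ∈ O :=
    hu.continuous.continuousAt.preimage_mem_nhds (hO.mem_nhds (hCO ht))
  have hfs : ∀ s, u s ∈ O →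
      HasDerivAt (fun s => f (u s)) (fderiv ℝ f (u s) (deriv u s)) s := fun s hs =>
    ((hf.differentiableOn (by simp)).differentiableAt
      (hO.mem_nhds hs)).hasFDerivAt.comp_hasDerivAt s (hd s)
  have hff : HasDerivAt (fun s => fderiv ℝ f (u s))
      (fderiv ℝ (fderiv ℝ f) (u t) (deriv u t)) t :=
    ((h1.differentiableOn (by simp)).differentiableAt
      (hO.mem_nhds (hCO ht))).hasFDerivAt.comp_hasDerivAt t (hd t)
  have e1 := hM₁ ⟨u t, ht, rfl⟩
  have e2 := hM₂ ⟨u t, ht, rfl⟩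
  have a1 : M₁ ≤ |M₁| + |M₂| := by linarith [le_abs_self M₁, abs_nonneg M₂]
  have a2 : M₂ ≤ |M₁| + |M₂| := by linarith [le_abs_self M₂, abs_nonneg M₁]
  constructor
  · rw [(hfs t (hCO ht)).deriv, ← Real.norm_eq_abs]
    exact (ContinuousLinearMap.le_opNorm _ _).trans
      (mul_le_mul_of_nonneg_right (e1.trans a1) (norm_nonneg _))
  · have hE : HasDerivAt (deriv fun s => f (u s))
        (fderiv ℝ (fderiv ℝ f) (u t) (deriv u t) (deriv u t) +
          fderiv ℝ f (u t) (deriv (deriv u) t)) t :=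
      (hff.clm_apply hd2).congr_of_eventuallyEq (hnear.mono fun s hs => (hfs s hs).deriv)
    rw [hE.deriv, ← Real.norm_eq_abs, mul_add]
    refine (norm_add_le _ _).trans (add_le_add ?_ ?_)
    · refine ((fderiv ℝ (fderiv ℝ f) (u t) (deriv u t)).le_opNorm _).trans ?_
      rw [sq, ← mul_assoc]
      exact mul_le_mul_of_nonneg_right (((fderiv ℝ (fderiv ℝ f) (u t)).le_opNorm _).trans
        (mul_le_mul_of_nonneg_right (e2.trans a2) (norm_nonneg _))) (norm_nonneg _)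
    · exact (ContinuousLinearMap.le_opNorm _ _).trans
        (mul_le_mul_of_nonneg_right (e1.trans a1) (norm_nonneg _))

end Vale.Agent.P225.PathMetric
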