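import Vale.Agent.P225.Metric.LinkLine
import Vale.Agent.P225.Path.Metric.Deriv

/-!
P225, module B: metrics `dr² + r² (e^{2u} σ + e^{2v} σ)` with product links, in `t = log r`.
-/

noncomputable section

namespace Vale.Agent.P225.PathMetric

open Matrix
open scoped ContDiff

/-- A product of two round spheres, as a diagonal matrix. -/
def prodDiag (p q : ℝ) : Matrix (Fin 6) (Fin 6) ℝ :=
  Matrix.diagonal fun i => if (lkSplit i).1 = 0 then p else q

theorem prodDiag_eq (p q : ℝ) : prodDiag p q = adInv !![p, 0; 0, q] := by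
  ext i j
  simp only [prodDiag, adInv, Matrix.diagonal_apply]
  have hinj : ∀ i j : Fin 6, lkSplit i = lkSplit j → i = j := by decide
  rcases eq_or_ne i j with rfl | h
  · simp only [if_true]
    rcases (show (lkSplit i).1 = 0 ∨ (lkSplit i).1 = 1 by omega) with e | e <;> simp [e]
  · rw [if_neg h]
    split_ifs with h2
    · have h1 : (lkSplit i).1 ≠ (lkSplit j).1 := fun h1 => h (hinj i j (Prod.ext h1 h2))
      rcases (show (lkSplit i).1 = 0 ∨ (lkSplit i).1 = 1 by omega) with e | e <;>
        rcases (show (lkSplit j).1 = 0 ∨ (lkSplit j).1 = 1 by omega) with f | f <;>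
          simp [e, f] at h1 ⊢
    · rfl

theorem prodDiag_posDef {p q : ℝ} (hp : 0 < p) (hq : 0 < q) : (prodDiag p q).PosDef :=
  Matrix.posDef_diagonal_iff.2 fun i => by split_ifs <;> assumption

theorem prodDiag_inv {p q : ℝ} (hp : p ≠ 0) (hq : q ≠ 0) :
    (prodDiag p q)⁻¹ = prodDiag p⁻¹ q⁻¹ := Matrix.inv_eq_right_inv (by
  rw [prodDiag, prodDiag, Matrix.diagonal_mul_diagonal, ← Matrix.diagonal_one]
  congr 1
  funext i
  split_ifs <;> simp [*])

theorem prodDiag_mul (p q p' q' : ℝ) :
    prodDiag p q * prodDiag p' q' = prodDiag (p * p') (q * q') := by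
  rw [prodDiag, prodDiag, prodDiag, Matrix.diagonal_mul_diagonal]
  congr 1
  funext i
  split_ifs <;> rfl

theorem prodDiag_trace (p q : ℝ) : (prodDiag p q).trace = 3 * p + 3 * q := by
  simp [prodDiag, Matrix.trace, Fin.sum_univ_six, lkSplit]
  ring

theorem linkC_two_equal (i k : Fin 6) :
    linkC k i k = 0 ∧ linkC k k i = 0 ∧ linkC i k k = 0 := by
  fin_cases i <;> fin_cases k <;> simp [linkC, eps3, lkSplit]

theorem linkGamma_diag_trace {d : Fin 6 → ℝ} (hd : ∀ i, d i ≠ 0) (i k : Fin 6) :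
    linkGamma (Matrix.diagonal d) linkC k i k = 0 := by
  have hinv : (Matrix.diagonal d)⁻¹ = Matrix.diagonal fun j => (d j)⁻¹ :=
    Matrix.inv_eq_right_inv (by
      rw [Matrix.diagonal_mul_diagonal, ← Matrix.diagonal_one]
      congr 1
      funext j
      simp [hd j])
  simp [linkGamma, hinv, Matrix.diagonal_apply, Finset.sum_sub_distrib, linkC_two_equal]

theorem hasDerivAt_prodDiag {p q : ℝ → ℝ} {p' q' t : ℝ} (hp : HasDerivAt p p' t)
    (hq : HasDerivAt q q' t) (i j : Fin 6) :
    HasDerivAt (fun s => prodDiag (p s) (q s) i j) (prodDiag p' q' i j) t := by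
  simp only [prodDiag, Matrix.diagonal_apply]
  split_ifs
  · exact hp
  · exact hq
  · exact hasDerivAt_const t 0

/-- `r²/a · a''` for `a = r e^u`. -/
def conc (u : ℝ → ℝ) (t : ℝ) : ℝ := deriv (deriv u) t + deriv u t + deriv u t ^ 2

/-- `r²` times the Ricci curvature in the first factor. -/
def sphereRic (u v : ℝ → ℝ) (t : ℝ) : ℝ :=
  -conc u t + 2 * Real.exp (-(2 * u t)) - 2 * (1 + deriv u t) ^ 2 -
    3 * (1 + deriv u t) * (1 + deriv v t)

/-- The link of the product metric. -/
def prodPath (u v : ℝ → ℝ) (t : ℝ) : Matrix (Fin 6) (Fin 6) ℝ :=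
  prodDiag (Real.exp (2 * u t) / 4) (Real.exp (2 * v t) / 4)

theorem prodPath_smooth {u v : ℝ → ℝ} (hu : ContDiff ℝ ∞ u) (hv : ContDiff ℝ ∞ v) (i j : Fin 6) :
    ContDiff ℝ ∞ fun t => prodPath u v t i j := by
  simp only [prodPath, prodDiag, Matrix.diagonal_apply]
  split_ifs
  · exact ((contDiff_const.mul hu).exp).div_const 4
  · exact ((contDiff_const.mul hv).exp).div_const 4
  · exact contDiff_const

/-- Curvature of a product profile. -/
theorem product_ricci {u v : ℝ → ℝ} (hu : ContDiff ℝ ∞ u) (hv : ContDiff ℝ ∞ v) {V : Set Pt}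
    {g : MetricField} {E : Fin 7 → Pt → Pt} {r : Pt → ℝ} {c7 : Fin 7 → Fin 7 → Fin 7 → ℝ}
    (W : IsWarped V g E r (warp (prodPath u v)) linkC c7) {x : Pt} (hx : x ∈ V) (hr : 0 < r x)
    (h0 : conc u (Real.log (r x)) + conc v (Real.log (r x)) ≤ 0)
    (h1 : 0 ≤ sphereRic u v (Real.log (r x))) (h2 : 0 ≤ sphereRic v u (Real.log (r x)))
    (w : Fin 7 → ℝ) : 0 ≤ ∑ a, ∑ b, frameRicci g E c7 a b x * w a * w b := by
  set t := Real.log (r x) with ht
  set p := fun s => Real.exp (2 * u s) / 4 with hp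
  set q := fun s => Real.exp (2 * v s) / 4 with hq
  have dp : ∀ {u : ℝ → ℝ}, ContDiff ℝ ∞ u → ∀ s,
      HasDerivAt (fun s => Real.exp (2 * u s) / 4) (Real.exp (2 * u s) / 4 * (2 * deriv u s)) s := by
    intro u hu s
    have := ((((hu.differentiable (by simp)) s).hasDerivAt.const_mul 2).exp).div_const 4
    convert! this using 1
    ring
  have d2 : ∀ {u : ℝ → ℝ}, ContDiff ℝ ∞ u → ∀ s,
      HasDerivAt (deriv u) (deriv (deriv u) s) s := fun hu s =>
    ((((contDiff_infty_iff_deriv.1 hu).2).differentiable (by simp)) s).hasDerivAt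
  have e1 : ∀ s, mderiv (prodPath u v) s =
      prodDiag (p s * (2 * deriv u s)) (q s * (2 * deriv v s)) := fun s => by
    ext i j
    exact (hasDerivAt_prodDiag (dp hu s) (dp hv s) i j).deriv
  have e2 : mderiv (mderiv (prodPath u v)) t = prodDiag
      (p t * (2 * deriv (deriv u) t + 4 * deriv u t ^ 2))
      (q t * (2 * deriv (deriv v) t + 4 * deriv v t ^ 2)) := by
    rw [funext e1]
    ext i j
    refine (hasDerivAt_prodDiag ?_ ?_ i j).deriv
    · convert! (dp hu t).mul ((d2 hu t).const_mul 2) using 1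
      simp [hp]; ring
    · convert! (dp hv t).mul ((d2 hv t).const_mul 2) using 1
      simp [hq]; ring
  have hp0 : 0 < p t := by positivity
  have hq0 : 0 < q t := by positivity
  have hN : (prodPath u v t)⁻¹ = prodDiag (p t)⁻¹ (q t)⁻¹ := prodDiag_inv hp0.ne' hq0.ne'
  obtain ⟨f0, f1, f2⟩ := warp_ricci (prodPath_smooth hu hv) W hx hr
  have hA : (prodPath u v t)⁻¹ * mderiv (prodPath u v) t =
      prodDiag (2 * deriv u t) (2 * deriv v t) := by
    rw [hN, e1, prodDiag_mul]
    congr 1 <;> field_simp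
  have R0 : frameRicci g E c7 0 0 x = (r x ^ 2)⁻¹ * (-3 * (conc u t + conc v t)) := by
    rw [f0, hA, hN, e2, prodDiag_mul, prodDiag_mul, prodDiag_trace, prodDiag_trace, prodDiag_trace]
    congr 1
    rw [show (p t)⁻¹ * (p t * (2 * deriv (deriv u) t + 4 * deriv u t ^ 2)) =
      2 * deriv (deriv u) t + 4 * deriv u t ^ 2 by field_simp,
      show (q t)⁻¹ * (q t * (2 * deriv (deriv v) t + 4 * deriv v t ^ 2)) =
      2 * deriv (deriv v) t + 4 * deriv v t ^ 2 by field_simp]
    simp only [conc]
    ring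
  have R1 : ∀ i, frameRicci g E c7 0 (lk i) x = 0 := by
    intro i
    rw [f1 i, hA]
    simp only [prodDiag, Matrix.diagonal_apply, mul_ite, mul_zero, Finset.sum_ite_eq,
      Finset.mem_univ, if_true]
    have hz : ∀ k, linkGamma (prodPath u v t) linkC k i k = 0 := fun k =>
      linkGamma_diag_trace (fun j => by
        split_ifs <;> [exact hp0.ne'; exact hq0.ne']) i k
    simp [hz, t] at *
  have R2 : ∀ i j, frameRicci g E c7 (lk i) (lk j) x =
      prodDiag (p t * sphereRic u v t) (q t * sphereRic v u t) i j := by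
    intro i j
    rw [f2 i j, hA, hN, e1, e2, prodDiag_mul, prodDiag_mul, prodDiag_trace]
    show linkRicci (prodDiag (p t) (q t)) linkC i j - 5 * prodDiag (p t) (q t) i j + _ = _
    rw [prodDiag_eq (p t) (q t), linkRicci_product hp0 hq0, ← prodDiag_eq]
    simp only [prodPath, prodDiag, Matrix.diagonal_apply]
    by_cases hij : i = j
    · subst hij
      simp only [if_true]
      split_ifs
      · simp only [hp, sphereRic, conc, Real.exp_neg]
        field_simp
        ring
      · simp only [hq, sphereRic, conc, Real.exp_neg]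
        field_simp
        ring
    · simp [hij]
  rw [Fin.sum_univ_succ]
  simp only [Fin.sum_univ_succ (n := 6)]
  have R1' : ∀ i : Fin 6, frameRicci g E c7 0 i.succ x = 0 := R1
  have R1'' : ∀ i : Fin 6, frameRicci g E c7 i.succ 0 x = 0 := fun i =>
    (frameRicci_symm W hx i).trans (R1 i)
  have R2' : ∀ i j : Fin 6, frameRicci g E c7 i.succ j.succ x =
      prodDiag (p t * sphereRic u v t) (q t * sphereRic v u t) i j := R2
  simp only [R0, R1', R1'', R2', zero_mul, zero_add, Finset.sum_const_zero, add_zero,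
    prodDiag, Matrix.diagonal_apply, ite_mul, Finset.sum_ite_eq, Finset.mem_univ, if_true]
  refine add_nonneg ?_ (Finset.sum_nonneg fun i _ => ?_)
  · rw [mul_assoc]
    exact mul_nonneg (mul_nonneg (by positivity) (by linarith)) (mul_self_nonneg _)
  · split_ifs <;> rw [mul_assoc] <;>
      exact mul_nonneg (mul_nonneg (by positivity) (by assumption)) (mul_self_nonneg _)

end Vale.Agent.P225.PathMetric
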