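import Vale.Agent.P225.Path.Metric.CapTail
import Vale.Agent.P225.Path.Metric.Product

/-!
P225, module B: the product phase — from the cap to an exact cone of slowly growing scale.
-/

noncomputable section

namespace Vale.Agent.P225.PathMetric

open Real Filter
open scoped ContDiff Topology

/-- The scale of the cone of the cap. -/
def coneScale (α β : ℝ) : ℝ := 4 / (sqrt 3 * α * β)

/-- The product profile: offsets `e` and logarithmic scale change `-log (P / P₀) / 2`. -/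
def prodLog (α : ℝ) (P₀ : ℝ) (P e : ℝ → ℝ) (t : ℝ) : ℝ := log α + e t - log (P t / P₀) / 2

/-- What the assembly uses of the product phase. -/
structure IsProfile (b₀ r₁ α β κ T φ₀ : ℝ) (P φ ea eb : ℝ → ℝ) : Prop where
  T_pos : 1 ≤ T
  core_lt : log r₁ < T
  φ₀_pos : 0 < φ₀
  smoothP : ContDiff ℝ ∞ P
  smoothφ : ContDiff ℝ ∞ φ
  smoothA : ContDiff ℝ ∞ ea
  smoothB : ContDiff ℝ ∞ eb
  mem : ∀ t, P t ∈ Set.Icc (coneScale α β) (27 / 4)
  pos₀ : 0 < coneScale α β
  mono : Monotone P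
  lim : Tendsto P atTop (𝓝 (27 / 4))
  scale : ∀ t, HasDerivAt P (P t * φ t / 3) t
  drop : ∀ t, -φ t / 2 ≤ deriv φ t
  exact : ∀ t, T ≤ t → φ t = φ₀ * (1 + t) ^ (-(6 / 5) : ℝ)
  small : ∀ t, T ≤ t → 0 < φ t ∧ φ t ≤ κ
  settled : ∀ t, T ≤ t → ea t = 0 ∧ eb t = 0
  core : ∀ t, t ≤ log r₁ → P t = coneScale α β ∧ ea t = -log α ∧ eb t = log b₀ - t - log β
  radial : ∀ t, conc (prodLog α (coneScale α β) P ea) t + conc (prodLog β (coneScale α β) P eb) t ≤ 0
  dirX : ∀ t, 0 ≤ sphereRic (prodLog α (coneScale α β) P ea) (prodLog β (coneScale α β) P eb) t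
  dirTheta : ∀ t, 0 ≤ sphereRic (prodLog β (coneScale α β) P eb) (prodLog α (coneScale α β) P ea) t

/-- Margin of the link curvature for small perturbations of a flat cone. -/
theorem sphere_margin {α η ε u u₁ u₂ v₁ : ℝ} (hα : 0 < α) (hαη : α ^ 2 ≤ 2 / 5 - η) (hη : 0 < η)
    (hε0 : 0 ≤ ε) (hε : ε ≤ η / 100) (hu : u ≤ log α + ε) (h1 : |u₁| ≤ ε) (h2 : |u₂| ≤ ε)
    (h3 : |v₁| ≤ ε) :
    0 ≤ -(u₂ + u₁ + u₁ ^ 2) + 2 * exp (-(2 * u)) - 2 * (1 + u₁) ^ 2 -
      3 * (1 + u₁) * (1 + v₁) := by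
  have hα2 : 0 < α ^ 2 := pow_pos hα 2
  have hη1 : η < 2 / 5 := by linarith
  have e1 : (1 - 2 * ε) / α ^ 2 ≤ exp (-(2 * u)) := by
    calc (1 - 2 * ε) / α ^ 2 ≤ exp (-(2 * ε)) / α ^ 2 :=
          div_le_div_of_nonneg_right (by linarith [add_one_le_exp (-(2 * ε))]) hα2.le
      _ = exp (-(2 * (log α + ε))) := by
          rw [show -(2 * (log α + ε)) = -(2 * ε) + -(log α + log α) by ring, exp_add (-(2 * ε)),
            exp_neg (log α + log α), exp_add, exp_log hα]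
          field_simp
      _ ≤ _ := exp_le_exp.2 (by linarith)
  have e2 : (5 + 5 * η) * (1 - 2 * ε) ≤ 2 * ((1 - 2 * ε) / α ^ 2) := by
    rw [← mul_div_assoc, le_div_iff₀ hα2]
    have : (5 + 5 * η) * α ^ 2 ≤ 2 := by nlinarith
    nlinarith [mul_le_mul_of_nonneg_right this (show (0 : ℝ) ≤ 1 - 2 * ε by linarith)]
  obtain ⟨a1, b1⟩ := abs_le.1 h1
  obtain ⟨a2, b2⟩ := abs_le.1 h2
  obtain ⟨a3, b3⟩ := abs_le.1 h3
  have hε1 : ε ≤ 1 := by linarith
  have q1 : u₁ ^ 2 ≤ ε := by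
    have : u₁ ^ 2 ≤ ε ^ 2 := by rw [← sq_abs u₁]; exact pow_le_pow_left₀ (abs_nonneg _) h1 2
    nlinarith
  have q2 : |u₁ * v₁| ≤ ε := by
    rw [abs_mul]
    calc |u₁| * |v₁| ≤ ε * 1 := mul_le_mul h1 (h3.trans hε1) (abs_nonneg _) hε0
      _ = ε := mul_one ε
  have q3 : η * ε ≤ 1 * ε := mul_le_mul_of_nonneg_right (by linarith) hε0
  nlinarith [abs_le.1 q2]

/-- The radial inequality during the switch. -/
theorem radial_margin {lam ψ ψ₁ a₁ a₂ b₁ b₂ e : ℝ} (hl : lam ≤ 0) (hψ : 0 ≤ ψ)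
    (hψ₁ : -ψ / 2 ≤ ψ₁) (hlψ : -lam * ψ ≤ 1 / 4) (ha : |a₁| ≤ 1 / 16) (hb : |b₁| ≤ 1 / 16)
    (he : (a₂ + a₁ + a₁ ^ 2) + (b₂ + b₁ + b₁ ^ 2) ≤ e) (hel : e ≤ -lam * ψ / 8) :
    ((a₂ + lam * ψ₁ / 2) + (a₁ + lam * ψ / 2) + (a₁ + lam * ψ / 2) ^ 2) +
      ((b₂ + lam * ψ₁ / 2) + (b₁ + lam * ψ / 2) + (b₁ + lam * ψ / 2) ^ 2) ≤ 0 := by
  set m := -lam * ψ with hm
  have hm0 : 0 ≤ m := mul_nonneg (by linarith) hψ
  have h1 : lam * ψ₁ ≤ m / 2 := by nlinarith
  have h2 : lam * ψ * (a₁ + b₁) ≤ m / 8 := by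
    have : -(1 / 8) ≤ a₁ + b₁ := by linarith [(abs_le.1 ha).1, (abs_le.1 hb).1]
    nlinarith
  have h3 : (lam * ψ) ^ 2 ≤ m / 4 := by
    have : (lam * ψ) ^ 2 = m * m := by rw [hm]; ring
    rw [this]; nlinarith
  have h4 : lam * ψ = -m := by rw [hm]; ring
  nlinarith

/-- The inequalities on the cap itself. -/
theorem cap_case {a b : ℝ → ℝ} {b₀ r₁ R α β ra rb η : ℝ}
    (hc : IsCap a b b₀ r₁ R α β ra rb η) (t : ℝ) :
    (logProf₂ a t + logProf₁ a t + logProf₁ a t ^ 2) +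
        (logProf₂ b t + logProf₁ b t + logProf₁ b t ^ 2) ≤ 0 ∧
      0 ≤ -(logProf₂ a t + logProf₁ a t + logProf₁ a t ^ 2) +
          2 * exp (-(2 * (log α + logProf a α t))) - 2 * (1 + logProf₁ a t) ^ 2 -
          3 * (1 + logProf₁ a t) * (1 + logProf₁ b t) ∧
      0 ≤ -(logProf₂ b t + logProf₁ b t + logProf₁ b t ^ 2) +
          2 * exp (-(2 * (log β + logProf b β t))) - 2 * (1 + logProf₁ b t) ^ 2 -
          3 * (1 + logProf₁ b t) * (1 + logProf₁ a t) := by
  have hb' : ∀ r, 0 < r → 0 < b r := fun r hr => hc.posB r hr.le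
  rw [logProf_conc hc.posA, logProf_conc hb']
  set r := exp t with hr
  have hr0 : 0 < r := exp_pos t
  have hA := hc.posA r hr0
  have hBp := hb' r hr0
  have hexp : ∀ (f : ℝ → ℝ) (γ : ℝ), 0 < f r →
      exp (-(2 * (log γ + logProf f γ t))) = r ^ 2 / f r ^ 2 := fun f γ hf => by
    rw [show -(2 * (log γ + logProf f γ t)) = (t + t) - (log (f r) + log (f r)) by
      simp only [logProf, ← hr]; ring, exp_sub, exp_add, exp_add, exp_log hf, ← hr]
    ring
  have hsl : ∀ f : ℝ → ℝ, 1 + logProf₁ f t = r * deriv f r / f r := fun f => by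
    simp only [logProf₁, ← hr]; ring
  rw [hexp a α hA, hexp b β hBp, hsl a, hsl b]
  refine ⟨?_, ?_, ?_⟩
  · have := mul_le_mul_of_nonneg_left (hc.radial r hr0) (sq_nonneg r)
    linarith
  · refine (mul_nonneg (sq_nonneg r) (hc.dirX r hr0)).trans_eq ?_
    field_simp
    ring
  · refine (mul_nonneg (sq_nonneg r) (hc.dirTheta r hr0)).trans_eq ?_
    field_simp
    ring

/-- The inequalities on the tail. -/
theorem tail_case {α β η ε lam ψ ψ₁ F a₀ a₁ a₂ b₀ b₁ b₂ e : ℝ} (hα : 0 < α) (hβ : 0 < β)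
    (hαη : α ^ 2 ≤ 2 / 5 - η) (hβη : β ^ 2 ≤ 2 / 5 - η) (hη : 0 < η) (hε0 : 0 ≤ ε)
    (hεη : ε ≤ η / 100) (hε16 : ε ≤ 1 / 16) (hl : lam ≤ 0) (hψ : 0 ≤ ψ) (hψ₁ : -ψ / 2 ≤ ψ₁)
    (hlψ : -lam * ψ ≤ ε / 2) (hdψ : |lam * ψ₁| ≤ ε / 2) (hF : 0 ≤ F)
    (ha : |a₀| ≤ ε / 2 ∧ |a₁| ≤ ε / 2 ∧ |a₂| ≤ ε / 2)
    (hb : |b₀| ≤ ε / 2 ∧ |b₁| ≤ ε / 2 ∧ |b₂| ≤ ε / 2)
    (he : (a₂ + a₁ + a₁ ^ 2) + (b₂ + b₁ + b₁ ^ 2) ≤ e) (hel : e ≤ -lam * ψ / 8) :
    ((a₂ + lam * ψ₁ / 2) + (a₁ + lam * ψ / 2) + (a₁ + lam * ψ / 2) ^ 2) +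
        ((b₂ + lam * ψ₁ / 2) + (b₁ + lam * ψ / 2) + (b₁ + lam * ψ / 2) ^ 2) ≤ 0 ∧
      0 ≤ -((a₂ + lam * ψ₁ / 2) + (a₁ + lam * ψ / 2) + (a₁ + lam * ψ / 2) ^ 2) +
          2 * exp (-(2 * (log α + a₀ + lam * F / 2))) - 2 * (1 + (a₁ + lam * ψ / 2)) ^ 2 -
          3 * (1 + (a₁ + lam * ψ / 2)) * (1 + (b₁ + lam * ψ / 2)) ∧
      0 ≤ -((b₂ + lam * ψ₁ / 2) + (b₁ + lam * ψ / 2) + (b₁ + lam * ψ / 2) ^ 2) +
          2 * exp (-(2 * (log β + b₀ + lam * F / 2))) - 2 * (1 + (b₁ + lam * ψ / 2)) ^ 2 -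
          3 * (1 + (b₁ + lam * ψ / 2)) * (1 + (a₁ + lam * ψ / 2)) := by
  obtain ⟨a0, a1, a2⟩ := ha
  obtain ⟨b0, b1, b2⟩ := hb
  have hlψ' : |lam * ψ / 2| ≤ ε / 2 := by
    rw [abs_le]; constructor <;> linarith [mul_nonneg (neg_nonneg.2 hl) hψ]
  have hdψ' : |lam * ψ₁ / 2| ≤ ε / 2 := by rw [abs_div, abs_two]; linarith [abs_nonneg (lam * ψ₁)]
  have u1 : |a₁ + lam * ψ / 2| ≤ ε := (abs_add_le _ _).trans (by linarith)
  have v1 : |b₁ + lam * ψ / 2| ≤ ε := (abs_add_le _ _).trans (by linarith)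
  have u2 : |a₂ + lam * ψ₁ / 2| ≤ ε := (abs_add_le _ _).trans (by linarith)
  have v2 : |b₂ + lam * ψ₁ / 2| ≤ ε := (abs_add_le _ _).trans (by linarith)
  have hlF := mul_nonpos_of_nonpos_of_nonneg hl hF
  exact ⟨radial_margin hl hψ hψ₁ (by linarith) (by linarith) (by linarith) he hel,
    sphere_margin hα hαη hη hε0 hεη (by linarith [(abs_le.1 a0).2]) u1 u2 v1,
    sphere_margin hβ hβη hη hε0 hεη (by linarith [(abs_le.1 b0).2]) v1 v2 u1⟩

/-- The derivative of the rate, scaled. -/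
theorem rise_deriv_bound {t₁ t lam B X : ℝ} (h2 : 2 ≤ t₁) (ht : t₁ ≤ t) (hl : lam ≤ 0) (hB : 1 ≤ B)
    (hBd : ∀ x, |deriv smoothTransition x| ≤ B ∧ |deriv (deriv smoothTransition) x| ≤ B)
    (hX : -lam * wgt t ≤ X) : |lam * deriv (rise t₁) t| ≤ X * (B + 2) := by
  rw [(rise_hasDerivAt (t₁ := t₁) (show (1 : ℝ) < t by linarith)).deriv, abs_mul, abs_of_nonpos hl]
  have hw := wgt_pos t
  have : |deriv smoothTransition (t - t₁) * wgt t + -(6 / 5) / (1 + t) * rise t₁ t| ≤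
      (B + 2) * wgt t := by
    refine (abs_add_le _ _).trans ?_
    rw [abs_mul, abs_mul, abs_of_pos hw, abs_of_nonneg (rise_nonneg t), add_mul]
    refine add_le_add (mul_le_mul_of_nonneg_right (hBd _).1 hw.le)
      (mul_le_mul ?_ (rise_le_wgt t) (rise_nonneg t) zero_le_two)
    rw [abs_div, abs_neg, abs_of_pos (show (0 : ℝ) < 1 + t by linarith),
      abs_of_pos (show (0 : ℝ) < 6 / 5 by norm_num), div_le_iff₀ (by linarith)]
    linarith
  calc -lam * _ ≤ -lam * ((B + 2) * wgt t) := mul_le_mul_of_nonneg_left this (by linarith)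
    _ = -lam * wgt t * (B + 2) := by ring
    _ ≤ _ := mul_le_mul_of_nonneg_right hX (by linarith)

theorem eventually_poly_exp {B c : ℝ} (hc : 0 < c) :
    ∀ᶠ t : ℝ in atTop, B * exp (-t) ≤ c * (1 + t) ^ (-(6 / 5) : ℝ) := by
  have h := ((tendsto_pow_mul_exp_neg_atTop_nhds_zero 2).const_mul (4 * |B|)).eventually
    (Iio_mem_nhds (show 4 * |B| * 0 < c by simpa using hc))
  filter_upwards [h, eventually_ge_atTop 1] with t ht h1
  have h1t : 0 < 1 + t := by linarith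
  rw [Real.rpow_neg h1t.le, ← div_eq_mul_inv, le_div_iff₀ (Real.rpow_pos_of_pos h1t _)]
  have hp : (1 + t) ^ (6 / 5 : ℝ) ≤ 4 * t ^ 2 :=
    calc (1 + t) ^ (6 / 5 : ℝ) ≤ (1 + t) ^ ((2 : ℕ) : ℝ) :=
          Real.rpow_le_rpow_of_exponent_le (by linarith) (by norm_num)
      _ = (1 + t) ^ 2 := Real.rpow_natCast _ 2
      _ ≤ 4 * t ^ 2 := by nlinarith
  calc B * exp (-t) * (1 + t) ^ (6 / 5 : ℝ) ≤ |B| * exp (-t) * (4 * t ^ 2) := by
        gcongr; exact le_abs_self B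
    _ = 4 * |B| * (t ^ 2 * exp (-t)) := by ring
    _ ≤ c := ht.le

/-- Profiles exist for any smallness. -/
theorem exists_profile {a b : ℝ → ℝ} {b₀ r₁ R α β ra rb η : ℝ}
    (hc : IsCap a b b₀ r₁ R α β ra rb η) {κ : ℝ} (hκ : 0 < κ) :
    ∃ (T φ₀ : ℝ) (P φ ea eb : ℝ → ℝ), IsProfile b₀ r₁ α β κ T φ₀ P φ ea eb := by
  set P₀ := coneScale α β with hP₀
  have hP₀pos : 0 < P₀ := by have := hc.α_pos; have := hc.β_pos; rw [hP₀, coneScale]; positivity
  have hP₀lt : P₀ < 27 / 4 := by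
    rw [hP₀, coneScale, div_lt_iff₀ (by have := hc.α_pos; have := hc.β_pos; positivity)]
    have h3 : (173 / 100 : ℝ) < sqrt 3 := Real.lt_sqrt (by norm_num) |>.2 (by norm_num)
    have := hc.slopes
    nlinarith [mul_nonneg hc.α_pos.le hc.β_pos.le]
  set K := log (P₀ / (27 / 4)) with hK
  have hK0 : K < 0 := log_neg (by positivity) (by rw [div_lt_one (by norm_num)]; exact hP₀lt)
  obtain ⟨B, hB, hBd⟩ := exists_transition_bound
  set M := 2 * (|ra| + |rb|) + 1 with hM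
  have hM0 : 0 < M := by positivity
  set ε := min (η / 100) (1 / 16) with hε
  have hε0 : 0 < ε := lt_min (div_pos hc.η_pos (by norm_num)) (by norm_num)
  -- the switching time
  have z : ∀ C : ℝ, Tendsto (fun t : ℝ => C / (1 + t)) atTop (𝓝 0) := fun C =>
    (tendsto_const_nhds (x := C)).div_atTop (tendsto_atTop_add_const_left _ 1 tendsto_id)
  obtain ⟨t₁, c0, cR, cM, cK, cφ, cE⟩ := ((eventually_ge_atTop (2 : ℝ)).and
    ((tendsto_exp_atTop.eventually (eventually_gt_atTop (R + 2 * (|ra| + |rb|)))).and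
    (((tendsto_exp_neg_atTop_nhds_zero.const_mul (5 * B * M)).eventually
      (Iio_mem_nhds (show 5 * B * M * 0 < ε / 2 by simpa using half_pos hε0))).and
    (((z (-K * (B + 2))).eventually (Iio_mem_nhds (half_pos hε0))).and
    (((z (-3 * K)).eventually (Iio_mem_nhds hκ)).and
    (eventually_atTop.2 ((eventually_poly_exp (B := 30 * B * M) (c := -K / 48)
      (by linarith)).exists_forall_of_atTop.imp fun N hN => fun t ht => fun s (hs : t ≤ s) =>
        hN s (ht.trans hs)))))))).exists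
  have hR0 : 0 < R := hc.r₁_pos.trans hc.r₁_lt
  have htot := riseTot_bounds c0
  have htot0 : 0 < riseTot t₁ :=
    lt_of_lt_of_le (by positivity : (0 : ℝ) < 5 * (2 + t₁) ^ (-(1 / 5) : ℝ)) htot.1
  set lam := K / riseTot t₁ with hlam
  have hlam0 : lam < 0 := div_neg_of_neg_of_pos hK0 htot0
  have hlamK : -K / 6 ≤ -lam := by
    rw [hlam, ← neg_div]; exact div_le_div_of_nonneg_left (by linarith) htot0 htot.2
  -- the functions
  set c := t₁ + 2 with hcc
  set P : ℝ → ℝ := fun t => P₀ * exp (-(lam * riseInt t₁ t)) with hP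
  set φ : ℝ → ℝ := fun t => -3 * lam * rise t₁ t with hφ
  set ea := fade (logProf a α) c
  set eb := fade (logProf b β) c
  have hb' : ∀ r, 0 < r → 0 < b r := fun r hr => hc.posB r hr.le
  have dA := fun t => logProf_hasDerivAt hc.smoothA hc.posA α t
  have dA' := fun t => logProf₁_hasDerivAt hc.smoothA hc.posA t
  have dB := fun t => logProf_hasDerivAt hc.smoothB hb' β t
  have dB' := fun t => logProf₁_hasDerivAt hc.smoothB hb' t
  have hPd : ∀ t, HasDerivAt P (P t * φ t / 3) t := fun t => by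
    refine ((((riseInt_hasDerivAt t).const_mul lam).neg).exp.const_mul P₀).congr_deriv ?_
    simp [hP, hφ]; ring
  have hφd : ∀ t, deriv φ t = -3 * lam * deriv (rise t₁) t := fun t =>
    ((((rise_smooth t₁).differentiable (by simp)) t).hasDerivAt.const_mul _).deriv
  have hlw : ∀ t, t₁ ≤ t → -lam * wgt t ≤ -K / (1 + t₁) := fun t ht => by
    calc -lam * wgt t = -K * (wgt t / riseTot t₁) := by rw [hlam]; ring
      _ ≤ -K * (1 / (1 + t₁)) := mul_le_mul_of_nonneg_left (wgt_div_tot c0 ht) (by linarith)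
      _ = _ := by ring
  -- the logarithmic profiles
  have hprod : ∀ (γ : ℝ) (e : ℝ → ℝ) (t : ℝ),
      prodLog γ P₀ P e t = log γ + e t + lam * riseInt t₁ t / 2 := fun γ e t => by
    simp only [prodLog, hP, mul_div_cancel_left₀ _ hP₀pos.ne', log_exp]; ring
  have hd1 : ∀ (γ : ℝ) (f f₁ : ℝ → ℝ), (∀ t, HasDerivAt f (f₁ t) t) →
      deriv (prodLog γ P₀ P (fade f c)) = fun t => fade₁ f f₁ c t + lam * rise t₁ t / 2 := by
    intro γ f f₁ hf
    funext t
    rw [funext (hprod γ (fade f c))]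
    exact (((fade_hasDerivAt hf c t).const_add (log γ)).add
      (((riseInt_hasDerivAt t).const_mul lam).div_const 2)).deriv
  have hd2 : ∀ (γ : ℝ) (f f₁ f₂ : ℝ → ℝ), (∀ t, HasDerivAt f (f₁ t) t) →
      (∀ t, HasDerivAt f₁ (f₂ t) t) → ∀ t, deriv (deriv (prodLog γ P₀ P (fade f c))) t =
        fade₂ f f₁ f₂ c t + lam * deriv (rise t₁) t / 2 := by
    intro γ f f₁ f₂ hf hf₁ t
    rw [hd1 γ f f₁ hf]
    exact ((fade₁_hasDerivAt hf hf₁ c t).add
      (((((rise_smooth t₁).differentiable (by simp)) t).hasDerivAt.const_mul lam).div_const 2)).deriv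
  -- the three inequalities
  have main : ∀ t,
      conc (prodLog α P₀ P ea) t + conc (prodLog β P₀ P eb) t ≤ 0 ∧
      0 ≤ sphereRic (prodLog α P₀ P ea) (prodLog β P₀ P eb) t ∧
      0 ≤ sphereRic (prodLog β P₀ P eb) (prodLog α P₀ P ea) t := by
    intro t
    simp only [sphereRic, conc, ea, eb]
    rw [hd2 α _ _ _ dA dA' t, hd2 β _ _ _ dB dB' t]
    simp only [hd1 α _ _ dA, hd1 β _ _ dB, hprod]
    rcases le_total t t₁ with ht | ht
    · obtain ⟨f0, f1, f2⟩ := fade_before (logProf a α) (logProf₁ a) (logProf₂ a)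
        (c := c) (t := t) (by linarith)
      obtain ⟨g0, g1, g2⟩ := fade_before (logProf b β) (logProf₁ b) (logProf₂ b)
        (c := c) (t := t) (by linarith)
      simp only [f0, f1, f2, g0, g1, g2, rise_before ht, rise_deriv_before ht, riseInt_before ht,
        mul_zero, zero_div, add_zero]
      exact cap_case hc t
    · have het : exp t₁ ≤ exp t := exp_le_exp.2 ht
      have hRa : 0 ≤ |ra| := abs_nonneg ra
      have hRb : 0 ≤ |rb| := abs_nonneg rb
      obtain ⟨A0, A1, A2, A3⟩ := logProf_far hc.α_pos hR0 (fun s hs => (hc.far s hs).1) (t := t)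
        (by linarith) (by linarith)
      obtain ⟨B0, B1, B2, B3⟩ := logProf_far hc.β_pos hR0 (fun s hs => (hc.far s hs).2) (t := t)
        (by linarith) (by linarith)
      set e := M * exp (-t) with he
      have hea : 2 * |ra| * exp (-t) ≤ e := mul_le_mul_of_nonneg_right (by linarith) (exp_pos _).le
      have heb : 2 * |rb| * exp (-t) ≤ e := mul_le_mul_of_nonneg_right (by linarith) (exp_pos _).le
      obtain ⟨fa0, fa1, fa2⟩ := fade_bound (f := logProf a α) (f₁ := logProf₁ a)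
        (f₂ := logProf₂ a) (c := c) hB (hBd _) (A0.trans hea) (A1.trans hea) (by linarith)
      obtain ⟨fb0, fb1, fb2⟩ := fade_bound (f := logProf b β) (f₁ := logProf₁ b)
        (f₂ := logProf₂ b) (c := c) hB (hBd _) (B0.trans heb) (B1.trans heb) (by linarith)
      have he0 : 0 ≤ B * e := by positivity
      have hee : 5 * B * e ≤ ε / 2 := by
        calc 5 * B * e = 5 * B * M * exp (-t) := by rw [he]; ring
          _ ≤ 5 * B * M * exp (-t₁) :=
              mul_le_mul_of_nonneg_left (exp_le_exp.2 (by linarith)) (by positivity)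
          _ ≤ ε / 2 := cM.le
      set ψ := rise t₁ t with hψ
      have hψ0 : 0 ≤ ψ := rise_nonneg t
      have hlψ : -lam * ψ ≤ -K / (1 + t₁) :=
        (mul_le_mul_of_nonneg_left (rise_le_wgt t) (by linarith)).trans (hlw t ht)
      have hKB : -K / (1 + t₁) * (B + 2) < ε / 2 := by
        rw [div_mul_eq_mul_div]; exact cK
      have hK1 : -K / (1 + t₁) ≤ ε / 2 :=
        (le_mul_of_one_le_right (div_nonneg (by linarith) (by linarith)) (by linarith)).trans hKB.le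
      have hdψ : |lam * deriv (rise t₁) t| ≤ ε / 2 :=
        (rise_deriv_bound c0 ht hlam0.le hB hBd (hlw t ht)).trans hKB.le
      have hεη : ε ≤ η / 100 := min_le_left _ _
      have hε16 : ε ≤ 1 / 16 := min_le_right _ _
      have hcore := fun E => tail_case (e := E) hc.α_pos hc.β_pos hc.α_small hc.β_small hc.η_pos
        hε0.le hεη hε16 hlam0.le hψ0 (rise_drop c0 t) (by linarith) hdψ (riseInt_nonneg (t₁ := t₁) t)
        ⟨show |fade (logProf a α) c t| ≤ ε / 2 by linarith, by linarith,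
          show |fade₂ (logProf a α) (logProf₁ a) (logProf₂ a) c t| ≤ ε / 2 by linarith⟩
        ⟨show |fade (logProf b β) c t| ≤ ε / 2 by linarith, by linarith,
          show |fade₂ (logProf b β) (logProf₁ b) (logProf₂ b) c t| ≤ ε / 2 by linarith⟩
        (a₁ := fade₁ (logProf a α) (logProf₁ a) c t) (b₁ := fade₁ (logProf b β) (logProf₁ b) c t)
      rcases le_total t c with htc | htc
      · obtain ⟨-, f1, f2⟩ := fade_before (logProf a α) (logProf₁ a) (logProf₂ a) htc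
        obtain ⟨-, g1, g2⟩ := fade_before (logProf b β) (logProf₁ b) (logProf₂ b) htc
        exact hcore 0 (by rw [f1, f2, g1, g2, A3, B3]; simp) (by
          linarith [mul_nonneg (neg_nonneg.2 hlam0.le) hψ0])
      · refine hcore (30 * B * e) ?_ ?_
        · have h1 : 4 * B * e ≤ 1 := by linarith
          have s1 : fade₁ (logProf a α) (logProf₁ a) c t ^ 2 ≤ 4 * B * e := by
            rw [← sq_abs, sq]
            exact (mul_le_mul fa1 (fa1.trans h1) (abs_nonneg _) (by linarith)).trans_eq (mul_one _)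
          have s2 : fade₁ (logProf b β) (logProf₁ b) c t ^ 2 ≤ 4 * B * e := by
            rw [← sq_abs, sq]
            exact (mul_le_mul fb1 (fb1.trans h1) (abs_nonneg _) (by linarith)).trans_eq (mul_one _)
          linarith [(abs_le.1 fa1).2, (abs_le.1 fa2).2, (abs_le.1 fb1).2, (abs_le.1 fb2).2]
        · have hw : ψ = wgt t := rise_after (by linarith)
          have := cE t ht
          rw [← wgt_eq (by linarith)] at this
          have h6 := mul_le_mul_of_nonneg_right hlamK (wgt_pos t).le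
          rw [hw]
          calc 30 * B * e = 30 * B * M * exp (-t) := by rw [he]; ring
            _ ≤ _ := by linarith
  have hlogr : log r₁ < t₁ := by
    rw [log_lt_iff_lt_exp hc.r₁_pos]
    linarith [hc.r₁_lt, abs_nonneg ra, abs_nonneg rb]
  refine ⟨t₁ + 3, -3 * lam, P, φ, ea, eb, ⟨by linarith, by linarith, by linarith, ?_, ?_,
    fade_smooth (logProf_smooth hc.smoothA hc.posA α) c,
    fade_smooth (logProf_smooth hc.smoothB hb' β) c, ?_, hP₀pos, ?_, ?_, hPd, ?_, ?_, ?_, ?_, ?_,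
    fun t => (main t).1, fun t => (main t).2.1, fun t => (main t).2.2⟩⟩
  · exact contDiff_const.mul ((contDiff_const.mul (riseInt_smooth t₁)).neg.exp)
  · exact contDiff_const.mul (rise_smooth t₁)
  · intro t
    have hF := riseInt_nonneg (t₁ := t₁) t
    refine ⟨le_mul_of_one_le_right hP₀pos.le
      (one_le_exp (by linarith [mul_nonpos_of_nonpos_of_nonneg hlam0.le hF])), ?_⟩
    have h1 : -(lam * riseInt t₁ t) ≤ -K := by
      have : lam * riseTot t₁ = K := div_mul_cancel₀ K htot0.ne'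
      linarith [mul_le_mul_of_nonpos_left (riseInt_le_tot c0 t) hlam0.le]
    calc P t ≤ P₀ * exp (-K) := mul_le_mul_of_nonneg_left (exp_le_exp.2 h1) hP₀pos.le
      _ = 27 / 4 := by rw [hK, exp_neg, exp_log (by positivity)]; field_simp
  · intro s t hst
    refine mul_le_mul_of_nonneg_left (exp_le_exp.2 ?_) hP₀pos.le
    linarith [mul_le_mul_of_nonpos_left (riseInt_mono t₁ hst) hlam0.le]
  · have h := ((((riseInt_tendsto c0).const_mul lam).neg.rexp).const_mul P₀)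
    convert! h using 2
    rw [show lam * riseTot t₁ = K from div_mul_cancel₀ K htot0.ne', exp_neg, hK,
      exp_log (by positivity)]
    field_simp
  · intro t
    rw [hφd]
    simp only [hφ]
    linarith [mul_le_mul_of_nonneg_left (rise_drop c0 t) (show 0 ≤ -3 * lam by linarith)]
  · intro t ht
    simp only [hφ]
    rw [rise_after (by linarith), wgt_eq (by linarith)]
  · intro t ht
    simp only [hφ]
    rw [rise_after (by linarith)]
    refine ⟨mul_pos (by linarith) (wgt_pos t), le_trans ?_ cφ.le⟩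
    rw [show -3 * K / (1 + t₁) = 3 * (-K / (1 + t₁)) by ring]
    linarith [hlw t (by linarith)]
  · intro t ht
    have h : 1 ≤ t - c := by linarith
    simp [ea, eb, fade, smoothTransition.one_of_one_le h]
  · intro t ht
    have ht1 : t ≤ t₁ := ht.trans hlogr.le
    obtain ⟨f0, -, -⟩ := fade_before (logProf a α) (logProf₁ a) (logProf₂ a) (c := c) (t := t)
      (by linarith)
    obtain ⟨g0, -, -⟩ := fade_before (logProf b β) (logProf₁ b) (logProf₂ b) (c := c) (t := t)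
      (by linarith)
    obtain ⟨ka, kb⟩ := hc.core (exp t) ((exp_le_exp.2 ht).trans_eq (exp_log hc.r₁_pos))
    refine ⟨by simp [hP, riseInt_before ht1, hP₀], ?_, ?_⟩
    · simp [ea, f0, logProf, ka]
    · simp [eb, g0, logProf, kb]

end Vale.Agent.P225.PathMetric
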