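import Vale.Agent.P225.Path.Metric.Local
import Vale.Agent.P225.Path.Metric.Family
import Vale.Agent.P225.Path.Metric.Profile
import Vale.Agent.P225.Path.Metric.Global

/-!
P225, module B: the stage formula as a path of link parameters, its velocity bounds, and the rate
comparisons that make slow moves small.
-/

noncomputable section

namespace Vale.Agent.P225.PathMetric

open Matrix Real Filter
open scoped ContDiff Topology

/-- A block matrix read on link indices. -/
def linkFun (Q : LinkMat) : Fin 6 → Fin 6 → ℝ := fun i j => Q (lkDir i) (lkDir j)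

theorem det_toLink (Q : LinkMat) : (toLink Q).det = Q.det := by
  rw [Sched.toLink_eq, Matrix.det_submatrix_equiv_self]

theorem posDef_of_toLink {Q : LinkMat} (h : (toLink Q).PosDef) : Q.PosDef := by
  have h1 := h.submatrix Sched.lkDirE.symm.injective
  convert! h1 using 1
  ext a b
  simp [Sched.toLink_eq]

/-- Parameters along a stage. -/
def stagePar (σ : StagePlan) (ε : ℝ) (P : ℝ → ℝ) (q : ℕ → ℝ) (start t : ℝ) : LinkPar :=
  (P t, 0, stageTheta σ (ε * (t - start)), ε • linkFun (stageCtrl σ q (ε * (t - start))))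

theorem toLink_stageQ (σ : StagePlan) (ε : ℝ) (P : ℝ → ℝ) (q : ℕ → ℝ) (start t : ℝ) :
    toLink (stageQ σ ε (P t) q (ε * (t - start))) = normQ (stagePar σ ε P q start t) := by
  set s := ε * (t - start)
  have hb : toLink (SU2.adQ σ.gauge (linePar (P t) (stageTheta σ s) σ.gauge)) =
      adInv (baseQ (P t) 0 (stageTheta σ s)) := by
    rw [Sched.toLink_adQ]
    congr 1
    generalize σ.gauge = G
    ext i j
    fin_cases G <;> fin_cases i <;> fin_cases j <;> simp [triQ, linePar, baseQ, baseDen] <;> ring_nf <;> simp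
  simp only [stageQ, Sched.toLink_smul, ← det_toLink, normQ, rawQ, stagePar]
  have hraw : toLink (SU2.adQ σ.gauge (linePar (P t) (stageTheta σ s) σ.gauge) +
      (sqrt 3 * P t * ε) • stageCtrl σ q s) = adInv (baseQ (P t) 0 (stageTheta σ s)) +
      (sqrt 3 * P t) • Matrix.of (ε • linkFun (stageCtrl σ q s)) := by
    rw [← hb]
    ext i j
    simp [toLink, linkFun]
    ring
  rw [hb, hraw]

/-- Bound for the second factor, one letter at a time. -/
theorem ctrl_norm (σ : StagePlan) (k : Fin σ.len) : ‖linkFun (ctrlDir (σ.letter k))‖ ≤ 1 := by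
  refine (pi_norm_le_iff_of_nonneg zero_le_one).2 fun i =>
    (pi_norm_le_iff_of_nonneg zero_le_one).2 fun j => ?_
  simp only [linkFun, ctrlDir]
  split_ifs <;> simp

theorem linkFun_stageCtrl (σ : StagePlan) (q : ℕ → ℝ) (s : ℝ) :
    linkFun (stageCtrl σ q s) =
      ∑ k : Fin σ.len, (q k * bump (s - (k + 1))) • linkFun (ctrlDir (σ.letter k)) := by
  ext i j
  simp [linkFun, stageCtrl, Matrix.sum_apply, Finset.sum_apply]

theorem stageTheta_le_one (σ : StagePlan) (s : ℝ) : stageTheta σ s ≤ 1 := by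
  unfold stageTheta
  rcases le_or_gt (2 * (s - (σ.len + σ.wait + 1)) - 1 / 2) 0 with h | h
  · rw [smoothTransition.zero_of_nonpos h]
    linarith [smoothTransition.nonneg (2 * s - 1 / 2)]
  · have h1 : (0 : ℝ) ≤ (σ.len : ℝ) + σ.wait := by positivity
    rw [smoothTransition.one_of_one_le (show 1 ≤ 2 * s - 1 / 2 by linarith)]
    linarith [smoothTransition.le_one (2 * (s - (σ.len + σ.wait + 1)) - 1 / 2)]

/-- A uniform bound on a stage and its derivatives. -/
theorem exists_stage_bound (N : ℕ) {box : ℝ} (hbox : 0 ≤ box) :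
    ∃ B ≥ (1 : ℝ), ∀ (σ : StagePlan) (q : ℕ → ℝ), σ.len ≤ N → (∀ k, |q k| ≤ box) →
      ∀ (ε : ℝ) (P : ℝ → ℝ) (start : ℝ), 0 ≤ ε → ε ≤ 1 → ContDiff ℝ ∞ P →
        ContDiff ℝ ∞ (stagePar σ ε P q start) ∧ ∀ t,
          ‖(stagePar σ ε P q start t).2.2.2‖ ≤ B * ε ∧
          ‖deriv (stagePar σ ε P q start) t‖ ≤ max |deriv P t| (B * ε) ∧
          ‖deriv (deriv (stagePar σ ε P q start)) t‖ ≤ max |deriv (deriv P) t| (B * ε) := by
  obtain ⟨B₀, hB₀, hsT⟩ := exists_transition_bound
  have hbs : ContDiff ℝ ∞ bump := Sched.contDiff_bump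
  have hbd : ∀ x, |bump x| ≤ 2 * B₀ ∧ |deriv bump x| ≤ 4 * B₀ := by
    have e : bump = fun x => 2 * deriv smoothTransition (2 * x - 1 / 2) := by
      funext x
      refine HasDerivAt.deriv ?_
      refine ((smoothTransition_hasDerivAt (2 * x - 1 / 2)).comp x
        (((hasDerivAt_id x).const_mul 2).sub_const (1 / 2))).congr_deriv ?_
      ring
    intro x
    constructor
    · rw [e, abs_mul, abs_two]; linarith [(hsT (2 * x - 1 / 2)).1]
    · rw [e]
      have h : HasDerivAt (fun x => 2 * deriv smoothTransition (2 * x - 1 / 2))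
          (2 * (deriv (deriv smoothTransition) (2 * x - 1 / 2) * 2)) x := by
        refine (((smoothTransition_deriv_hasDerivAt (2 * x - 1 / 2)).comp x
          (((hasDerivAt_id x).const_mul 2).sub_const (1 / 2))).const_mul 2).congr_deriv ?_
        ring
      rw [h.deriv, abs_mul, abs_mul, abs_two]
      linarith [(hsT (2 * x - 1 / 2)).2]
  obtain ⟨B₁, hB₁⟩ : ∃ B₁, ∀ x, |deriv (deriv bump) x| ≤ B₁ := by
    have hc : HasCompactSupport bump := HasCompactSupport.of_support_subset_isCompact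
      (isCompact_Icc (a := (1 / 4 : ℝ)) (b := 3 / 4)) fun x hx => by
        by_contra h
        rw [Set.mem_Icc, not_and_or, not_le, not_le] at h
        exact hx (Sched.bump_eq_zero h)
    obtain ⟨C, hC⟩ := hc.deriv.deriv.exists_bound_of_continuous
      ((contDiff_infty_iff_deriv.1 (contDiff_infty_iff_deriv.1 hbs).2).2.continuous)
    exact ⟨C, fun x => by simpa using hC x⟩
  refine ⟨16 * B₀ + N * box * (4 * B₀ + |B₁|),
    (by have : (0 : ℝ) ≤ (N : ℝ) * box * (4 * B₀ + |B₁|) := by positivity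
        linarith), ?_⟩
  intro σ q hlen hq ε P start hε0 hε1 hP
  set B := 16 * B₀ + N * box * (4 * B₀ + |B₁|)
  -- a sum of letters with scalar weights
  have hsum : ∀ (f : ℝ → ℝ) (c : ℝ), (∀ x, |f x| ≤ c) → c ≤ 4 * B₀ + |B₁| → ∀ x : ℝ,
      ‖∑ k : Fin σ.len, (q k * f (x - (k + 1))) • linkFun (ctrlDir (σ.letter k))‖ ≤ B := by
    intro f c hf hc x
    have hc0 : 0 ≤ c := (abs_nonneg _).trans (hf 0)
    refine (norm_sum_le _ _).trans ((Finset.sum_le_sum fun (k : Fin σ.len) _ => show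
      ‖(q k * f (x - (k + 1))) • linkFun (ctrlDir (σ.letter k))‖ ≤ box * c from ?_).trans ?_)
    · rw [norm_smul, Real.norm_eq_abs, abs_mul]
      calc |q k| * |f (x - (k + 1))| * ‖linkFun (ctrlDir (σ.letter k))‖ ≤ box * c * 1 := by
            gcongr
            · exact hq k
            · exact hf _
            · exact ctrl_norm σ k
        _ = box * c := mul_one _
    · simp only [Finset.sum_const, Finset.card_univ, Fintype.card_fin, nsmul_eq_mul]
      calc (σ.len : ℝ) * (box * c) ≤ N * (box * (4 * B₀ + |B₁|)) := by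
            gcongr
        _ ≤ B := by simp only [B]; nlinarith
  set T : ℝ → Fin 6 → Fin 6 → ℝ := fun x =>
    ∑ k : Fin σ.len, (q k * bump (x - (k + 1))) • linkFun (ctrlDir (σ.letter k))
  set T₁ : ℝ → Fin 6 → Fin 6 → ℝ := fun x =>
    ∑ k : Fin σ.len, (q k * deriv bump (x - (k + 1))) • linkFun (ctrlDir (σ.letter k))
  set T₂ : ℝ → Fin 6 → Fin 6 → ℝ := fun x =>
    ∑ k : Fin σ.len, (q k * deriv (deriv bump) (x - (k + 1))) • linkFun (ctrlDir (σ.letter k))
  have hT : ∀ (f : ℝ → ℝ) (_ : Differentiable ℝ f) (x : ℝ),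
      HasDerivAt (fun y => ∑ k : Fin σ.len, (q k * f (y - (k + 1))) •
        linkFun (ctrlDir (σ.letter k)))
        (∑ k : Fin σ.len, (q k * deriv f (x - (k + 1))) • linkFun (ctrlDir (σ.letter k))) x :=
    fun f hf x => HasDerivAt.fun_sum fun k _ =>
      (((hf _).hasDerivAt.comp x ((hasDerivAt_id x).sub_const _)).const_mul (q k) |>.congr_deriv
        (by simp)).smul_const _
  -- the position
  set θ₁ : ℝ → ℝ := fun x => -(2 * deriv smoothTransition (2 * x - 1 / 2)) +
    2 * deriv smoothTransition (2 * (x - (σ.len + σ.wait + 1)) - 1 / 2)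
  set θ₂ : ℝ → ℝ := fun x => -(4 * deriv (deriv smoothTransition) (2 * x - 1 / 2)) +
    4 * deriv (deriv smoothTransition) (2 * (x - (σ.len + σ.wait + 1)) - 1 / 2)
  have hθ : ∀ x, HasDerivAt (stageTheta σ) (θ₁ x) x := by
    intro x
    have h1 := (smoothTransition_hasDerivAt (2 * x - 1 / 2)).comp x
      (((hasDerivAt_id x).const_mul 2).sub_const (1 / 2))
    have h2 := (smoothTransition_hasDerivAt (2 * (x - (σ.len + σ.wait + 1)) - 1 / 2)).comp x
      ((((hasDerivAt_id x).sub_const ((σ.len : ℝ) + σ.wait + 1)).const_mul 2).sub_const (1 / 2))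
    refine ((h1.const_sub 1).add h2).congr_deriv ?_
    simp only [θ₁]
    ring
  have hθ' : ∀ x, HasDerivAt θ₁ (θ₂ x) x := by
    intro x
    have h1 := (smoothTransition_deriv_hasDerivAt (2 * x - 1 / 2)).comp x
      (((hasDerivAt_id x).const_mul 2).sub_const (1 / 2))
    have h2 := (smoothTransition_deriv_hasDerivAt (2 * (x - (σ.len + σ.wait + 1)) - 1 / 2)).comp x
      ((((hasDerivAt_id x).sub_const ((σ.len : ℝ) + σ.wait + 1)).const_mul 2).sub_const (1 / 2))
    refine ((h1.const_mul 2).neg.add (h2.const_mul 2)).congr_deriv ?_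
    simp only [θ₂]
    ring
  have hu : stagePar σ ε P q start = fun t => ((P t, (0 : ℝ), stageTheta σ (ε * (t - start)),
      ε • T (ε * (t - start))) : LinkPar) := by
    funext t; simp only [stagePar, linkFun_stageCtrl, T]
  have hl : ∀ t, HasDerivAt (fun t => ε * (t - start)) ε t := fun t => by
    simpa using ((hasDerivAt_id t).sub_const start).const_mul ε
  have hd : deriv (stagePar σ ε P q start) = fun t => ((deriv P t, (0 : ℝ),
      θ₁ (ε * (t - start)) * ε, ε • ε • T₁ (ε * (t - start))) : LinkPar) := by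
    funext t
    rw [hu]
    exact ((hP.differentiable (by simp) t).hasDerivAt.prodMk ((hasDerivAt_const t (0 : ℝ)).prodMk
      (((hθ _).comp t (hl t)).prodMk
        (((hT bump (hbs.differentiable (by simp)) _).scomp t (hl t)).const_smul ε)))).deriv
  refine ⟨?_, fun t => ?_⟩
  · rw [hu]
    have hl' : ContDiff ℝ ∞ fun t : ℝ => ε * (t - start) :=
      contDiff_const.mul (contDiff_id.sub contDiff_const)
    refine hP.prodMk (contDiff_const.prodMk (((Sched.contDiff_stageTheta σ).comp hl').prodMk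
      (ContDiff.const_smul ε ?_)))
    exact ContDiff.sum fun k _ =>
      (contDiff_const.mul (hbs.comp (hl'.sub contDiff_const))).smul contDiff_const
  have hdd : deriv (deriv (stagePar σ ε P q start)) t = ((deriv (deriv P) t, (0 : ℝ),
      θ₂ (ε * (t - start)) * ε * ε, ε • ε • ε • T₂ (ε * (t - start))) : LinkPar) := by
    rw [hd]
    exact ((((contDiff_infty_iff_deriv.1 hP).2.differentiable (by simp) t).hasDerivAt).prodMk
      ((hasDerivAt_const t (0 : ℝ)).prodMk ((((hθ' _).comp t (hl t)).mul_const ε).prodMk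
        ((((hT (deriv bump) ((contDiff_infty_iff_deriv.1 hbs).2.differentiable (by simp)) _).scomp t
          (hl t)).const_smul ε).const_smul ε)))).deriv
  have bT := hsum bump (2 * B₀) (fun x => (hbd x).1) (by linarith [abs_nonneg B₁]) (ε * (t - start))
  have bT₁ := hsum (deriv bump) (4 * B₀) (fun x => (hbd x).2) (by linarith [abs_nonneg B₁])
    (ε * (t - start))
  have bT₂ := hsum (deriv (deriv bump)) |B₁| (fun x => (hB₁ x).trans (le_abs_self _))
    (by linarith) (ε * (t - start))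
  have hBB : 16 * B₀ ≤ B := le_add_of_nonneg_right (by positivity)
  have bθ₁ : |θ₁ (ε * (t - start))| ≤ B := by
    have h1 := hsT (2 * (ε * (t - start)) - 1 / 2)
    have h2 := hsT (2 * (ε * (t - start) - (σ.len + σ.wait + 1)) - 1 / 2)
    simp only [θ₁]
    rw [abs_le]
    constructor <;> linarith [abs_le.1 h1.1, abs_le.1 h2.1]
  have bθ₂ : |θ₂ (ε * (t - start))| ≤ B := by
    have h1 := hsT (2 * (ε * (t - start)) - 1 / 2)
    have h2 := hsT (2 * (ε * (t - start) - (σ.len + σ.wait + 1)) - 1 / 2)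
    simp only [θ₂]
    rw [abs_le]
    constructor <;> linarith [abs_le.1 h1.2, abs_le.1 h2.2]
  have hB0 : 0 ≤ B := le_trans (by linarith) hBB
  have hεε : ε * ε ≤ ε := mul_le_of_le_one_left hε0 hε1
  refine ⟨?_, ?_, ?_⟩
  · simp only [stagePar, linkFun_stageCtrl, norm_smul, Real.norm_eq_abs, abs_of_nonneg hε0]
    rw [mul_comm B]
    exact mul_le_mul_of_nonneg_left bT hε0
  · simp only [hd, Prod.norm_def, Real.norm_eq_abs, norm_smul, abs_zero, abs_mul,
      abs_of_nonneg hε0]
    refine max_le (le_max_left _ _) (max_le ?_ (max_le ?_ ?_)) <;>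
      refine le_trans ?_ (le_max_right _ _)
    · positivity
    · exact mul_le_mul_of_nonneg_right bθ₁ hε0
    · calc ε * (ε * ‖T₁ (ε * (t - start))‖) ≤ ε * (1 * B) := by gcongr
        _ = B * ε := by ring
  · simp only [hdd, Prod.norm_def, Real.norm_eq_abs, norm_smul, abs_zero, abs_mul,
      abs_of_nonneg hε0]
    refine max_le (le_max_left _ _) (max_le ?_ (max_le ?_ ?_)) <;>
      refine le_trans ?_ (le_max_right _ _)
    · positivity
    · calc |θ₂ (ε * (t - start))| * ε * ε ≤ B * ε * 1 := by gcongr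
        _ = B * ε := mul_one _
    · calc ε * (ε * (ε * ‖T₂ (ε * (t - start))‖)) ≤ ε * (1 * (1 * B)) := by gcongr
        _ = B * ε := by ring

/-- A move of size `B / x^m` is slow for times up to `C x^n`. -/
theorem eventually_rate {m n : ℕ} (hmn : 6 * n < 10 * m) (B : ℝ) {C c : ℝ} (hC : 0 ≤ C)
    (hc : 0 < c) :
    ∀ᶠ x : ℝ in atTop, ∀ t, 0 ≤ t → t ≤ C * x ^ n →
      (B / x ^ m) ^ 2 ≤ c * (1 + t) ^ (-(6 / 5) : ℝ) := by
  set e : ℝ := 2 * m - 6 / 5 * n
  have he : 0 < e := by
    have : (6 * n : ℝ) < 10 * m := by exact_mod_cast hmn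
    simp only [e]; linarith
  have h := ((tendsto_rpow_neg_atTop he).const_mul (B ^ 2 * (1 + C) ^ (6 / 5 : ℝ))).eventually
    (Iio_mem_nhds (show B ^ 2 * (1 + C) ^ (6 / 5 : ℝ) * 0 < c by simpa using hc))
  filter_upwards [h, eventually_ge_atTop 1] with x hx h1 t ht0 ht
  have hx0 : 0 < x := by linarith
  have h1t : 0 < 1 + t := by linarith
  rw [Real.rpow_neg h1t.le, ← div_eq_mul_inv, le_div_iff₀ (Real.rpow_pos_of_pos h1t _)]
  have hxn : 1 ≤ x ^ n := one_le_pow₀ h1
  have hb : (1 + t) ^ (6 / 5 : ℝ) ≤ (1 + C) ^ (6 / 5 : ℝ) * (x ^ n) ^ (6 / 5 : ℝ) := by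
    rw [← Real.mul_rpow (by linarith) (by positivity)]
    refine Real.rpow_le_rpow h1t.le ?_ (by norm_num)
    linarith
  calc (B / x ^ m) ^ 2 * (1 + t) ^ (6 / 5 : ℝ) ≤
      (B / x ^ m) ^ 2 * ((1 + C) ^ (6 / 5 : ℝ) * (x ^ n) ^ (6 / 5 : ℝ)) :=
        mul_le_mul_of_nonneg_left hb (sq_nonneg _)
    _ = B ^ 2 * (1 + C) ^ (6 / 5 : ℝ) * x ^ (-e) := by
        have e1 : (x ^ n) ^ (6 / 5 : ℝ) = x ^ ((n : ℝ) * (6 / 5)) := by
          rw [← Real.rpow_natCast, ← Real.rpow_mul hx0.le]
        have e2 : x ^ ((n : ℝ) * (6 / 5)) = x ^ (-e) * (x ^ m) ^ 2 := by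
          rw [← pow_mul, ← Real.rpow_natCast x (m * 2), ← Real.rpow_add hx0]
          congr 1
          simp only [e]; push_cast; ring
        rw [e1, e2]
        field_simp
    _ ≤ c := hx.le

/-- The end of a cluster in terms of its index, uniformly in the first cluster. -/
theorem clusterEnd_le {d : PathData} {D : ℝ} (hD : ∀ j, planDur (d.plan j) ≤ D) (hj : 1 ≤ d.j₀)
    (i : ℕ) :
    stageStart d i (d.plan (d.j₀ + i)).length ≤ (2 * D + 3) * ((d.j₀ + i : ℕ) : ℝ) ^ 6 := by
  have hD0 : 0 ≤ D := (Sched.planDur_nonneg _).trans (hD 0)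
  have hbound : ∀ i, clusterStart d i ≤ (D + 1) * ((d.j₀ + i : ℕ) : ℝ) ^ 6 := by
    intro i
    induction i with
    | zero =>
      simp only [clusterStart, Nat.add_zero]
      exact le_mul_of_one_le_left (by positivity) (by linarith)
    | succ i ih =>
      simp only [clusterStart]
      have hx : (1 : ℝ) ≤ ((d.j₀ + i : ℕ) : ℝ) := by exact_mod_cast (by omega : 1 ≤ d.j₀ + i)
      rw [show ((d.j₀ + (i + 1) : ℕ) : ℝ) = ((d.j₀ + i : ℕ) : ℝ) + 1 by push_cast; ring,
        speed, div_inv_eq_mul]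
      generalize ((d.j₀ + i : ℕ) : ℝ) = x at hx ih ⊢
      have h1 : planDur (d.plan (d.j₀ + i)) * x ^ 4 ≤ D * x ^ 5 :=
        mul_le_mul (hD _) (pow_le_pow_right₀ hx (by norm_num)) (by positivity) hD0
      have h2 : x ^ 6 + 6 * x ^ 5 ≤ (x + 1) ^ 6 := by
        have : 0 ≤ 15 * x ^ 4 + 20 * x ^ 3 + 15 * x ^ 2 + 6 * x + 1 := by positivity
        linarith [show (x + 1) ^ 6 =
          x ^ 6 + 6 * x ^ 5 + (15 * x ^ 4 + 20 * x ^ 3 + 15 * x ^ 2 + 6 * x + 1) by ring]
      have h3 := mul_le_mul_of_nonneg_left h2 (show (0 : ℝ) ≤ D + 1 by linarith)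
      have h4 : 0 ≤ (D + 1) * x ^ 5 := by positivity
      linarith
  have hx : (1 : ℝ) ≤ ((d.j₀ + i : ℕ) : ℝ) := by exact_mod_cast (by omega : 1 ≤ d.j₀ + i)
  have h1 := hbound i
  simp only [stageStart, List.take_length, speed, div_inv_eq_mul]
  have h2 : planDur (d.plan (d.j₀ + i)) * ((d.j₀ + i : ℕ) : ℝ) ^ 4 ≤
      D * ((d.j₀ + i : ℕ) : ℝ) ^ 6 :=
    mul_le_mul (hD _) (pow_le_pow_right₀ hx (by norm_num)) (by positivity) hD0
  have h3 : 0 ≤ 2 * ((d.j₀ + i : ℕ) : ℝ) ^ 6 := by positivity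
  linarith

/-- An interval of time gives a local model. -/
theorem localModel_mk {g : MetricField} {v : Pt} (hv : v ∈ chartV) {U : Set ℝ} (hU : IsOpen U)
    (hvU : log (rad v) ∈ U) {G : Fin 3} {h : ℝ → Matrix (Fin 6) (Fin 6) ℝ}
    (hs : ∀ i j, ContDiff ℝ ∞ fun t => h t i j) (hp : ∀ t, (h t).PosDef)
    (heq : ∀ x ∈ chartV, 0 < rad x → log (rad x) ∈ U → g x = gaugeMetric G (warp h) x)
    (hric : ∀ W, IsWarped W g (gaugeFrame G) rad (warp h) linkC chartC → v ∈ W →
      ∀ w : Fin 7 → ℝ, 0 ≤ ∑ a, ∑ b, frameRicci g (gaugeFrame G) chartC a b v * w a * w b) :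
    LocalModel g v := by
  set W := {x | x ∈ chartV ∧ log (rad x) ∈ U}
  have hrad : ∀ x ∈ chartV, 0 < rad x := fun x hx => Chart.qlen_pos hx.2
  have hWo : IsOpen W :=
    ((continuousOn_rad.mono fun x hx => hx.1).log fun x hx => (hrad x hx).ne').isOpen_inter_preimage
      Chart.isOpen_chartV hU
  have heq' : ∀ x ∈ W, g x = gaugeMetric G (warp h) x := fun x hx => heq x hx.1 (hrad x hx.1) hx.2
  have hW : IsWarped W (gaugeMetric G (warp h)) (gaugeFrame G) rad (warp h) linkC chartC := by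
    refine gaugeMetric_isWarped G hWo (fun x hx => hx.1) (fun x hx i j => ?_) (fun s => ?_)
      fun x hx => (hp _).smul (pow_pos (hrad x hx.1) 2)
    · simp only [warp, Matrix.smul_apply, smul_eq_mul]
      exact (contDiffAt_id.pow 2).mul ((hs i j).contDiffAt.comp _
        (Real.contDiffAt_log.2 (hrad x hx.1).ne'))
    · exact (show (h (log s)).IsSymm from by simpa using (hp (log s)).1).smul _
  have hF : ∀ x ∈ W, frameComp g (gaugeFrame G) x =
      frameComp (gaugeMetric G (warp h)) (gaugeFrame G) x := fun x hx => by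
    ext a b; simp only [frameComp, heq' x hx]
  have hW' : IsWarped W g (gaugeFrame G) rad (warp h) linkC chartC :=
    { hW with
      smoothG := fun i j => (hW.smoothG i j).congr fun x hx => by rw [heq' x hx]
      posDef := fun x hx => by rw [heq' x hx]; exact hW.posDef x hx
      comp00 := fun x hx => by rw [hF x hx]; exact hW.comp00 x hx
      comp0 := fun x hx i => by rw [hF x hx]; exact hW.comp0 x hx i
      comp := fun x hx i j => by rw [hF x hx]; exact hW.comp x hx i j }
  exact ⟨W, G, warp h, ⟨hv, hvU⟩, hW', heq', hric W hW' ⟨hv, hvU⟩⟩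

end Vale.Agent.P225.PathMetric
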