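import Vale.Agent.P225.Path.Metric.Schedule

/-!
P225, module B: near the ends of a stage and outside the stages the link is at an Ad-invariant
point.
-/

noncomputable section

namespace Vale.Agent.P225.Sched

open Matrix Real
open scoped ContDiff

variable {d : PathData}

lemma pathGauge_of_inStage (hj : 1 ≤ d.j₀) {t : ℝ} {i l : ℕ} (h : InStage d t (i, l)) :
    pathGauge d t = ((d.plan (d.j₀ + i))[l]'h.1).gauge := by
  have key : ∀ (il : ℕ × ℕ) (h' : InStage d t il),
      ((d.plan (d.j₀ + il.1))[il.2]'h'.1).gauge = ((d.plan (d.j₀ + i))[l]'h.1).gauge := by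
    intro il h'
    obtain rfl := inStage_unique hj h' h
    rfl
  unfold pathGauge
  have hex : ∃ il, InStage d t il := ⟨_, h⟩
  rw [dif_pos hex]
  exact key hex.choose hex.choose_spec

lemma pathQ_of_inStage (hj : 1 ≤ d.j₀) {t : ℝ} {i l : ℕ} (h : InStage d t (i, l)) (p : Param) :
    pathQ d p t = stageQ ((d.plan (d.j₀ + i))[l]'h.1) (speed (d.j₀ + i)) (d.scale t) (p i l)
      (speed (d.j₀ + i) * (t - stageStart d i l)) := by
  have key : ∀ (il : ℕ × ℕ) (h' : InStage d t il),
      stageQ ((d.plan (d.j₀ + il.1))[il.2]'h'.1) (speed (d.j₀ + il.1)) (d.scale t) (p il.1 il.2)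
        (speed (d.j₀ + il.1) * (t - stageStart d il.1 il.2)) =
      stageQ ((d.plan (d.j₀ + i))[l]'h.1) (speed (d.j₀ + i)) (d.scale t) (p i l)
        (speed (d.j₀ + i) * (t - stageStart d i l)) := by
    intro il h'
    obtain rfl := inStage_unique hj h' h
    rfl
  unfold pathQ
  have hex : ∃ il, InStage d t il := ⟨_, h⟩
  rw [dif_pos hex]
  exact key hex.choose hex.choose_spec

lemma bump_eq_zero {s : ℝ} (h : s < 1 / 4 ∨ 3 / 4 < s) : bump s = 0 := by
  unfold bump
  rcases h with h | h
  · have : (fun x : ℝ => smoothTransition (2 * x - 1 / 2)) =ᶠ[nhds s] fun _ => 0 := by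
      filter_upwards [Iio_mem_nhds h] with x hx
      exact smoothTransition.zero_of_nonpos (by simp only [Set.mem_Iio] at hx; linarith)
    rw [this.deriv_eq, deriv_const]
  · have : (fun x : ℝ => smoothTransition (2 * x - 1 / 2)) =ᶠ[nhds s] fun _ => 1 := by
      filter_upwards [Ioi_mem_nhds h] with x hx
      exact smoothTransition.one_of_one_le (by simp only [Set.mem_Ioi] at hx; linarith)
    rw [this.deriv_eq, deriv_const]

lemma adQ_isSymm (G : Fin 3) (P : Fin 3 → ℝ) : (SU2.adQ G P).IsSymm :=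
  Matrix.IsSymm.ext fun a b => by
    simp only [SU2.adQ, eq_comm (a := b.2), eq_comm (a := b.1)]
    split_ifs with h1 h2 <;> first | rfl | simp_all

lemma stageCtrl_isSymm (σ : StagePlan) (p : ℕ → ℝ) (s : ℝ) : (stageCtrl σ p s).IsSymm :=
  Matrix.IsSymm.ext fun a b => by
    simp only [stageCtrl, Matrix.sum_apply, Matrix.smul_apply, ctrlDir]
    exact Finset.sum_congr rfl fun k _ => by simp only [or_comm]

lemma stageQ_isSymm (σ : StagePlan) (ε P : ℝ) (p : ℕ → ℝ) (s : ℝ) : (stageQ σ ε P p s).IsSymm :=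
  ((adQ_isSymm _ _).add ((stageCtrl_isSymm σ p s).smul _)).smul _

/-- An Ad-invariant inverse Gram matrix is positive. -/
lemma adQ_posDef {G : Fin 3} {P : Fin 3 → ℝ} (h0 : 0 ≤ P G) (h1 : 0 < P (G + 1))
    (h2 : 0 < P (G + 2)) : (SU2.adQ G P).PosDef := by
  refine Matrix.PosDef.of_dotProduct_mulVec_pos ?_ fun w hw => ?_
  · rw [Matrix.IsHermitian, Matrix.conjTranspose_eq_transpose_of_trivial, adQ_isSymm G P]
  · have e : star w ⬝ᵥ SU2.adQ G P *ᵥ w = ∑ k : Fin 3, (P (G + 1) * w (false, k) ^ 2 +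
        P (G + 2) * w (true, k) ^ 2 + P G * (w (false, k) + w (true, k)) ^ 2) := by
      simp [dotProduct, Matrix.mulVec, Fintype.sum_prod_type, SU2.adQ, Fin.sum_univ_three]
      ring
    rw [e]
    obtain ⟨⟨b, k⟩, hi⟩ := Function.ne_iff.1 hw
    refine Finset.sum_pos' (fun a _ => by positivity) ⟨k, Finset.mem_univ _, ?_⟩
    have := mul_nonneg h0 (sq_nonneg (w (false, k) + w (true, k)))
    have := mul_nonneg h1.le (sq_nonneg (w (false, k)))
    have := mul_nonneg h2.le (sq_nonneg (w (true, k)))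
    cases b
    · have := mul_pos h1 (sq_pos_of_ne_zero hi)
      simp only [Pi.zero_apply] at this hi
      linarith
    · have := mul_pos h2 (sq_pos_of_ne_zero hi)
      simp only [Pi.zero_apply] at this hi
      linarith

lemma linePar_one (P : ℝ) (G : Fin 3) : linePar P 1 G = fun _ => P := by
  funext k
  have : Real.sqrt 3 ≠ 0 := (Real.sqrt_pos.2 (by norm_num)).ne'
  simp only [linePar, ite_self, mul_one, show (1 : ℝ) + 2 = 3 by norm_num]
  field_simp

/-- Near both ends of a stage the link is at the normal point. -/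
lemma stageQ_normal (σ : StagePlan) (ε : ℝ) {P : ℝ} (hP : 0 < P) (p : ℕ → ℝ) {s : ℝ}
    (h : s < 1 / 4 ∨ σ.dur - 1 < s) : stageQ σ ε P p s = SU2.adQ σ.gauge fun _ => P := by
  have hw : (0 : ℝ) ≤ (σ.len : ℝ) + σ.wait ∧ (0 : ℝ) ≤ σ.dwell ∧ (0 : ℝ) ≤ σ.wait :=
    ⟨by positivity, by positivity, by positivity⟩
  have hθ : stageTheta σ s = 1 := by
    unfold stageTheta
    rcases h with h | h
    · rw [smoothTransition.zero_of_nonpos (by linarith),
        smoothTransition.zero_of_nonpos (by linarith [hw.1])]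
      ring
    · unfold StagePlan.dur at h
      rw [smoothTransition.one_of_one_le (by linarith [hw.1, hw.2.1]),
        smoothTransition.one_of_one_le (by linarith [hw.2.1])]
      ring
  have hc : stageCtrl σ p s = 0 := by
    refine Finset.sum_eq_zero fun k _ => ?_
    rw [bump_eq_zero, mul_zero, zero_smul]
    have hk : (0 : ℝ) ≤ ((k : ℕ) : ℝ) := Nat.cast_nonneg _
    have hk2 : ((k : ℕ) : ℝ) + 1 ≤ σ.len := by exact_mod_cast k.2
    rcases h with h | h
    · exact Or.inl (by linarith)
    · unfold StagePlan.dur at h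
      exact Or.inr (by linarith [hw.2.1, hw.2.2])
  have hdet := (adQ_posDef (G := σ.gauge) (P := fun _ => P) hP.le hP hP).det_pos
  simp only [stageQ, hθ, hc, linePar_one, smul_zero, add_zero, div_self hdet.ne', Real.one_rpow,
    one_smul]

end Vale.Agent.P225.Sched
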