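import Vale.Agent.P225.Path.Metric.Moves

/-!
P225, module B: the path before the first cluster — cap, product cone, travel to the normal point.
-/

noncomputable section

namespace Vale.Agent.P225.PathMetric

open Matrix Real Filter
open scoped ContDiff Topology

/-- The ratio of the two spheres: constant, then shrinking to zero on `[L, 2L]`. -/
def ratioFn (σ₀ L t : ℝ) : ℝ := σ₀ * (1 - smoothTransition ((t - L) / L))

/-- The position on the line: from the product to the normal point on `[3L, 4L]`. -/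
def travelFn (L t : ℝ) : ℝ := smoothTransition ((t - 3 * L) / L)

/-- The parameters before the first cluster. -/
def preFun (σ₀ L : ℝ) (P ea eb : ℝ → ℝ) (t : ℝ) : Fin 3 → ℝ := fun k =>
  sqrt 3 * P t / sqrt (baseDen (ratioFn σ₀ L t) (travelFn L t)) *
    ![travelFn L t, exp (ratioFn σ₀ L t - 2 * ea t), exp (-ratioFn σ₀ L t - 2 * eb t)] k

/-- The same path as link parameters, valid once the offsets are gone. -/
def prePar (σ₀ L : ℝ) (P : ℝ → ℝ) (t : ℝ) : LinkPar := (P t, ratioFn σ₀ L t, travelFn L t, 0)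

variable {σ₀ L t : ℝ} {P ea eb : ℝ → ℝ}

theorem travelFn_nonneg (L t : ℝ) : 0 ≤ travelFn L t := smoothTransition.nonneg _

theorem ratioFn_mem (σ₀ L t : ℝ) : ratioFn σ₀ L t ∈ Set.uIcc σ₀ 0 := by
  have h0 := smoothTransition.nonneg ((t - L) / L)
  have h1 := smoothTransition.le_one ((t - L) / L)
  rw [Set.mem_uIcc, ratioFn]
  rcases le_total σ₀ 0 with h | h
  · left; constructor <;> nlinarith
  · right; constructor <;> nlinarith

theorem ratioFn_early (hL : 0 < L) (ht : t ≤ L) : ratioFn σ₀ L t = σ₀ := by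
  simp [ratioFn, smoothTransition.zero_of_nonpos (div_nonpos_of_nonpos_of_nonneg
    (show t - L ≤ 0 by linarith) hL.le)]

theorem travelFn_early (hL : 0 < L) (ht : t ≤ 3 * L) : travelFn L t = 0 :=
  smoothTransition.zero_of_nonpos (div_nonpos_of_nonpos_of_nonneg (by linarith) hL.le)

theorem ratioFn_late (hL : 0 < L) (ht : 2 * L ≤ t) : ratioFn σ₀ L t = 0 := by
  simp [ratioFn, smoothTransition.one_of_one_le ((one_le_div hL).2 (show L ≤ t - L by linarith))]

theorem travelFn_late (hL : 0 < L) (ht : 4 * L ≤ t) : travelFn L t = 1 :=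
  smoothTransition.one_of_one_le ((one_le_div hL).2 (by linarith))

theorem preFun_smooth (hP : ContDiff ℝ ∞ P) (ha : ContDiff ℝ ∞ ea) (hb : ContDiff ℝ ∞ eb)
    (σ₀ L : ℝ) (k : Fin 3) : ContDiff ℝ ∞ fun t => preFun σ₀ L P ea eb t k := by
  have hσ : ContDiff ℝ ∞ (ratioFn σ₀ L) := contDiff_const.mul (contDiff_const.sub
    (smoothTransition_smooth.comp ((contDiff_id.sub contDiff_const).div_const L)))
  have hθ : ContDiff ℝ ∞ (travelFn L) :=
    smoothTransition_smooth.comp ((contDiff_id.sub contDiff_const).div_const L)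
  have hD : ContDiff ℝ ∞ fun t => baseDen (ratioFn σ₀ L t) (travelFn L t) :=
    ((hθ.mul hσ.exp).add (hθ.mul hσ.neg.exp)).add contDiff_const
  have hDp : ∀ t, 0 < baseDen (ratioFn σ₀ L t) (travelFn L t) := fun t =>
    baseDen_pos (travelFn_nonneg L t)
  refine ((contDiff_const.mul hP).div (hD.sqrt fun t => (hDp t).ne')
    fun t => (Real.sqrt_pos.2 (hDp t)).ne').mul ?_
  fin_cases k
  · exact hθ
  · exact (hσ.sub (contDiff_const.mul ha)).exp
  · exact (hσ.neg.sub (contDiff_const.mul hb)).exp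

theorem preFun_nonneg (hP : 0 < P t) (k : Fin 3) : 0 ≤ preFun σ₀ L P ea eb t k := by
  have h1 : 0 ≤ sqrt 3 * P t / sqrt (baseDen (ratioFn σ₀ L t) (travelFn L t)) := by positivity
  refine mul_nonneg h1 ?_
  fin_cases k
  · exact travelFn_nonneg L t
  · exact (exp_pos _).le
  · exact (exp_pos _).le

theorem preFun_pos (hP : 0 < P t) :
    0 < preFun σ₀ L P ea eb t 1 ∧ 0 < preFun σ₀ L P ea eb t 2 := by
  have hD := Real.sqrt_pos.2 (baseDen_pos (σ := ratioFn σ₀ L t) (travelFn_nonneg L t))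
  constructor <;> simp [preFun] <;> positivity

theorem preFun_end (hL : 0 < L) (ht : 4 * L ≤ t) (ha : ea t = 0) (hb : eb t = 0) (k : Fin 3) :
    preFun σ₀ L P ea eb t k = P t := by
  have h3 : sqrt 3 ≠ 0 := (Real.sqrt_pos.2 (by norm_num)).ne'
  simp only [preFun, ratioFn_late hL (show 2 * L ≤ t by linarith), travelFn_late hL ht, ha, hb,
    baseDen, neg_zero, mul_zero, sub_zero, exp_zero]
  fin_cases k <;> norm_num <;> field_simp

theorem toLink_preFun (hP : 0 < P t) (ha : ea t = 0) (hb : eb t = 0) :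
    (toLink (SU2.adQ 0 (preFun σ₀ L P ea eb t)))⁻¹ = linkH (prePar σ₀ L P t) := by
  rw [prePar, linkH_zero hP (baseDen_pos (travelFn_nonneg L t)), Sched.toLink_adQ]
  congr 2
  ext i j
  fin_cases i <;> fin_cases j <;> simp [triQ, preFun, baseQ, ha, hb] <;> ring

theorem toLink_preFun_product {α β : ℝ} (hα : 0 < α) (hβ : 0 < β) (hP : 0 < P t) (hL : 0 < L)
    (ht : t ≤ L) :
    (toLink (SU2.adQ 0 (preFun (log (β / α)) L P ea eb t)))⁻¹ =
      prodPath (prodLog α (coneScale α β) P ea) (prodLog β (coneScale α β) P eb) t := by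
  have hc : 0 < coneScale α β := by unfold coneScale; positivity
  rw [Sched.toLink_adQ]
  have e : triQ (preFun (log (β / α)) L P ea eb t) 0 =
      !![sqrt 3 * P t * exp (log (β / α) - 2 * ea t), 0;
        0, sqrt 3 * P t * exp (-log (β / α) - 2 * eb t)] := by
    ext i j
    fin_cases i <;> fin_cases j <;>
      simp [triQ, preFun, travelFn_early hL (show t ≤ 3 * L by linarith), ratioFn_early hL ht, baseDen]
  rw [e, ← prodDiag_eq, prodDiag_inv (by positivity) (by positivity), prodPath]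
  have hexp : ∀ (γ : ℝ) (f : ℝ → ℝ), 0 < γ → exp (2 * prodLog γ (coneScale α β) P f t) =
      γ ^ 2 * exp (2 * f t) * (coneScale α β / P t) := by
    intro γ f hγ
    rw [show 2 * prodLog γ (coneScale α β) P f t =
      (log γ + log γ) + 2 * f t + -log (P t / coneScale α β) by simp only [prodLog]; ring,
      exp_add, exp_add, exp_add, exp_log hγ, exp_neg, exp_log (div_pos hP hc), inv_div]
    ring
  congr 1 <;> rw [hexp _ _ (by assumption)]
  · rw [exp_sub, exp_log (div_pos hβ hα), coneScale]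
    field_simp
  · rw [exp_sub, exp_neg, exp_log (div_pos hβ hα), coneScale]
    field_simp

theorem preFun_core {α β b₀ : ℝ} (hα : 0 < α) (hβ : 0 < β) (hb₀ : 0 < b₀) (hL : 0 < L)
    (ht : t ≤ L) (hP : P t = coneScale α β) (ha : ea t = -log α)
    (hb : eb t = log b₀ - t - log β) :
    preFun (log (β / α)) L P ea eb t = ![0, 4, 4 * exp (2 * t) / b₀ ^ 2] := by
  funext k
  simp only [preFun, travelFn_early hL (show t ≤ 3 * L by linarith), ratioFn_early hL ht, baseDen,
    hP, ha, hb, zero_mul, zero_add, Real.sqrt_one, div_one]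
  fin_cases k
  · simp
  · simp
    rw [show log (β / α) + 2 * log α = log (β / α) + (log α + log α) by ring, exp_add, exp_add,
      exp_log hα, exp_log (div_pos hβ hα), coneScale]
    field_simp
  · simp
    rw [show -log (β / α) - 2 * (log b₀ - t - log β) =
      -log (β / α) + 2 * t + ((log β + log β) - (log b₀ + log b₀)) by ring, exp_add, exp_add,
      exp_sub, exp_add, exp_add, exp_neg, exp_log (div_pos hβ hα), exp_log hβ, exp_log hb₀,
      coneScale]
    field_simp

/-- The velocity of the path before the first cluster. -/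
theorem exists_pre_bound (σ₀ : ℝ) :
    ∃ B ≥ (0 : ℝ), ∀ (L : ℝ) (P : ℝ → ℝ), 1 ≤ L → ContDiff ℝ ∞ P →
      ContDiff ℝ ∞ (prePar σ₀ L P) ∧ ∀ t,
        ‖deriv (prePar σ₀ L P) t‖ ≤ max |deriv P t| (B / L) ∧
        ‖deriv (deriv (prePar σ₀ L P)) t‖ ≤ max |deriv (deriv P) t| (B / L) ∧
        (5 * L < t → ‖deriv (prePar σ₀ L P) t‖ ≤ |deriv P t|) := by
  obtain ⟨B₀, hB₀, hsT⟩ := exists_transition_bound
  refine ⟨(|σ₀| + 1) * B₀, by positivity, fun L P hL hP => ?_⟩
  have hL0 : 0 < L := by linarith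
  set c : ℝ → ℝ → ℝ := fun k t => (t - k * L) / L
  have hc : ∀ k t, HasDerivAt (c k) L⁻¹ t := fun k t =>
    (((hasDerivAt_id t).sub_const (k * L)).div_const L).congr_deriv (one_div L)
  set σ₁ : ℝ → ℝ := fun t => -(σ₀ * (deriv smoothTransition (c 1 t) * L⁻¹))
  set σ₂ : ℝ → ℝ := fun t => -(σ₀ * (deriv (deriv smoothTransition) (c 1 t) * L⁻¹ * L⁻¹))
  set θ₁ : ℝ → ℝ := fun t => deriv smoothTransition (c 3 t) * L⁻¹
  set θ₂ : ℝ → ℝ := fun t => deriv (deriv smoothTransition) (c 3 t) * L⁻¹ * L⁻¹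
  have hu : prePar σ₀ L P = fun t => ((P t, σ₀ * (1 - smoothTransition (c 1 t)),
      smoothTransition (c 3 t), 0) : LinkPar) := by
    funext t; simp [prePar, ratioFn, travelFn, c]
  have hd : deriv (prePar σ₀ L P) = fun t => ((deriv P t, σ₁ t, θ₁ t, 0) : LinkPar) := by
    funext t
    rw [hu]
    exact ((hP.differentiable (by simp) t).hasDerivAt.prodMk
      (((((smoothTransition_hasDerivAt (c 1 t)).comp t (hc 1 t)).const_sub 1).const_mul σ₀
        |>.congr_deriv (by simp only [σ₁]; ring)).prodMk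
      (((smoothTransition_hasDerivAt (c 3 t)).comp t (hc 3 t)).prodMk
        (hasDerivAt_const t (0 : Fin 6 → Fin 6 → ℝ))))).deriv
  refine ⟨?_, fun t => ?_⟩
  · have hcd : ∀ k, ContDiff ℝ ∞ (c k) := fun k =>
      (contDiff_id.sub contDiff_const).div_const L
    rw [hu]
    exact hP.prodMk ((contDiff_const.mul (contDiff_const.sub
      (smoothTransition_smooth.comp (hcd 1)))).prodMk
      ((smoothTransition_smooth.comp (hcd 3)).prodMk contDiff_const))
  have hdd : deriv (deriv (prePar σ₀ L P)) t =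
      ((deriv (deriv P) t, σ₂ t, θ₂ t, 0) : LinkPar) := by
    rw [hd]
    exact ((((contDiff_infty_iff_deriv.1 hP).2.differentiable (by simp) t).hasDerivAt).prodMk
      ((((((smoothTransition_deriv_hasDerivAt (c 1 t)).comp t (hc 1 t)).mul_const L⁻¹).const_mul
        σ₀).neg).prodMk
      ((((smoothTransition_deriv_hasDerivAt (c 3 t)).comp t (hc 3 t)).mul_const L⁻¹).prodMk
        (hasDerivAt_const t (0 : Fin 6 → Fin 6 → ℝ))))).deriv
  have hi : 0 < L⁻¹ := inv_pos.2 hL0
  have hii : L⁻¹ * L⁻¹ ≤ L⁻¹ := mul_le_of_le_one_left hi.le (inv_le_one_of_one_le₀ hL)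
  have hσb : ∀ x, |x| ≤ B₀ → |σ₀ * (x * L⁻¹)| ≤ (|σ₀| + 1) * B₀ / L := fun x hx => by
    rw [abs_mul, abs_mul, abs_of_pos hi, div_eq_mul_inv]
    calc |σ₀| * (|x| * L⁻¹) ≤ (|σ₀| + 1) * (B₀ * L⁻¹) := by gcongr; linarith
      _ = _ := by ring
  have hθb : ∀ x, |x| ≤ B₀ → |x * L⁻¹| ≤ (|σ₀| + 1) * B₀ / L := fun x hx => by
    rw [abs_mul, abs_of_pos hi, div_eq_mul_inv]
    refine mul_le_mul_of_nonneg_right (hx.trans ?_) hi.le
    exact le_mul_of_one_le_left (by linarith) (by linarith [abs_nonneg σ₀])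
  have hz : 0 ≤ (|σ₀| + 1) * B₀ / L := by positivity
  refine ⟨?_, ?_, fun ht => ?_⟩
  · simp only [hd, Prod.norm_def, Real.norm_eq_abs, norm_zero]
    refine max_le (le_max_left _ _) (max_le ?_ (max_le ?_ ?_)) <;>
      refine le_trans ?_ (le_max_right _ _)
    · simp only [σ₁, abs_neg]; exact hσb _ (hsT _).1
    · exact hθb _ (hsT _).1
    · exact hz
  · simp only [hdd, Prod.norm_def, Real.norm_eq_abs, norm_zero]
    refine max_le (le_max_left _ _) (max_le ?_ (max_le ?_ ?_)) <;>
      refine le_trans ?_ (le_max_right _ _)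
    · simp only [σ₂, abs_neg]
      refine le_trans (le_of_eq (by ring_nf)) (hσb (deriv (deriv smoothTransition) (c 1 t) * L⁻¹) ?_)
      rw [abs_mul, abs_of_pos hi]
      exact (mul_le_mul (hsT _).2 (inv_le_one_of_one_le₀ hL) hi.le (by linarith)).trans_eq
        (mul_one _)
    · simp only [θ₂]
      refine hθb _ ?_
      rw [abs_mul, abs_of_pos hi]
      exact (mul_le_mul (hsT _).2 (inv_le_one_of_one_le₀ hL) hi.le (by linarith)).trans_eq
        (mul_one _)
    · exact hz
  · have h1 : ∀ k : ℝ, k ≤ 3 → 1 < c k t := fun k hk => by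
      simp only [c]
      rw [one_lt_div hL0]
      nlinarith
    have z1 := (smoothTransition_deriv_one (h1 1 (by norm_num))).1
    have z3 := (smoothTransition_deriv_one (h1 3 le_rfl)).1
    simp [hd, σ₁, θ₁, z1, z3, Prod.norm_def]

end Vale.Agent.P225.PathMetric
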