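import Vale.Agent.P225.Path.Defs

/-!
P225, module B: the time axis of the clusters and stages.
-/

noncomputable section

namespace Vale.Agent.P225.Sched

open Matrix Real
open scoped ContDiff

variable {d : PathData}

lemma planDur_nonneg (l : List StagePlan) : 0 ≤ planDur l := by
  refine List.sum_nonneg fun x hx => ?_
  obtain ⟨σ, -, rfl⟩ := List.mem_map.1 hx
  unfold StagePlan.dur; positivity

lemma three_le_dur (σ : StagePlan) : 3 ≤ σ.dur := by
  have : (0 : ℝ) ≤ σ.len + σ.wait + σ.dwell := by positivity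
  unfold StagePlan.dur; linarith

lemma planDur_take_succ (L : List StagePlan) {l : ℕ} (hl : l < L.length) :
    planDur (L.take (l + 1)) = planDur (L.take l) + L[l].dur := by
  unfold planDur
  rw [List.take_succ_eq_append_getElem hl, List.map_append, List.sum_append]
  simp

lemma planDur_take_mono (L : List StagePlan) {a b : ℕ} (h : a ≤ b) :
    planDur (L.take a) ≤ planDur (L.take b) := by
  obtain ⟨c, rfl⟩ := Nat.exists_eq_add_of_le h
  unfold planDur
  rw [List.take_add, List.map_append, List.sum_append]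
  exact le_add_of_nonneg_right (planDur_nonneg _)

lemma speed_pos {j : ℕ} (h : 1 ≤ j) : 0 < speed j := by
  have : (1 : ℝ) ≤ j := by exact_mod_cast h
  unfold speed; positivity

lemma speed_le_one (j : ℕ) : speed j ≤ 1 := by
  unfold speed
  rcases Nat.eq_zero_or_pos j with h | h
  · simp [h]
  · refine inv_le_one_of_one_le₀ (one_le_pow₀ ?_)
    exact_mod_cast h

lemma stageStart_succ (i : ℕ) {l : ℕ} (hl : l < (d.plan (d.j₀ + i)).length) :
    stageStart d i (l + 1) =
      stageStart d i l + (d.plan (d.j₀ + i))[l].dur / speed (d.j₀ + i) := by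
  unfold stageStart
  rw [planDur_take_succ _ hl, add_div, add_assoc]

lemma stageStart_mono (hj : 1 ≤ d.j₀) (i : ℕ) {a b : ℕ} (h : a ≤ b) :
    stageStart d i a ≤ stageStart d i b :=
  add_le_add le_rfl (div_le_div_of_nonneg_right (planDur_take_mono _ h)
    (speed_pos (by omega)).le)

lemma clusterStart_le_stage (hj : 1 ≤ d.j₀) (i l : ℕ) : clusterStart d i ≤ stageStart d i l :=
  le_add_of_nonneg_right (div_nonneg (planDur_nonneg _) (speed_pos (by omega)).le)

lemma stage_le_clusterStart_succ (hj : 1 ≤ d.j₀) (i l : ℕ) :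
    stageStart d i l + 1 ≤ clusterStart d (i + 1) := by
  have h1 : planDur ((d.plan (d.j₀ + i)).take l) ≤ planDur (d.plan (d.j₀ + i)) := by
    rcases le_total l (d.plan (d.j₀ + i)).length with h | h
    · exact (planDur_take_mono _ h).trans_eq (by rw [List.take_length])
    · rw [List.take_of_length_le h]
  have h2 := div_le_div_of_nonneg_right h1 (speed_pos (j := d.j₀ + i) (by omega)).le
  have h3 : (1 : ℝ) ≤ ((d.j₀ + i : ℕ) : ℝ) ^ 5 := one_le_pow₀ (by exact_mod_cast (by omega : 1 ≤ d.j₀ + i))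
  simp only [stageStart, clusterStart]
  linarith

lemma clusterStart_lt_succ (hj : 1 ≤ d.j₀) (i : ℕ) : clusterStart d i < clusterStart d (i + 1) := by
  have := stage_le_clusterStart_succ hj i 0
  have := clusterStart_le_stage hj i 0
  linarith

lemma j_pow_le_clusterStart (hj : 1 ≤ d.j₀) (i : ℕ) : (d.j₀ : ℝ) ^ 6 ≤ clusterStart d i := by
  induction i with
  | zero => simp [clusterStart]
  | succ i ih => exact ih.trans (clusterStart_lt_succ hj i).le

/-- A time lies in at most one stage. -/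
lemma inStage_unique (hj : 1 ≤ d.j₀) {t : ℝ} {a b : ℕ × ℕ} (ha : InStage d t a)
    (hb : InStage d t b) : a = b := by
  suffices key : ∀ a b : ℕ × ℕ, InStage d t a → InStage d t b → a.1 ≤ b.1 ∧
      (a.1 = b.1 → a.2 ≤ b.2) by
    obtain ⟨h1, h2⟩ := key a b ha hb
    obtain ⟨h3, h4⟩ := key b a hb ha
    have h := le_antisymm h1 h3
    exact Prod.ext h (le_antisymm (h2 h) (h4 h.symm))
  rintro ⟨i, l⟩ ⟨i', l'⟩ ⟨-, h1, h2⟩ ⟨-, h3, h4⟩
  refine ⟨?_, fun h => ?_⟩
  · by_contra hlt
    rw [not_le] at hlt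
    have hm : clusterStart d (i' + 1) ≤ clusterStart d i :=
      (monotone_nat_of_le_succ fun n => (clusterStart_lt_succ hj n).le) hlt
    have := stage_le_clusterStart_succ hj i' (l' + 1)
    have := clusterStart_le_stage hj i l
    simp only at h1 h4
    linarith
  · simp only at h
    subst h
    by_contra hlt
    rw [not_le] at hlt
    have := stageStart_mono hj i (show l' + 1 ≤ l from hlt)
    simp only at h1 h4
    linarith

lemma inStage_ge (hj : 1 ≤ d.j₀) {t : ℝ} {il : ℕ × ℕ} (h : InStage d t il) :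
    (d.j₀ : ℝ) ^ 6 ≤ t :=
  ((j_pow_le_clusterStart hj il.1).trans (clusterStart_le_stage hj il.1 il.2)).trans h.2.1

/-- Slow time in a stage. -/
lemma slow_mem (hj : 1 ≤ d.j₀) {t : ℝ} {i l : ℕ} (h : InStage d t (i, l)) :
    0 ≤ speed (d.j₀ + i) * (t - stageStart d i l) ∧
      speed (d.j₀ + i) * (t - stageStart d i l) < ((d.plan (d.j₀ + i))[l]'h.1).dur := by
  obtain ⟨hl, h1, h2⟩ := h
  have hs := speed_pos (j := d.j₀ + i) (by omega)
  simp only at h1 h2
  rw [stageStart_succ i hl] at h2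
  refine ⟨mul_nonneg hs.le (by linarith), ?_⟩
  have h3 : t - stageStart d i l < (d.plan (d.j₀ + i))[l].dur / speed (d.j₀ + i) := by linarith
  rw [lt_div_iff₀ hs] at h3
  linarith [h3]

lemma clusterStart_mono (hj : 1 ≤ d.j₀) : StrictMono (clusterStart d) :=
  strictMono_nat_of_lt_succ (clusterStart_lt_succ hj)

lemma clusterStart_growth (hj : 1 ≤ d.j₀) (hp : 0 < d.period)
    (hper : ∀ j, d.plan (j + d.period) = d.plan j) :
    ∃ C : ℝ, 0 < C ∧ ∀ i : ℕ,
      C⁻¹ * ((d.j₀ + i : ℕ) : ℝ) ^ 6 ≤ clusterStart d i ∧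
        clusterStart d i ≤ C * ((d.j₀ + i : ℕ) : ℝ) ^ 6 := by
  set D := ∑ j ∈ Finset.range d.period, planDur (d.plan j)
  have hD0 : 0 ≤ D := Finset.sum_nonneg fun j _ => planDur_nonneg _
  have hD : ∀ j, planDur (d.plan j) ≤ D := fun j => by
    rw [← Function.Periodic.map_mod_nat (f := d.plan) hper j]
    exact Finset.single_le_sum (f := fun j => planDur (d.plan j)) (fun k _ => planDur_nonneg _)
      (Finset.mem_range.2 (Nat.mod_lt j hp))
  refine ⟨63 + D, by linarith, fun i => ?_⟩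
  induction i with
  | zero =>
    simp only [clusterStart, Nat.add_zero]
    have : (0 : ℝ) ≤ (d.j₀ : ℝ) ^ 6 := by positivity
    refine ⟨mul_le_of_le_one_left this (inv_le_one_of_one_le₀ (by linarith)), ?_⟩
    exact le_mul_of_one_le_left this (by linarith)
  | succ i ih =>
    obtain ⟨x, hx⟩ : ∃ x : ℝ, x = ((d.j₀ + i : ℕ) : ℝ) := ⟨_, rfl⟩
    have hx1 : 1 ≤ x := hx ▸ by exact_mod_cast (by omega : 1 ≤ d.j₀ + i)
    have hcast : ((d.j₀ + (i + 1) : ℕ) : ℝ) = x + 1 := by rw [hx]; push_cast; ring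
    simp only [clusterStart, hcast, ← hx] at ih ⊢
    have hP := hD (d.j₀ + i)
    have hP0 := planDur_nonneg (d.plan (d.j₀ + i))
    have he : planDur (d.plan (d.j₀ + i)) / speed (d.j₀ + i) =
        planDur (d.plan (d.j₀ + i)) * x ^ 4 := by
      rw [speed, div_inv_eq_mul, hx]
    rw [he]
    have h45 : x ^ 4 ≤ x ^ 5 := pow_le_pow_right₀ hx1 (by norm_num)
    have hPx : planDur (d.plan (d.j₀ + i)) * x ^ 4 ≤ D * x ^ 5 :=
      mul_le_mul hP h45 (by positivity) hD0
    have hx5 : 0 ≤ x ^ 5 := by positivity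
    have hbin : x ^ 6 + 6 * x ^ 5 ≤ (x + 1) ^ 6 ∧ (x + 1) ^ 6 ≤ x ^ 6 + 63 * x ^ 5 := by
      have e : (x + 1) ^ 6 =
          x ^ 6 + 6 * x ^ 5 + 15 * x ^ 4 + 20 * x ^ 3 + 15 * x ^ 2 + 6 * x + 1 := by ring
      have := pow_le_pow_right₀ hx1 (show 3 ≤ 5 by norm_num)
      have := pow_le_pow_right₀ hx1 (show 2 ≤ 5 by norm_num)
      have := pow_le_pow_right₀ hx1 (show 1 ≤ 5 by norm_num)
      have := pow_le_pow_right₀ hx1 (show 0 ≤ 5 by norm_num)
      have : 0 ≤ x ^ 4 ∧ 0 ≤ x ^ 3 ∧ 0 ≤ x ^ 2 := ⟨by positivity, by positivity, by positivity⟩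
      constructor <;> linarith
    obtain ⟨ih1, ih2⟩ := ih
    constructor
    · have hinv : (63 + D)⁻¹ * (63 * x ^ 5) ≤ x ^ 5 := by
        rw [inv_mul_le_iff₀ (by linarith)]
        exact mul_le_mul_of_nonneg_right (by linarith) hx5
      have := mul_le_mul_of_nonneg_left hbin.2 (show 0 ≤ (63 + D)⁻¹ by positivity)
      have : 0 ≤ planDur (d.plan (d.j₀ + i)) * x ^ 4 := mul_nonneg hP0 (by positivity)
      linarith
    · have := mul_le_mul_of_nonneg_left hbin.1 (show (0 : ℝ) ≤ 63 + D by linarith)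
      have : (D + 1) * x ^ 5 ≤ (63 + D) * (6 * x ^ 5) := by
        have : 0 ≤ D * x ^ 5 := mul_nonneg hD0 hx5
        linarith
      linarith

end Vale.Agent.P225.Sched
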